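import Vale.Agent.P106.U.H420.SlR
import Vale.Agent.P106.U.H833.Near
import Vale.Agent.P106.U.H300.Gen

/-!
# P106 / U / H420 : the sums of the informations of the M-steps over the caps and over the steps (helper420)

* `tele_Ico`, `f2_gen` : telescoping over an interval of caps, any letters.
* `SR_up` : `H(SR j b | T j, cell i b) ≤ log (5 N₀) + g log 2`; `SR_down` : `SR i b` is a function of the cell of a later
  step outside a generic event.
* **`f2_phi`** : `∑_b I(T j, SR j b ; cell k (b+β), v to b+p digits | cell k b, SR k b) ≤ β H + ∑ ν`, deep phi regime.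
* **`f2_kap`** : the same for `Θ = T j`, `D = cell k b`.
* `f1_step`, **`f1_sum`** : `I(Y ; cell i' b | (cell k b, SR k b), (T i', SR i' b))` summed over the steps.
-/

set_option autoImplicit false

namespace Vale.Agent.P106.U.H420

open Finset Vale.Agent.P127 Vale.Agent.P127.Stk Vale.Agent.P106.U.Cell
open Vale.Agent.P127.U.CellD (q2 rd Nb q2_pos q2_add q2_le q2_mul_pow fl1_fl1)
open Vale.Agent.P106.U.H833 (mi_near mi_near_mono tele_near tele_near')
open Vale.Agent.P106.U.H300 (wo gen_one prE_exists_fin)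
open Vale.Agent.P106.U.H364 (nhc fl1_le_of_near)

/-! ### abstract part -/

section abs

variable {Ω : Type} [Fintype Ω] (P : Law Ω) {S S' T U V : Type*}

/-- **telescoping over an interval of caps** -/
theorem tele_Ico (X : Ω → U) (D : ℕ → Ω → S) (ν : ℕ → ℝ) (c0 n β : ℕ) {H : ℝ}
    (hν : ∀ b, c0 ≤ b → b < c0 + n → hc P (D b) (D (b + β)) ≤ ν b)
    (hH : ∀ b, c0 ≤ b → b < c0 + β → hc P X (D b) ≤ H) :
    ∑ b ∈ Ico c0 (c0 + n), mi P X (D (b + β)) (D b) ≤ β * H + ∑ b ∈ Ico c0 (c0 + n), ν b := by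
  rw [Finset.sum_Ico_eq_sum_range, Finset.sum_Ico_eq_sum_range, Nat.add_sub_cancel_left]
  have h := tele_near P X (fun i => D (c0 + i)) (fun i => ν (c0 + i)) n β (H := H)
    (fun j hj => by
      have := hν (c0 + j) (by omega) (by omega)
      rwa [add_assoc] at this)
    (fun j hj => hH (c0 + j) (by omega) (by omega))
  refine le_trans (le_of_eq ?_) h
  refine Finset.sum_congr rfl fun i _ => ?_
  rw [add_assoc]

/-- the same with a function `W b` of the deeper cell -/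
theorem f2_gen (X : Ω → U) (D : ℕ → Ω → S) (W : ℕ → Ω → V) (ν : ℕ → ℝ) (c0 n β : ℕ) {H : ℝ}
    (hW : ∀ b, c0 ≤ b → b < c0 + n → Fn P (W b) (D (b + β)))
    (hν : ∀ b, c0 ≤ b → b < c0 + n → hc P (D b) (D (b + β)) ≤ ν b)
    (hH : ∀ b, c0 ≤ b → b < c0 + β → hc P X (D b) ≤ H) :
    ∑ b ∈ Ico c0 (c0 + n), mi P X (W b) (D b) ≤ β * H + ∑ b ∈ Ico c0 (c0 + n), ν b := by
  refine (Finset.sum_le_sum fun b hb => ?_).trans (tele_Ico P X D ν c0 n β hν hH)
  rw [Finset.mem_Ico] at hb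
  exact mi_mono_right P X fun ω ω' p p' e => hW b hb.1 hb.2 ω ω' p p' (congrArg Prod.fst e)

/-- entropy of a pair -/
theorem hc_pair_le (X : Ω → S) (Y : Ω → T) (Z : Ω → U) :
    hc P (fun ω => (X ω, Y ω)) Z ≤ hc P X Z + hc P Y Z := by
  rw [hc_pair]
  have := hc_mono_right P Y (Y := Z) (Y' := fun ω => (X ω, Z ω)) fun _ _ _ _ e => congrArg Prod.snd e
  linarith

/-- digits within `M + 1` : at most `2 M + 3` values -/
theorem few_fl {X : Ω → ℤ} {Y : Ω → T} {M : ℕ}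
    (h : ∀ ω ω', 0 < P.w ω → 0 < P.w ω' → Y ω = Y ω' → |X ω' - X ω| ≤ M + 1) :
    ∀ ω, 0 < P.w ω → ∃ F : Finset ℤ, F.card ≤ 2 * M + 3 ∧ ∀ ω', 0 < P.w ω' → Y ω' = Y ω → X ω' ∈ F := by
  intro ω hω
  refine ⟨Finset.Icc (X ω - (M + 1)) (X ω + (M + 1)), ?_, fun ω' hω' e => ?_⟩
  · rw [Int.card_Icc]
    omega
  · have := abs_le.1 (h ω ω' hω hω' e.symm)
    rw [Finset.mem_Icc]
    constructor <;> linarith [this.1, this.2]

/-- finer digits -/
theorem hc_fl_finer {x : Ω → ℝ} {Y : Ω → T} {s p : ℕ} (h : Fn P (fun ω => fl1 s (x ω)) Y) :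
    hc P (fun ω => fl1 (s + p) (x ω)) Y ≤ p * Real.log 2 := by
  have e := hc_le_log P (fun ω => fl1 (s + p) (x ω)) Y (2 ^ p) (fun ω hω => ?_)
  · push_cast at e
    rwa [Real.log_pow] at e
  refine ⟨Finset.Ico (2 ^ p * fl1 s (x ω)) (2 ^ p * fl1 s (x ω) + 2 ^ p), ?_, fun ω' hω' e => ?_⟩
  · rw [Int.card_Ico]
    simp
  · have e2 := h ω' ω hω' hω e
    rw [Finset.mem_Ico]
    have h2 : (0 : ℝ) < 2 ^ p := by positivity
    have a1 := Int.floor_le ((2 : ℝ) ^ s * x ω')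
    have a2 := Int.lt_floor_add_one ((2 : ℝ) ^ s * x ω')
    have e3 : fl1 s (x ω) = ⌊(2 : ℝ) ^ s * x ω'⌋ := e2.symm
    have e4 : fl1 (s + p) (x ω') = ⌊(2 : ℝ) ^ p * ((2 : ℝ) ^ s * x ω')⌋ := by
      unfold fl1
      rw [pow_add]
      congr 1
      ring
    rw [e3, e4]
    constructor
    · rw [Int.le_floor]
      push_cast
      exact mul_le_mul_of_nonneg_left a1 h2.le
    · rw [Int.floor_lt]
      push_cast
      nlinarith

end abs

/-! ### the digits of the true slope -/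

section slope

variable {Ω τ : Type} [Fintype Ω] {K : ℝ}

/-- the digits of the slope of a later step, given the cell and the later letter -/
theorem SR_up (P : Law Ω) (C : Pth Ω τ) (h1 : 1 ≤ K) (hok : ∀ ω, 0 < P.w ω → C.Ok K ω) {i j b : ℕ}
    (hij : i ≤ j) (hl : C.Lev i b) {N0 g : ℕ} (hN : 43 * K ^ 5 ≤ N0)
    (hg : C.a j - C.a i + (C.rf j - C.R i b) + 3 * C.μ ≤ g) :
    hc P (SR C j b) (fun ω => (C.T j ω, C.cell i b ω)) ≤ Real.log (5 * N0) + g * Real.log 2 := by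
  have hN1 : 1 ≤ N0 := by
    have : (1 : ℝ) ≤ N0 := le_trans (by have := one_le_pow₀ (n := 5) h1; linarith) hN
    exact_mod_cast this
  have hM : 1 ≤ N0 * 2 ^ g := Nat.one_le_iff_ne_zero.2 (by positivity)
  have e := hc_le_log P (SR C j b) (fun ω => (C.T j ω, C.cell i b ω)) (2 * (N0 * 2 ^ g) + 3)
    (few_fl P fun ω ω' hω hω' e => ?_)
  · refine e.trans ?_
    have hN2 : (0 : ℝ) < N0 := by exact_mod_cast hN1
    have e1 : Real.log (5 * N0) + g * Real.log 2 = Real.log (5 * N0 * 2 ^ g) := by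
      rw [Real.log_mul (x := 5 * (N0 : ℝ)) (by positivity) (by positivity), Real.log_pow]
    rw [e1]
    refine Real.log_le_log (by positivity) ?_
    have : (1 : ℝ) ≤ N0 * 2 ^ g := by exact_mod_cast hM
    push_cast
    linarith
  · simp only [Prod.mk.injEq] at e
    have h := slR_up h1 (hok ω hω) (hok ω' hω') hij hl e.2 e.1
    unfold SR
    refine fl1_le_of_near (M := N0 * 2 ^ g) ?_
    rw [add_sub_add_right_eq_sub]
    refine h.trans ?_
    have hR := C.R_le_rf i b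
    have hf := C.hf hij
    have hl2 := hl.2
    have e2 : q2 (C.R i b - 3 * C.μ) = 2 ^ (C.rf j - C.R i b + 3 * C.μ) * q2 (C.rf j) := by
      have := q2_sub (m := C.rf j - C.R i b + 3 * C.μ) (n := C.rf j) (by omega)
      rwa [show C.rf j - (C.rf j - C.R i b + 3 * C.μ) = C.R i b - 3 * C.μ by omega] at this
    rw [e2]
    have q := q2_pos (C.rf j)
    have w : (2 : ℝ) ^ (C.a j - C.a i) * 2 ^ (C.rf j - C.R i b + 3 * C.μ) ≤ 2 ^ g := by
      rw [← pow_add]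
      exact pow_le_pow_right₀ (by norm_num) (by omega)
    push_cast
    calc 43 * K ^ 5 * 2 ^ (C.a j - C.a i) * (2 ^ (C.rf j - C.R i b + 3 * C.μ) * q2 (C.rf j)) =
        43 * K ^ 5 * (2 ^ (C.a j - C.a i) * 2 ^ (C.rf j - C.R i b + 3 * C.μ)) * q2 (C.rf j) := by ring
      _ ≤ N0 * 2 ^ g * q2 (C.rf j) := by gcongr

/-- generic event of the digits of the true slope -/
def BadS (C : Pth Ω τ) (K : ℝ) (i b : ℕ) (ω : Ω) : Prop :=
  Nb (C.rf i) (slR C i b ω + C.o 4) (K * q2 (C.rf i + C.μ))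

/-- closeness of the slopes, in units of the last digit -/
lemma SR_close {C : Pth Ω τ} {ω ω' : Ω} (h1 : 1 ≤ K) (hK : C.Ok K ω) (hK' : C.Ok K ω') {i j b : ℕ}
    (hij : i ≤ j) (hl : C.Lev j b) (h2 : C.rf i + 4 * C.μ ≤ C.R j b)
    (h3 : C.rf i + 2 * C.μ ≤ C.rk i + b) (h : C.cell j b ω = C.cell j b ω') :
    |slR C i b ω' - slR C i b ω| ≤ 32 * K ^ 5 * q2 (C.rf i + C.μ) := by
  refine (slR_down h1 hK hK' hij hl h).trans ?_
  have a1 : q2 (C.R j b - 3 * C.μ) ≤ q2 (C.rf i + C.μ) := q2_le (by omega)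
  have a2 : q2 (C.rk i + b - C.μ) ≤ q2 (C.rf i + C.μ) := q2_le (by omega)
  have k : K ^ 3 ≤ K ^ 5 := pow_le_pow_right₀ h1 (by norm_num)
  have q := q2_pos (C.rf i + C.μ)
  have K0 : 0 ≤ K := by linarith
  calc _ ≤ 6 * K ^ 5 * q2 (C.rf i + C.μ) + 26 * K ^ 5 * q2 (C.rf i + C.μ) := by
        have := (q2_pos (C.R j b - 3 * C.μ)).le
        gcongr
    _ = _ := by ring

/-- **the digits of the true slope are a function of the cell of a later step**, outside a generic event -/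
theorem SR_down (P : Law Ω) (C : Pth Ω τ) (h1 : 1 ≤ K) (hok : ∀ ω, 0 < P.w ω → C.Ok K ω) {i j b : ℕ}
    (hij : i ≤ j) (hl : C.Lev j b) (h2 : C.rf i + 4 * C.μ ≤ C.R j b)
    (h3 : C.rf i + 2 * C.μ ≤ C.rk i + b) {K' : ℝ} (hK' : 32 * K ^ 5 ≤ K') {M : ℕ} (hM : 32 * K ^ 5 ≤ M) :
    hc P (SR C i b) (C.cell j b) ≤
      (2 + Real.log (2 * M + 3)) * Real.sqrt (prE P (BadS C K' i b)) := by
  have e := nhc P (SR C i b) (C.cell j b) (BadS C K' i b) (2 * M + 3) (by omega)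
    (fun ω ω' hω hω' n _ e => ?_) (few_fl P fun ω ω' hω hω' e => ?_)
  · push_cast at e
    exact e
  · have h := SR_close h1 (hok ω hω) (hok ω' hω') hij hl h2 h3 e
    have q := q2_pos (C.rf i + C.μ)
    have h' : |slR C i b ω' - slR C i b ω| ≤ K' * q2 (C.rf i + C.μ) :=
      h.trans (mul_le_mul_of_nonneg_right hK' q.le)
    unfold BadS at n
    unfold SR
    refine Vale.Agent.P127.U.CellD.Nb.eq n ?_ ?_
    · rw [sub_self, abs_zero]
      exact (abs_nonneg _).trans h'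
    · rwa [add_sub_add_right_eq_sub]
  · have h := SR_close h1 (hok ω hω) (hok ω' hω') hij hl h2 h3 e
    unfold SR
    refine fl1_le_of_near (M := M) ?_
    rw [add_sub_add_right_eq_sub]
    have q := q2_pos (C.rf i + C.μ)
    have q' : q2 (C.rf i + C.μ) ≤ q2 (C.rf i) := q2_le (by omega)
    have K5 : 0 ≤ 32 * K ^ 5 := by positivity
    calc _ ≤ 32 * K ^ 5 * q2 (C.rf i + C.μ) := h
      _ ≤ 32 * K ^ 5 * q2 (C.rf i) := mul_le_mul_of_nonneg_left q' K5
      _ ≤ _ := mul_le_mul_of_nonneg_right hM (q2_pos _).le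

/-! ### sums over the caps -/

/-- the letter of the cell -/
lemma T_cell (P : Law Ω) (C : Pth Ω τ) {i j b : ℕ} (hij : i ≤ j) : Fn P (C.T i) (C.cell j b) :=
  fun _ _ _ _ e => Pth.T_mono hij (Pth.cell_iff.1 e).1

/-- the velocity of the cell -/
lemma v_cell (P : Law Ω) (C : Pth Ω τ) {i b p β : ℕ} (hp : p ≤ β) :
    Fn P (fun ω => fl1 (b + p) (C.l ω).v) (C.cell i (b + β)) :=
  fun _ _ _ _ e => fl1_fl1 (by omega) (Pth.cell_iff.1 e).2.1

/-- **[F2], deep phi regime** -/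
theorem f2_phi (P : Law Ω) (C : Pth Ω τ) (h1 : 1 ≤ K) (hok : ∀ ω, 0 < P.w ω → C.Ok K ω) {k j : ℕ}
    (hkj : k ≤ j) {c0 n β p : ℕ} (hp : p ≤ β) (hb : 8 * C.μ ≤ c0) (hr : 8 * C.μ ≤ C.rf k)
    (hk : C.rf k - C.rk k ≤ c0) (hj : C.rf j - C.rk j ≤ c0) {N0 g : ℕ} (hN : 43 * K ^ 5 ≤ N0)
    (hg : C.a j - C.a k + (C.rf j - C.rf k) + 3 * C.μ ≤ g) {HT : ℝ} (hT : hc P (C.T j) (C.T k) ≤ HT)
    (ν : ℕ → ℝ) (hν : ∀ b, c0 ≤ b → b < c0 + n → hc P (C.cell k b) (C.cell k (b + β)) ≤ ν b) :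
    ∑ b ∈ Ico c0 (c0 + n), mi P (fun ω => (C.T j ω, SR C j b ω))
        (fun ω => (C.cell k (b + β) ω, fl1 (b + p) (C.l ω).v)) (fun ω => (C.cell k b ω, SR C k b ω)) ≤
      β * (HT + (Real.log (5 * N0) + g * Real.log 2)) + ∑ b ∈ Ico c0 (c0 + n), ν b := by
  have h := f2_gen P (fun ω => (C.T j ω, SR C j c0 ω)) (fun b ω => (C.cell k b ω, SR C k c0 ω))
    (fun b ω => (C.cell k (b + β) ω, fl1 (b + p) (C.l ω).v)) ν c0 n β
    (H := HT + (Real.log (5 * N0) + g * Real.log 2)) ?_ ?_ ?_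
  · refine le_trans (le_of_eq ?_) h
    refine Finset.sum_congr rfl fun b hb' => ?_
    rw [Finset.mem_Ico] at hb'
    rw [SR_eq_of_le (hj.trans hb'.1) hj, SR_eq_of_le (hk.trans hb'.1) hk]
  · intro b _ _ ω ω' p1 p2 e
    simp only [Prod.mk.injEq] at e ⊢
    exact ⟨e.1, v_cell P C hp ω ω' p1 p2 e.1⟩
  · intro b hb1 hb2
    refine le_trans ?_ (hν b hb1 hb2)
    refine (hc_mono_left P (X' := C.cell k b) ?_).trans (hc_mono_right P _ ?_)
    · intro ω ω' _ _ e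
      simp only [Prod.mk.injEq] at e ⊢
      exact ⟨e.1, e.2.2⟩
    · intro ω ω' _ _ e
      simp only [Prod.mk.injEq] at e
      exact e.1
  · intro b hb1 hb2
    have hRk : C.R k b = C.rf k := R_eq_of_le (hk.trans hb1)
    have hl : C.Lev k b := ⟨by omega, by rw [hRk]; exact hr⟩
    have e1 := hc_le_add P (fun ω => (C.T j ω, SR C j c0 ω)) (C.T j)
      (fun ω => (C.cell k b ω, SR C k c0 ω))
    have e2 : hc P (C.T j) (fun ω => (C.cell k b ω, SR C k c0 ω)) ≤ HT := by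
      refine (hc_mono_right P _ ?_).trans hT
      intro ω ω' p1 p2 e
      simp only [Prod.mk.injEq] at e
      exact T_cell P C le_rfl ω ω' p1 p2 e.1
    have e3 : hc P (fun ω => (C.T j ω, SR C j c0 ω))
        (fun ω => (C.T j ω, (C.cell k b ω, SR C k c0 ω))) ≤
        hc P (SR C j b) (fun ω => (C.T j ω, C.cell k b ω)) := by
      refine (hc_mono_left P (X' := SR C j b) ?_).trans (hc_mono_right P _ ?_)
      · intro ω ω' _ _ e
        simp only [Prod.mk.injEq] at e ⊢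
        rw [SR_eq_of_le (hj.trans hb1) hj] at e
        exact ⟨e.2.1, e.1⟩
      · intro ω ω' _ _ e
        simp only [Prod.mk.injEq] at e ⊢
        exact ⟨e.1, e.2.1⟩
    have e4 := SR_up P C h1 hok hkj hl hN (g := g) (by rw [hRk]; exact hg)
    linarith

/-- **[F2], kappa regime** -/
theorem f2_kap (P : Law Ω) (C : Pth Ω τ) {k j : ℕ} {c0 n β p : ℕ} (hp : p ≤ β)
    {HT : ℝ} (hT : hc P (C.T j) (C.T k) ≤ HT) (ν : ℕ → ℝ)
    (hν : ∀ b, c0 ≤ b → b < c0 + n → hc P (C.cell k b) (C.cell k (b + β)) ≤ ν b) :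
    ∑ b ∈ Ico c0 (c0 + n), mi P (C.T j)
        (fun ω => (C.cell k (b + β) ω, fl1 (b + p) (C.l ω).v)) (C.cell k b) ≤
      β * HT + ∑ b ∈ Ico c0 (c0 + n), ν b := by
  refine f2_gen P (C.T j) (fun b => C.cell k b)
    (fun b ω => (C.cell k (b + β) ω, fl1 (b + p) (C.l ω).v)) ν c0 n β ?_ hν ?_
  · intro b _ _ ω ω' p1 p2 e
    exact Prod.ext e (v_cell P C hp ω ω' p1 p2 e)
  · intro b _ _
    exact (hc_mono_right P _ (T_cell P C le_rfl)).trans hT

/-! ### sums over the steps -/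

/-- **[F1], one step, deep phi regime** -/
theorem f1_step (P : Law Ω) (C : Pth Ω τ) {U : Type*} (Y : Ω → U) {k i' i'' b : ℕ} :
    mi P Y (C.cell i' b) (fun ω => ((C.cell k b ω, SR C k b ω), (C.T i' ω, SR C i' b ω))) ≤
      mi P Y (C.cell i'' b) (C.cell k b) +
        (hc P (C.cell i' b) (C.cell i'' b) + hc P (SR C k b) (C.cell i'' b) +
          hc P (SR C i' b) (C.cell i'' b)) := by
  have a1 := mi_pair P Y (fun ω => (SR C k b ω, (C.T i' ω, SR C i' b ω))) (C.cell i' b) (C.cell k b)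
  have a2 := mi_nonneg P Y (fun ω => (SR C k b ω, (C.T i' ω, SR C i' b ω))) (C.cell k b)
  have a3 : mi P Y (C.cell i' b) (fun ω => ((C.cell k b ω, SR C k b ω), (C.T i' ω, SR C i' b ω))) =
      mi P Y (C.cell i' b) (fun ω => ((SR C k b ω, (C.T i' ω, SR C i' b ω)), C.cell k b ω)) := by
    refine mi_congr_cond P Y _ ?_ ?_
    · intro ω ω' _ _ e
      simp only [Prod.mk.injEq] at e ⊢
      tauto
    · intro ω ω' _ _ e
      simp only [Prod.mk.injEq] at e ⊢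
      tauto
  have a4 : mi P Y (fun ω => ((SR C k b ω, (C.T i' ω, SR C i' b ω)), C.cell i' b ω)) (C.cell k b) ≤
      mi P Y (fun ω => (C.cell i' b ω, (SR C k b ω, SR C i' b ω))) (C.cell k b) := by
    refine mi_mono_right P Y fun ω ω' p p' e => ?_
    simp only [Prod.mk.injEq] at e ⊢
    exact ⟨⟨e.1.2.1, (Pth.cell_iff.1 e.1.1).1, e.1.2.2⟩, e.1.1⟩
  have a5 := mi_near_mono P Y (C.cell k b) (fun ω => (C.cell i' b ω, (SR C k b ω, SR C i' b ω)))
    (C.cell i'' b)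
  have a6 := hc_pair_le P (C.cell i' b) (fun ω => (SR C k b ω, SR C i' b ω)) (C.cell i'' b)
  have a7 := hc_pair_le P (SR C k b) (SR C i' b) (C.cell i'' b)
  linarith

/-- [F1], one step, kappa regime -/
theorem f1_step_kap (P : Law Ω) (C : Pth Ω τ) {U : Type*} (Y : Ω → U) {k i' : ℕ} {b : ℕ} :
    mi P Y (C.cell i' b) (fun ω => (C.cell k b ω, C.T i' ω)) ≤ mi P Y (C.cell i' b) (C.cell k b) := by
  have h : mi P Y (C.cell i' b) (fun ω => (C.cell k b ω, C.T i' ω)) =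
      mi P Y (C.cell i' b) (fun ω => (C.T i' ω, C.cell k b ω)) :=
    mi_congr_cond P Y _ (fun ω ω' _ _ e => by
      simp only [Prod.mk.injEq] at e ⊢; exact ⟨e.2, e.1⟩) (fun ω ω' _ _ e => by
      simp only [Prod.mk.injEq] at e ⊢; exact ⟨e.2, e.1⟩)
  rw [h, mi_symm P Y, mi_symm P Y]
  exact mi_cond_le P Y (C.cell k b) fun ω ω' _ _ e => by
    simp only [Prod.mk.injEq] at e
    exact (Pth.cell_iff.1 e.1).1

/-- **[F1]** : sum over the steps `s ⊆ {0, .., n-1}`, targets `i'' j ∈ [j, j + L]`, letter `Y` -/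
theorem f1_sum (P : Law Ω) (C : Pth Ω τ) {U : Type*} (Y : Ω → U) (b n L : ℕ) (s : Finset ℕ)
    (hs : s ⊆ range n) (i'' : ℕ → ℕ) (ν ν' : ℕ → ℝ) {H : ℝ}
    (hν : ∀ j < n, hc P (C.cell j b) (C.cell (j + L) b) ≤ ν j)
    (hν' : ∀ j ∈ s, hc P (C.cell (i'' j) b) (C.cell (j + L) b) ≤ ν' j)
    (hH : ∀ j < L, hc P Y (C.cell j b) ≤ H) :
    ∑ j ∈ s, mi P Y (C.cell (i'' j) b) (C.cell j b) ≤ L * H + ∑ j ∈ range n, ν j + ∑ j ∈ s, ν' j :=
  tele_near' P Y (fun j => C.cell j b) ν ν' n L s hs i'' hν hν' hH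

/-- the letter `v` to `b + p` digits, given the cell -/
theorem hc_v (P : Law Ω) (C : Pth Ω τ) (i b p : ℕ) :
    hc P (fun ω => fl1 (b + p) (C.l ω).v) (C.cell i b) ≤ p * Real.log 2 :=
  hc_fl_finer P fun _ _ _ _ e => (Pth.cell_iff.1 e).2.1

end slope

/-! ### generic offsets, with the digits of the true slope -/

section gen

variable {Ω τ : Type} [Fintype Ω] {ι ι' : Type*}

omit [Fintype Ω] in
theorem wo_slR (C : Pth Ω τ) (o : Fin 7 → ℝ) : slR (wo C o) = slR C := by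
  funext i b ω
  unfold slR
  rw [H300.wo_F, H300.wo_bs, H300.wo_l, H300.wo_s]
  rfl

/-- **[GEN]** with the digits of the true slope -/
theorem gen2 (P : Law Ω) (C : Pth Ω τ) (S : Finset ι) (i b : ι → ℕ) (S' : Finset ι') (i' b' : ι' → ℕ)
    {K : ℝ} (hK : 0 ≤ K) :
    ∃ o : Fin 7 → ℝ, (∀ k, 0 < o k ∧ o k ≤ 1) ∧
      ∑ x ∈ S, prE P ((wo C o).Bad K (i x) (b x)) + ∑ x ∈ S', prE P (BadS (wo C o) K (i' x) (b' x)) ≤
        (14 * S.card + 2 * S'.card) * K * q2 C.μ := by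
  classical
  obtain ⟨o1, p1, q1, g1⟩ := gen_one P S (fun x => C.lv (i x) (b x) 1)
    (fun x ω => C.va (i x) (b x) ω 1) hK C.μ
  obtain ⟨o4, p4, q4, g4⟩ := gen_one P (S.disjSum S')
    (fun x => Sum.elim (fun x => C.lv (i x) (b x) 4) (fun x => C.rf (i' x)) x)
    (fun x ω => Sum.elim (fun x => C.va (i x) (b x) ω 4) (fun x => slR C (i' x) (b' x) ω) x) hK C.μ
  rw [Finset.sum_disjSum, Finset.card_disjSum] at g4
  simp only [Sum.elim_inl, Sum.elim_inr] at g4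
  set o' : Fin 7 → ℝ := fun k => if k = 1 then o1 else o4 with ho'
  have key : ∀ k : Fin 7, ∃ ξ : ℝ, (k = 1 → ξ = o1) ∧ (k = 4 → ξ = o4) ∧ 0 < ξ ∧ ξ ≤ 1 ∧
      (k ≠ 4 → ∑ x ∈ S, prE P (fun ω => Nb (C.lv (i x) (b x) k) ((wo C o').va (i x) (b x) ω k + ξ)
        (K * q2 (C.lv (i x) (b x) k + C.μ))) ≤ 2 * K * S.card * q2 C.μ) := by
    intro k
    by_cases h1 : k = 1
    · subst h1
      refine ⟨o1, fun _ => rfl, fun h => absurd h (by decide), p1, q1, fun _ => ?_⟩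
      simp only [H300.wo_va1]
      exact g1
    by_cases h4 : k = 4
    · subst h4
      exact ⟨o4, fun h => absurd h (by decide), fun _ => rfl, p4, q4, fun h => absurd rfl h⟩
    obtain ⟨ξ, h5, h6, h7⟩ := gen_one P S (fun x => C.lv (i x) (b x) k)
      (fun x ω => (wo C o').va (i x) (b x) ω k) hK C.μ
    exact ⟨ξ, fun h => absurd h h1, fun h => absurd h h4, h5, h6, fun _ => h7⟩
  choose o e1 e4 hp hq hg using key
  refine ⟨o, fun k => ⟨hp k, hq k⟩, ?_⟩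
  have h1 : o 1 = o' 1 := by rw [e1 1 rfl, ho']; simp
  have h4 : o 4 = o' 4 := by rw [e4 4 rfl, ho']; simp
  have h4' : o 4 = o4 := e4 4 rfl
  have h : ∀ x ∈ S, prE P ((wo C o).Bad K (i x) (b x)) ≤
      ∑ k, prE P (fun ω => Nb (C.lv (i x) (b x) k) ((wo C o').va (i x) (b x) ω k + o k)
        (K * q2 (C.lv (i x) (b x) k + C.μ))) := by
    intro x _
    have := prE_exists_fin P (fun k ω => Nb ((wo C o).lv (i x) (b x) k)
      ((wo C o).va (i x) (b x) ω k + o k) (K * q2 ((wo C o).lv (i x) (b x) k + C.μ)))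
    simp only [H300.wo_lv, H300.wo_va C h1 h4] at this
    refine le_trans (le_of_eq ?_) this
    congr 1
    funext ω
    unfold Pth.Bad
    rw [H300.wo_lv, H300.wo_va C h1 h4, H300.wo_μ]
    rfl
  have hS := Finset.sum_le_sum h
  rw [Finset.sum_comm] at hS
  have hS' : ∑ x ∈ S', prE P (BadS (wo C o) K (i' x) (b' x)) =
      ∑ x ∈ S', prE P (fun ω => Nb (C.rf (i' x)) (slR C (i' x) (b' x) ω + o4)
        (K * q2 (C.rf (i' x) + C.μ))) := by
    refine Finset.sum_congr rfl fun x _ => ?_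
    congr 1
    funext ω
    unfold BadS
    rw [wo_slR, ← h4']
    rfl
  -- the part `k = 4`
  have k4 : ∑ x ∈ S, prE P (fun ω => Nb (C.lv (i x) (b x) 4) ((wo C o').va (i x) (b x) ω 4 + o 4)
        (K * q2 (C.lv (i x) (b x) 4 + C.μ))) +
      ∑ x ∈ S', prE P (BadS (wo C o) K (i' x) (b' x)) ≤ 2 * K * (S.card + S'.card) * q2 C.μ := by
    rw [hS', h4']
    simp only [H300.wo_va4]
    push_cast at g4
    exact g4
  rw [← Finset.add_sum_erase Finset.univ _ (Finset.mem_univ (4 : Fin 7))] at hS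
  have k5 : ∑ k ∈ Finset.univ.erase (4 : Fin 7), ∑ x ∈ S,
      prE P (fun ω => Nb (C.lv (i x) (b x) k) ((wo C o').va (i x) (b x) ω k + o k)
        (K * q2 (C.lv (i x) (b x) k + C.μ))) ≤ 6 * (2 * K * S.card * q2 C.μ) := by
    refine (Finset.sum_le_sum fun k hk => hg k (Finset.ne_of_mem_erase hk)).trans (le_of_eq ?_)
    rw [Finset.sum_const, Finset.card_erase_of_mem (Finset.mem_univ _), Finset.card_univ,
      Fintype.card_fin, nsmul_eq_mul]
    norm_num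
  nlinarith

end gen

end Vale.Agent.P106.U.H420
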