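import Vale.Agent.P106.U.H785.MtrOk
import Vale.Agent.P106.U.H101.Cell2
import Vale.Agent.P106.U.H364.N4

/-!
# P106 / U / H420 : cells of two caps of one step (helper420), [MTR-B]

* `hc_two` : `H(C.cell i b | Y) ≤ (6 + 10 log ..) √P(Bad)`, `C`, `C₂` as in 101's `cell2`, `Y` finer than `(C.T i, C₂.cell i₂ b₂)`.
* `deep_caps`, `hc_deep` : ONE path, ONE step, `b + 8 μ ≤ b₂`, deep phi regime (`rf i ≤ rk i + b`, so `R` is the same):
  the cell `(i, b₂)` determines the cell `(i, b)` outside `Bad`.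
* `hc_caps` : one path, one step: `R i b + μ ≤ R i b₂` or deep phi regime.
* `Sm X Y i` : two data (785) over the same real numbers, `Y` finer. `lt_of` : `X.lt i` is an exact function of `Y.lt i` and of
  the prefix. **`mtr_caps`** : `Y.mtr i b₂` determines `X.mtr i b` outside `Bad`, if `R_X i b + μ ≤ R_Y i b₂`, `b + 2 μ ≤ b₂`;
  **`hc_mtr`** : entropy form.  **`hc_mtr_deep`** : the same data, deep phi regime.
-/

set_option autoImplicit false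

namespace Vale.Agent.P106.U.H420

open Finset Vale.Agent.P127 Vale.Agent.P127.Stk
open Vale.Agent.P127.U.CellD
open Vale.Agent.P106.U.Cell Vale.Agent.P106.U.Cell.Pth
open Vale.Agent.P106.U.H785.Mtr

/-! ### general paths -/

section gen

variable {Ω τ τ2 : Type} {C : Pth Ω τ} {C2 : Pth Ω τ2} {i i2 b b2 : ℕ} {ω ω' : Ω} {K c : ℝ}

/-- close numbers and the same slope digits ⇒ same cell, outside `Bad` -/
theorem cell_of_Nr (hT : C.T i ω = C.T i ω') (hv : fl1 b (C.l ω).v = fl1 b (C.l ω').v)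
    (hN : Nr (C.F i ω) (C.l ω) (C.l ω') (C.s i ω) (q2 b) (c * q2 b) (c * q2 (C.a i + b))
      (c * q2 (C.a i + b)) (c * q2 (C.a i + 2 * b - C.μ)) (c * q2 (C.R i b + b - 4 * C.μ))
      (c * q2 (C.a i + b + C.R i b - 6 * C.μ)))
    (f4 : fl1 (C.R i b - 3 * C.μ) (C.sl i b ω + C.o 4) = fl1 (C.R i b - 3 * C.μ) (C.sl i b ω' + C.o 4))
    (hl : C.Lev i b) (hc : 1 ≤ c) (hB : ¬ C.Bad (4 * c) i b ω) : C.cell i b ω = C.cell i b ω' := by
  obtain ⟨hb, hR⟩ := hl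
  have f0 := fl_eq (ω' := ω') hB 0 (by
    rw [va0, va0, s_eq hT, lv0, show C.a i + b - C.μ + C.μ = C.a i + b by omega]
    have := q2_pos (C.a i + b)
    exact hN.X.trans (by nlinarith))
  have f1 := fl_eq (ω' := ω') hB 1 (by
    rw [va1, va1, lv1, show b - C.μ + C.μ = b by omega]
    have := q2_pos b
    exact hN.w.trans (by nlinarith))
  have f2 := fl_eq (ω' := ω') hB 2 (by
    rw [va2, va2, s_eq hT, lv2, show C.a i + b - C.μ + C.μ = C.a i + b by omega]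
    have := q2_pos (C.a i + b)
    exact hN.N.trans (by nlinarith))
  have f3 := fl_eq (ω' := ω') hB 3 (by
    rw [va3, va3, s_eq hT, lv3, show C.a i + 2 * b - 3 * C.μ + C.μ = C.a i + 2 * b - 2 * C.μ by omega,
      Zs_sub hv f1]
    have q := q2_pos (C.a i + 2 * b - 2 * C.μ)
    have t1 : |((C.l ω).v - rd b (C.l ω).v) * ((C.l ω').X (C.s i ω) - (C.l ω).X (C.s i ω))| ≤
        c * q2 (C.a i + 2 * b - 2 * C.μ) := by
      have e := rd_err b (C.l ω).v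
      rw [abs_sub_comm] at e
      refine (abs_mul_le e hN.X).trans ?_
      calc q2 b * (c * q2 (C.a i + b)) = c * (q2 b * q2 (C.a i + b)) := by ring
        _ ≤ _ := mul_le_mul_of_nonneg_left (by rw [← q2_add]; exact q2_le (by omega)) (by linarith)
    have t2 : |((C.l ω).w - C.ro 1 (b - C.μ) (C.l ω).w) *
        ((C.l ω').N (C.s i ω) - (C.l ω).N (C.s i ω))| ≤ c * q2 (C.a i + 2 * b - 2 * C.μ) := by
      refine (abs_mul_le (C.ro_err 1 (b - C.μ) (C.l ω).w) hN.N).trans ?_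
      calc q2 (b - C.μ) * (c * q2 (C.a i + b)) = c * (q2 (b - C.μ) * q2 (C.a i + b)) := by ring
        _ ≤ _ := mul_le_mul_of_nonneg_left (by rw [← q2_add]; exact q2_le (by omega)) (by linarith)
    have t3 : c * q2 (C.a i + 2 * b - C.μ) ≤ c * q2 (C.a i + 2 * b - 2 * C.μ) :=
      mul_le_mul_of_nonneg_left (q2_le (by omega)) (by linarith)
    have t4 := hN.z
    rw [abs_le] at t1 t2 t4 ⊢
    constructor
    · nlinarith [t1.1, t2.1, t4.1]
    · nlinarith [t1.2, t2.2, t4.2])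
  have eF : C.Fr i b (C.R i b - 3 * C.μ) ω' = C.Fr i b (C.R i b - 3 * C.μ) ω := Fr_eq hT hv f4
  have hF := C.Fr_ph i b (C.R i b - 3 * C.μ) ω
  have g5 : ∀ l, (C.Fr i b (C.R i b - 3 * C.μ) ω).gd l (C.s i ω) = (C.F i ω).gd l (C.s i ω) +
      ((C.F i ω).ph - (C.Fr i b (C.R i b - 3 * C.μ) ω).ph) * l.v := fun l => Fu.gd_ph _ _ _ _
  have g6 : ∀ l, (C.Fr i b (C.R i b - 3 * C.μ) ω).g l (C.s i ω) = (C.F i ω).g l (C.s i ω) +
      ((C.F i ω).ph - (C.Fr i b (C.R i b - 3 * C.μ) ω).ph) * l.X (C.s i ω) :=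
    fun l => Fu.g_ph _ _ _ _
  have f5 := fl_eq (ω' := ω') hB 5 (by
    rw [va5, va5, s_eq hT, eF, g5, g5, lv5,
      show C.R i b + b - 5 * C.μ + C.μ = C.R i b + b - 4 * C.μ by omega]
    have q := q2_pos (C.R i b + b - 4 * C.μ)
    have t1 : |((C.F i ω).ph - (C.Fr i b (C.R i b - 3 * C.μ) ω).ph) *
        ((C.l ω').v - (C.l ω).v)| ≤ q2 (C.R i b + b - 4 * C.μ) := by
      refine (abs_mul_le hF hN.v).trans ?_
      rw [← q2_add]; exact q2_le (by omega)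
    have t2 := hN.c
    rw [abs_le] at t1 t2 ⊢
    constructor
    · nlinarith [t1.1, t2.1]
    · nlinarith [t1.2, t2.2])
  have f6 := fl_eq (ω' := ω') hB 6 (by
    rw [va6, va6, s_eq hT, eF, g6, g6, lv6,
      show C.a i + b + C.R i b - 7 * C.μ + C.μ = C.a i + b + C.R i b - 6 * C.μ by omega]
    have q := q2_pos (C.a i + b + C.R i b - 6 * C.μ)
    have t1 : |((C.F i ω).ph - (C.Fr i b (C.R i b - 3 * C.μ) ω).ph) *
        ((C.l ω').X (C.s i ω) - (C.l ω).X (C.s i ω))| ≤ c * q2 (C.a i + b + C.R i b - 6 * C.μ) := by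
      refine (abs_mul_le hF hN.X).trans ?_
      calc q2 (C.R i b - 3 * C.μ) * (c * q2 (C.a i + b)) =
          c * (q2 (C.R i b - 3 * C.μ) * q2 (C.a i + b)) := by ring
        _ ≤ _ := mul_le_mul_of_nonneg_left (by rw [← q2_add]; exact q2_le (by omega)) (by linarith)
    have t2 := hN.g
    rw [abs_le] at t1 t2 ⊢
    constructor
    · nlinarith [t1.1, t2.1]
    · nlinarith [t1.2, t2.2])
  refine cell_iff.2 ⟨hT, hv, fun k => ?_⟩
  fin_cases k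
  · exact f0
  · exact f1
  · exact f2
  · exact f3
  · exact f4
  · exact f5
  · exact f6

/-- the numbers of two cells with the same digits of `w` and of the slope -/
theorem va_of_Nr (hT : C.T i ω = C.T i ω') (hv : fl1 b (C.l ω).v = fl1 b (C.l ω').v)
    (hN : Nr (C.F i ω) (C.l ω) (C.l ω') (C.s i ω) (q2 b) (c * q2 b) (c * q2 (C.a i + b))
      (c * q2 (C.a i + b)) (c * q2 (C.a i + 2 * b - C.μ)) (c * q2 (C.R i b + b - 4 * C.μ))
      (c * q2 (C.a i + b + C.R i b - 6 * C.μ)))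
    (hl : C.Lev i b) (hc : 1 ≤ c)
    (f1 : fl1 (b - C.μ) ((C.l ω).w + C.o 1) = fl1 (b - C.μ) ((C.l ω').w + C.o 1))
    (f4 : fl1 (C.R i b - 3 * C.μ) (C.sl i b ω + C.o 4) = fl1 (C.R i b - 3 * C.μ) (C.sl i b ω' + C.o 4))
    (k : Fin 7) : |C.va i b ω' k - C.va i b ω k| ≤ 3 * c * q2 (C.lv i b k) := by
  obtain ⟨hb, hR⟩ := hl
  have c0 : 0 ≤ c := by linarith
  have eF : C.Fr i b (C.R i b - 3 * C.μ) ω' = C.Fr i b (C.R i b - 3 * C.μ) ω := Fr_eq hT hv f4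
  have hF := C.Fr_ph i b (C.R i b - 3 * C.μ) ω
  have g5 : ∀ l, (C.Fr i b (C.R i b - 3 * C.μ) ω).gd l (C.s i ω) = (C.F i ω).gd l (C.s i ω) +
      ((C.F i ω).ph - (C.Fr i b (C.R i b - 3 * C.μ) ω).ph) * l.v := fun l => Fu.gd_ph _ _ _ _
  have g6 : ∀ l, (C.Fr i b (C.R i b - 3 * C.μ) ω).g l (C.s i ω) = (C.F i ω).g l (C.s i ω) +
      ((C.F i ω).ph - (C.Fr i b (C.R i b - 3 * C.μ) ω).ph) * l.X (C.s i ω) :=
    fun l => Fu.g_ph _ _ _ _
  have up : ∀ {m n : ℕ}, m ≤ n → c * q2 n ≤ c * q2 m := fun hmn => mul_le_mul_of_nonneg_left (q2_le hmn) c0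
  have pos : ∀ n : ℕ, 0 < q2 n := q2_pos
  fin_cases k
  · show |C.va i b ω' 0 - C.va i b ω 0| ≤ 3 * c * q2 (C.lv i b 0)
    rw [va0, va0, s_eq hT, lv0]
    have t := hN.X
    have u := up (show C.a i + b - C.μ ≤ C.a i + b by omega)
    have := mul_nonneg c0 (pos (C.a i + b - C.μ)).le
    linarith
  · show |C.va i b ω' 1 - C.va i b ω 1| ≤ 3 * c * q2 (C.lv i b 1)
    rw [va1, va1, lv1]
    have t := hN.w
    have u := up (show b - C.μ ≤ b by omega)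
    have := mul_nonneg c0 (pos (b - C.μ)).le
    linarith
  · show |C.va i b ω' 2 - C.va i b ω 2| ≤ 3 * c * q2 (C.lv i b 2)
    rw [va2, va2, s_eq hT, lv2]
    have t := hN.N
    have u := up (show C.a i + b - C.μ ≤ C.a i + b by omega)
    have := mul_nonneg c0 (pos (C.a i + b - C.μ)).le
    linarith
  · show |C.va i b ω' 3 - C.va i b ω 3| ≤ 3 * c * q2 (C.lv i b 3)
    rw [va3, va3, s_eq hT, lv3, Zs_sub hv f1]
    have t1 : |((C.l ω).v - rd b (C.l ω).v) * ((C.l ω').X (C.s i ω) - (C.l ω).X (C.s i ω))| ≤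
        c * q2 (C.a i + 2 * b - 3 * C.μ) := by
      have e := rd_err b (C.l ω).v
      rw [abs_sub_comm] at e
      refine (abs_mul_le e hN.X).trans ?_
      calc q2 b * (c * q2 (C.a i + b)) = c * (q2 b * q2 (C.a i + b)) := by ring
        _ ≤ _ := mul_le_mul_of_nonneg_left (by rw [← q2_add]; exact q2_le (by omega)) (by linarith)
    have t2 : |((C.l ω).w - C.ro 1 (b - C.μ) (C.l ω).w) *
        ((C.l ω').N (C.s i ω) - (C.l ω).N (C.s i ω))| ≤ c * q2 (C.a i + 2 * b - 3 * C.μ) := by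
      refine (abs_mul_le (C.ro_err 1 (b - C.μ) (C.l ω).w) hN.N).trans ?_
      calc q2 (b - C.μ) * (c * q2 (C.a i + b)) = c * (q2 (b - C.μ) * q2 (C.a i + b)) := by ring
        _ ≤ _ := mul_le_mul_of_nonneg_left (by rw [← q2_add]; exact q2_le (by omega)) (by linarith)
    have t3 := up (show C.a i + 2 * b - 3 * C.μ ≤ C.a i + 2 * b - C.μ by omega)
    have t4 := hN.z
    rw [abs_le] at t1 t2 t4 ⊢
    constructor
    · nlinarith [t1.1, t2.1, t4.1]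
    · nlinarith [t1.2, t2.2, t4.2]
  · show |C.va i b ω' 4 - C.va i b ω 4| ≤ 3 * c * q2 (C.lv i b 4)
    rw [va4, va4, lv4]
    have t := near_of_fl f4
    rw [add_sub_add_right_eq_sub] at t
    have := pos (C.R i b - 3 * C.μ)
    refine t.trans ?_
    nlinarith
  · show |C.va i b ω' 5 - C.va i b ω 5| ≤ 3 * c * q2 (C.lv i b 5)
    rw [va5, va5, s_eq hT, eF, g5, g5, lv5]
    have q := pos (C.R i b + b - 5 * C.μ)
    have t1 : |((C.F i ω).ph - (C.Fr i b (C.R i b - 3 * C.μ) ω).ph) *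
        ((C.l ω').v - (C.l ω).v)| ≤ q2 (C.R i b + b - 5 * C.μ) := by
      refine (abs_mul_le hF hN.v).trans ?_
      rw [← q2_add]; exact q2_le (by omega)
    have t2 := hN.c
    have t3 := up (show C.R i b + b - 5 * C.μ ≤ C.R i b + b - 4 * C.μ by omega)
    have t5 : q2 (C.R i b + b - 5 * C.μ) ≤ c * q2 (C.R i b + b - 5 * C.μ) := by nlinarith
    rw [abs_le] at t1 t2 ⊢
    constructor
    · nlinarith [t1.1, t2.1]
    · nlinarith [t1.2, t2.2]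
  · show |C.va i b ω' 6 - C.va i b ω 6| ≤ 3 * c * q2 (C.lv i b 6)
    rw [va6, va6, s_eq hT, eF, g6, g6, lv6]
    have q := pos (C.a i + b + C.R i b - 7 * C.μ)
    have t1 : |((C.F i ω).ph - (C.Fr i b (C.R i b - 3 * C.μ) ω).ph) *
        ((C.l ω').X (C.s i ω) - (C.l ω).X (C.s i ω))| ≤ c * q2 (C.a i + b + C.R i b - 7 * C.μ) := by
      refine (abs_mul_le hF hN.X).trans ?_
      calc q2 (C.R i b - 3 * C.μ) * (c * q2 (C.a i + b)) =
          c * (q2 (C.R i b - 3 * C.μ) * q2 (C.a i + b)) := by ring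
        _ ≤ _ := mul_le_mul_of_nonneg_left (by rw [← q2_add]; exact q2_le (by omega)) (by linarith)
    have t2 := hN.g
    have t3 := up (show C.a i + b + C.R i b - 7 * C.μ ≤ C.a i + b + C.R i b - 6 * C.μ by omega)
    rw [abs_le] at t1 t2 ⊢
    constructor
    · nlinarith [t1.1, t2.1]
    · nlinarith [t1.2, t2.2]

/-- the slope of one step, two caps, deep phi regime -/
lemma sl_deep (h1 : C.rf i ≤ C.rk i + b) (hb : b ≤ b2) : C.sl i b2 = C.sl i b := by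
  have e : C.bs i b2 = C.bs i b := by unfold bs; omega
  funext ω
  unfold Pth.sl
  rw [e]

lemma R_deep (h1 : C.rf i ≤ C.rk i + b) (hb : b ≤ b2) : C.R i b2 = C.R i b := by
  rw [R_eq, R_eq]; omega

/-- closeness for the smaller cap, deep phi regime -/
lemma nr_deep (h1 : 1 ≤ K) (hK : C.Ok K ω) (hl : C.Lev i b) (hd : C.rf i ≤ C.rk i + b)
    (hb : b + 8 * C.μ ≤ b2) (h : C.cell i b2 ω = C.cell i b2 ω') :
    Nr (C.F i ω) (C.l ω) (C.l ω') (C.s i ω) (q2 b) (10 * K ^ 2 * q2 b) (10 * K ^ 2 * q2 (C.a i + b))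
      (10 * K ^ 2 * q2 (C.a i + b)) (10 * K ^ 2 * q2 (C.a i + 2 * b - C.μ))
      (10 * K ^ 2 * q2 (C.R i b + b - 4 * C.μ)) (10 * K ^ 2 * q2 (C.a i + b + C.R i b - 6 * C.μ)) := by
  have eR : C.R i b2 = C.R i b := R_deep hd (by omega)
  obtain ⟨hb8, hR8⟩ := hl
  have hl2 : C.Lev i b2 := ⟨by omega, by rw [eR]; exact hR8⟩
  have hN := Nr_of_cell' h1 hK hl2 h
  rw [eR] at hN
  have K2 : 1 ≤ K ^ 2 := one_le_pow₀ h1
  have pos : ∀ n : ℕ, 0 < q2 n := q2_pos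
  have up : ∀ {d : ℝ} {m n : ℕ}, 0 ≤ d → d ≤ 10 * K ^ 2 → m ≤ n → d * q2 n ≤ 10 * K ^ 2 * q2 m :=
    fun h0 h10 hmn => mul_le_mul h10 (q2_le hmn) (pos _).le (by linarith)
  refine hN.mono (q2_le (by omega)) ?_ ?_ ?_ ?_ ?_ ?_
  · exact up (by positivity) le_rfl (by omega)
  · have := up (d := 1) (m := C.a i + b) (n := C.a i + b2 - C.μ) (by norm_num) (by linarith) (by omega)
    linarith
  · have := up (d := 1) (m := C.a i + b) (n := C.a i + b2 - C.μ) (by norm_num) (by linarith) (by omega)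
    linarith
  · exact up (by norm_num) (by linarith) (by omega)
  · exact up (by norm_num) (by linarith) (by omega)
  · exact up (by norm_num) (by linarith) (by omega)

/-- **deep phi regime** : the cell of a deeper cap determines the cell, outside `Bad` -/
theorem deep_caps (h1 : 1 ≤ K) (hK : C.Ok K ω) (hl : C.Lev i b) (hd : C.rf i ≤ C.rk i + b)
    (hb : b + 8 * C.μ ≤ b2) (hB : ¬ C.Bad (40 * K ^ 2) i b ω) (h : C.cell i b2 ω = C.cell i b2 ω') :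
    C.cell i b ω = C.cell i b ω' := by
  have K2 : 1 ≤ K ^ 2 := one_le_pow₀ h1
  have hc := cell_iff.1 h
  refine cell_of_Nr (c := 10 * K ^ 2) hc.1 (fl1_fl1 (by omega) hc.2.1)
    (nr_deep h1 hK hl hd hb h) ?_ hl (by linarith) ?_
  · have h4 := hc.2.2 4
    rw [va4, va4, lv4, R_deep hd (b2 := b2) (by omega), sl_deep hd (b2 := b2) (by omega)] at h4
    exact h4
  · rwa [show 4 * (10 * K ^ 2) = 40 * K ^ 2 by ring]

end gen

section ent

variable {Ω τ τ2 : Type} [Fintype Ω] {T : Type*} {C : Pth Ω τ} {C2 : Pth Ω τ2} {i i2 b b2 : ℕ} {K : ℝ}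

/-- **two paths** (101's `cell2`), entropy form -/
theorem hc_two (P : Law Ω) (C : Pth Ω τ) (C2 : Pth Ω τ2) (h1 : 1 ≤ K) (hl : C2.l = C.l) (hp : C2.p = C.p)
    (hK : ∀ ω, 0 < P.w ω → C.Ok K ω) (hK2 : ∀ ω, 0 < P.w ω → C2.Ok K ω) (hμ : C2.μ = C.μ)
    (hf : C.rf i ≤ C2.rf i2) (hT2 : ∀ ω, 0 < P.w ω → H101.Two C C2 K i i2 ω) (hli : C.Lev i b)
    (hlj : C2.Lev i2 b2) (hb : b ≤ b2) (ha : C.a i + b + 2 * C.μ ≤ C2.a i2 + b2)
    (hR : C.R i b + C.μ ≤ C2.R i2 b2) (Y : Ω → T) (hT : Fn P (C.T i) Y) (hY : Fn P (C2.cell i2 b2) Y) :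
    hc P (C.cell i b) Y ≤ (6 + 10 * Real.log (2 * ⌈480 * K ^ 7⌉₊ + 3)) *
      Real.sqrt (prE P (C.Bad (640 * K ^ 7) i b)) := by
  have k7 : 1 ≤ K ^ 7 := one_le_pow₀ h1
  have h := H364.N4.hc_of_clo P C Y (c := 160 * K ^ 7) (by linarith) hli fun ω ω' p p' e =>
    H101.clo2 h1 hl hp (hK ω p) (hK ω' p') (hK2 ω p) (hK2 ω' p') hμ hf (hT2 ω p) hli hlj hb ha hR
      (hT ω ω' p p' e) (hY ω ω' p p' e)
  rwa [show 3 * (160 * K ^ 7) = 480 * K ^ 7 by ring, show 4 * (160 * K ^ 7) = 640 * K ^ 7 by ring] at h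

/-- **one path, one step, deep phi regime**, entropy form -/
theorem hc_deep (P : Law Ω) (C : Pth Ω τ) (h1 : 1 ≤ K) (hK : ∀ ω, 0 < P.w ω → C.Ok K ω) (hl : C.Lev i b)
    (hd : C.rf i ≤ C.rk i + b) (hb : b + 8 * C.μ ≤ b2) :
    hc P (C.cell i b) (C.cell i b2) ≤ (4 + 9 * Real.log (2 * ⌈30 * K ^ 2⌉₊ + 3)) *
      Real.sqrt (prE P (C.Bad (40 * K ^ 2) i b)) := by
  have K2 : 1 ≤ K ^ 2 := one_le_pow₀ h1
  set m := ⌈30 * K ^ 2⌉₊ with hm
  have hcm : 30 * K ^ 2 ≤ m := Nat.le_ceil _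
  set B := C.Bad (40 * K ^ 2) i b with hB
  set f1 : Ω → ℤ := fun ω => fl1 (b - C.μ) ((C.l ω).w + C.o 1) with hf1
  have key : ∀ ω ω', 0 < P.w ω → 0 < P.w ω' → ¬ B ω → C.cell i b2 ω = C.cell i b2 ω' →
      C.cell i b ω = C.cell i b ω' := fun ω ω' p p' n e => deep_caps h1 (hK ω p) hl hd hb n e
  have f4 : ∀ ω ω', C.cell i b2 ω = C.cell i b2 ω' →
      fl1 (C.R i b - 3 * C.μ) (C.sl i b ω + C.o 4) = fl1 (C.R i b - 3 * C.μ) (C.sl i b ω' + C.o 4) := by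
    intro ω ω' h
    have h4 := (cell_iff.1 h).2.2 4
    rw [va4, va4, lv4, R_deep hd (b2 := b2) (by omega), sl_deep hd (b2 := b2) (by omega)] at h4
    exact h4
  have a1 : hc P f1 (C.cell i b2) ≤ (2 + Real.log ((2 * m + 3 : ℕ) : ℝ)) * Real.sqrt (prE P B) := by
    refine H364.nhc P f1 _ B (2 * m + 3) (by omega)
      (fun ω ω' p p' n _ e => (cell_iff.1 (key ω ω' p p' n e)).2.2 1)
      (H364.N4.int_card P f1 _ fun ω ω' p p' e => ?_)
    refine H364.fl1_le_of_near ?_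
    rw [add_sub_add_right_eq_sub]
    have hb' := q2_pos b
    have u : q2 b ≤ q2 (b - C.μ) := q2_le (by omega)
    have t := (nr_deep h1 (hK ω p) hl hd hb e).w
    calc _ ≤ 10 * K ^ 2 * q2 b := t
      _ ≤ m * q2 (b - C.μ) := mul_le_mul (by linarith) u hb'.le (by linarith)
  have a7 : hc P (C.cell i b) (fun ω => (f1 ω, C.cell i b2 ω)) ≤
      (2 + 8 * Real.log (2 * m + 3)) * Real.sqrt (prE P B) := by
    refine H364.nhc_cell P C _ B (fun ω ω' p p' e => ?_) fun ω ω' p p' n _ e => ?_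
    · have e1 := (Prod.ext_iff.1 e).1
      have e2 := (Prod.ext_iff.1 e).2
      have hc := cell_iff.1 e2
      have hv : fl1 b (C.l ω).v = fl1 b (C.l ω').v := fl1_fl1 (by omega) hc.2.1
      refine ⟨hc.1, ?_, fun k => ?_⟩
      · rw [abs_sub_comm]
        refine (near_of_fl hv).trans ?_
        have := q2_pos b
        nlinarith
      · rw [abs_sub_comm]
        refine (va_of_Nr (c := 10 * K ^ 2) hc.1 hv (nr_deep h1 (hK ω p) hl hd hb e2) hl (by linarith)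
          e1 (f4 ω ω' e2) k).trans ?_
        exact mul_le_mul_of_nonneg_right (by linarith) (q2_pos _).le
    · have := key ω ω' p p' n (Prod.ext_iff.1 e).2
      exact (Prod.ext_iff.1 this).2
  have e1 : hc P (C.cell i b) (C.cell i b2) ≤ hc P (fun ω => (f1 ω, C.cell i b ω)) (C.cell i b2) :=
    hc_mono_left P fun ω ω' _ _ h => by
      simp only [Prod.mk.injEq] at h
      exact h.1.2
  have e2 := hc_pair P f1 (C.cell i b) (C.cell i b2)
  push_cast at a1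
  have hs := Real.sqrt_nonneg (prE P B)
  have : (4 + 9 * Real.log (2 * m + 3)) * Real.sqrt (prE P B) =
      (2 + Real.log (2 * m + 3)) * Real.sqrt (prE P B) +
      (2 + 8 * Real.log (2 * m + 3)) * Real.sqrt (prE P B) := by ring
  rw [this]
  linarith

end ent

/-! ### 785's data -/

/-- two data over the same real numbers at the step `i`, the second one finer -/
structure Sm {Ω π π' : Type} (X : Mtd Ω π) (Y : Mtd Ω π') (i : ℕ) : Prop where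
  a : X.a i = Y.a i
  rf : X.rf i = Y.rf i
  rk : X.rk i ≤ Y.rk i
  μ : X.μ = Y.μ
  ν : X.ν = Y.ν
  o : X.o = Y.o
  oκ : X.oκ = Y.oκ
  oγ : X.oγ = Y.oγ
  l : X.l = Y.l
  t : X.t = Y.t
  p : X.p = Y.p
  un : X.un = Y.un
  κ : X.κ i = Y.κ i
  al : X.al i = Y.al i

section mtr

variable {Ω π π' : Type} {X : Mtd Ω π} {Y : Mtd Ω π'} {i b b2 : ℕ} {ω ω' : Ω} {K : ℝ} {I J : Set ℕ}

lemma Sm.s (h : Sm X Y i) : X.s i = Y.s i := by
  funext ω
  unfold Mtd.s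
  rw [h.a, h.t]

lemma Sm.nN (h : Sm X Y i) : X.nN i = Y.nN i := by
  funext ω
  unfold Mtd.nN
  rw [h.a, h.l, h.o, h.s]

lemma Sm.Nr (h : Sm X Y i) : X.Nr i = Y.Nr i := by
  funext ω
  unfold Mtd.Nr
  rw [h.nN, h.a, h.o]

lemma Sm.u (h : Sm X Y i) : X.u i = Y.u i := by
  funext ω
  unfold Mtd.u
  rw [h.un, h.κ, h.l, h.al, h.s, h.Nr]

lemma Sm.rr (h : Sm X Y i) : X.rr i ≤ Y.rr i := by
  have h1 := h.rk
  have h2 := h.ν
  unfold Mtd.rr
  omega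

/-- **the letter** is an exact function of the finer letter and of its prefix -/
theorem lt_of (h : Sm X Y i) (hp : X.pf i ω = X.pf i ω') (e : Y.lt i ω = Y.lt i ω') :
    X.lt i ω = X.lt i ω' := by
  unfold Mtd.lt at e ⊢
  simp only [Prod.mk.injEq] at e ⊢
  obtain ⟨e1, _, e3, e4, e5⟩ := e
  refine ⟨by rw [h.a, h.t]; exact e1, hp, ?_, ?_, by rw [h.nN]; exact e5⟩
  · unfold Mtd.kN at e3 ⊢
    rw [h.κ, h.oκ]
    exact fl1_fl1 h.rr e3
  · unfold Mtd.uN at e4 ⊢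
    rw [h.u, h.oγ]
    exact fl1_fl1 h.rr e4

/-- the two slab functionals agree -/
lemma two_sm (h : Sm X Y i) (h1 : 1 ≤ K) (hX : X.Hy K I ω) (hY : Y.Hy K J ω) (hi : i ∈ I) (hj : i ∈ J) :
    H101.Two (X.p1 i) (Y.p1 i) (8 * K) 0 0 ω := by
  have K0 : 0 < K := by linarith
  have q := q2_pos (X.rr i)
  have hr : q2 (Y.rr i) ≤ q2 (X.rr i) := q2_le h.rr
  have hrk : q2 (Y.rk i) ≤ q2 (X.rk i) := q2_le h.rk
  have rl := Mtd.rr_le X i
  have es : (Y.p1 i).s 0 ω = (X.p1 i).s 0 ω := by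
    show Y.s i ω = X.s i ω
    rw [h.s]
  refine ⟨?_, ?_⟩
  · rw [es, sub_self, Fu.sh_zero]
    refine ⟨?_, ?_, ?_⟩
    · have e1 := Mtd.cN_near h1 hX hi
      have e2 := Mtd.cN_near h1 hY hj
      have e3 : ((Y.p1 i).F 0 ω).cN ((X.p1 i).l ω) ((X.p1 i).s 0 ω) = Y.cNL i ω := by
        have : (X.p1 i).l ω = (Y.p1 i).l ω := by
          show X.l ω = Y.l ω
          rw [h.l]
        rw [this, ← es]
        exact Mtd.F_cN' Y _ _ 0 ω
      have e4 : ((X.p1 i).F 0 ω).cN ((X.p1 i).l ω) ((X.p1 i).s 0 ω) = X.cNL i ω :=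
        Mtd.F_cN' X _ _ 0 ω
      rw [e3, e4]
      show |Y.cNL i ω - X.cNL i ω| ≤ 8 * K * q2 (X.rr i)
      rw [h.un] at e1
      have e5 : 4 * K * q2 (Y.rr i) ≤ 4 * K * q2 (X.rr i) := mul_le_mul_of_nonneg_left hr (by linarith)
      rw [abs_le] at e1 e2 ⊢
      constructor <;> linarith [e1.1, e1.2, e2.1, e2.2]
    · show |Y.kaL i (Y.lt i ω) - X.kaL i (X.lt i ω)| ≤ 8 * K * q2 (X.rr i)
      have e1 := Mtd.ka_near X i ω
      have e2 := Mtd.ka_near Y i ω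
      rw [h.κ] at e1
      have e5 : q2 (X.rr i) ≤ K * q2 (X.rr i) := by nlinarith
      rw [abs_le] at e1 e2 ⊢
      constructor <;> linarith [e1.1, e1.2, e2.1, e2.2]
    · show |Y.g i ω - X.g i ω| * q2 (Y.a i) ≤ 8 * K * q2 (X.rr i)
      have e1 := hX.ap _ hi
      have e2 := hY.ap _ hj
      rw [h.al, h.a] at e1
      have e4 : K * q2 (X.rk i) ≤ K * q2 (X.rr i) := mul_le_mul_of_nonneg_left rl K0.le
      have e5 : K * q2 (Y.rk i) ≤ K * q2 (X.rk i) := mul_le_mul_of_nonneg_left hrk K0.le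
      have e6 : |Y.g i ω - X.g i ω| ≤ |Y.al i ω - X.g i ω| + |Y.al i ω - Y.g i ω| := by
        have : Y.g i ω - X.g i ω = (Y.al i ω - X.g i ω) - (Y.al i ω - Y.g i ω) := by ring
        rw [this]
        exact abs_sub _ _
      have e7 := mul_le_mul_of_nonneg_right e6 (q2_pos (Y.a i)).le
      nlinarith
  · rw [es, sub_self, abs_zero]
    exact (q2_pos _).le

lemma p1_Lev (X : Mtd Ω π) (i b : ℕ) : (X.p1 i).Lev 0 b ↔ 8 * X.μ ≤ b ∧ 8 * X.μ ≤ X.R i b := by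
  unfold Pth.Lev
  rw [Mtd.p1_R]
  rfl

/-- **[MTR-B]** : the cell of the finer data at the deeper cap determines the cell, outside `Bad` -/
theorem mtr_caps (h : Sm X Y i) (h1 : 1 ≤ K) (hX : X.Hy K I ω) (hX' : X.Hy K I ω') (hY : Y.Hy K J ω)
    (hY' : Y.Hy K J ω') (hi : i ∈ I) (hj : i ∈ J) (hb8 : 8 * X.μ ≤ b) (hR8 : 8 * X.μ ≤ X.R i b)
    (hb : b + 2 * X.μ ≤ b2) (hR : X.R i b + X.μ ≤ Y.R i b2)
    (hB : ¬ (X.p1 i).Bad (640 * (8 * K) ^ 7) 0 b ω) (hpf : X.pf i ω = X.pf i ω')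
    (e : Y.mtr i b2 ω = Y.mtr i b2 ω') : X.mtr i b ω = X.mtr i b ω' := by
  rw [← X.p1_cell_iff i 0 b]
  have el : X.lt i ω = X.lt i ω' := lt_of h hpf (congrArg Prod.fst e)
  have hμ := h.μ
  refine H101.cell2 (C2 := Y.p1 i) (i2 := 0) (b2 := b2) (K := 8 * K) (by linarith) h.l.symm h.p.symm
    (Mtd.pa_ok h1 hX fun _ => hi) (Mtd.pa_ok h1 hX' fun _ => hi) (Mtd.pa_ok h1 hY fun _ => hj)
    (Mtd.pa_ok h1 hY' fun _ => hj) hμ.symm (le_of_eq h.rf) (two_sm h h1 hX hY hi hj)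
    ((p1_Lev X i b).2 ⟨hb8, hR8⟩) ((p1_Lev Y i b2).2 ⟨by omega, by omega⟩) (by omega) ?_ ?_ hB ?_
    ((Y.p1_cell_iff i 0 b2 ω ω').2 e)
  · show X.a i + b + 2 * X.μ ≤ Y.a i + b2
    rw [h.a]
    omega
  · rw [Mtd.p1_R, Mtd.p1_R]
    exact hR
  · exact (X.pa_T_iff _ _ 0 ω ω').2 fun j _ => el

section ent

variable [Fintype Ω] {T : Type*}

/-- **[MTR-B]**, entropy form -/
theorem hc_mtr (P : Law Ω) (X : Mtd Ω π) (Y : Mtd Ω π') (h : Sm X Y i) (h1 : 1 ≤ K)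
    (hX : ∀ ω, 0 < P.w ω → X.Hy K I ω) (hY : ∀ ω, 0 < P.w ω → Y.Hy K J ω) (hi : i ∈ I) (hj : i ∈ J)
    (hb8 : 8 * X.μ ≤ b) (hR8 : 8 * X.μ ≤ X.R i b) (hb : b + 2 * X.μ ≤ b2) (hR : X.R i b + X.μ ≤ Y.R i b2)
    (hpf : Fn P (X.pf i) (Y.mtr i b2)) :
    hc P (X.mtr i b) (Y.mtr i b2) ≤ (6 + 10 * Real.log (2 * ⌈480 * (8 * K) ^ 7⌉₊ + 3)) *
      Real.sqrt (prE P ((X.p1 i).Bad (640 * (8 * K) ^ 7) 0 b)) := by
  have hμ := h.μ
  have e := hc_two P (X.p1 i) (Y.p1 i) (i := 0) (i2 := 0) (b := b) (b2 := b2) (K := 8 * K) (by linarith)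
    h.l.symm h.p.symm (fun ω p => Mtd.pa_ok h1 (hX ω p) fun _ => hi)
    (fun ω p => Mtd.pa_ok h1 (hY ω p) fun _ => hj) hμ.symm (le_of_eq h.rf)
    (fun ω p => two_sm h h1 (hX ω p) (hY ω p) hi hj)
    ((p1_Lev X i b).2 ⟨hb8, hR8⟩) ((p1_Lev Y i b2).2 ⟨by omega, by omega⟩) (by omega)
    (by show X.a i + b + 2 * X.μ ≤ Y.a i + b2
        rw [h.a]; omega)
    (by rw [Mtd.p1_R, Mtd.p1_R]; exact hR) (Y.mtr i b2)
    (fun ω ω' p p' e => (X.pa_T_iff _ _ 0 ω ω').2 fun j _ =>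
      lt_of h (hpf ω ω' p p' e) (congrArg Prod.fst e))
    (fun ω ω' _ _ e => (Y.p1_cell_iff i 0 b2 ω ω').2 e)
  refine le_trans (le_of_eq ?_) e
  exact hc_congr P (fun ω ω' _ _ e => by
      simp only [Prod.mk.injEq] at e
      exact (X.p1_cell_iff i 0 b ω ω').1 e.1)
    (fun ω ω' _ _ e => by
      simp only [Prod.mk.injEq] at e
      exact (X.p1_cell_iff i 0 b ω ω').2 e.1) (fun _ _ _ _ e => e) (fun _ _ _ _ e => e)

/-- **[MTR-B], deep phi regime** : the same data, deeper cap -/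
theorem hc_mtr_deep (P : Law Ω) (X : Mtd Ω π) (h1 : 1 ≤ K)
    (hX : ∀ ω, 0 < P.w ω → X.Hy K I ω) (hi : i ∈ I)
    (hb8 : 8 * X.μ ≤ b) (hR8 : 8 * X.μ ≤ X.R i b) (hb : b + 8 * X.μ ≤ b2) (hd : X.rf i ≤ X.rr i + b) :
    hc P (X.mtr i b) (X.mtr i b2) ≤ (4 + 9 * Real.log (2 * ⌈30 * (8 * K) ^ 2⌉₊ + 3)) *
      Real.sqrt (prE P ((X.p1 i).Bad (40 * (8 * K) ^ 2) 0 b)) := by
  have e := hc_deep P (X.p1 i) (i := 0) (b := b) (b2 := b2) (K := 8 * K) (by linarith)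
    (fun ω p => Mtd.pa_ok h1 (hX ω p) fun _ => hi) ((p1_Lev X i b).2 ⟨hb8, hR8⟩) hd hb
  refine le_trans (le_of_eq ?_) e
  exact hc_congr P (fun ω ω' _ _ e => by
      simp only [Prod.mk.injEq] at e
      exact (X.p1_cell_iff i 0 b ω ω').1 e.1)
    (fun ω ω' _ _ e => by
      simp only [Prod.mk.injEq] at e
      exact (X.p1_cell_iff i 0 b ω ω').2 e.1)
    (fun ω ω' _ _ e => (X.p1_cell_iff i 0 b2 ω ω').1 e) (fun ω ω' _ _ e => (X.p1_cell_iff i 0 b2 ω ω').2 e)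

end ent

end mtr

end Vale.Agent.P106.U.H420
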