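import Vale.Agent.P106.U.H420.F2

/-!
# P106 / U / H420 : F2 for a letter read off one fixed variable, sliding families of cells (helper420)

The condition `M b` is any nearly nested family (for instance the cell at an index sliding with the cap `b`), the
letter `Th b` may depend on `b`; it is nearly a function of `M b` and of ONE variable `s`.

* `mi_fix` : `I(Th ; W | M) ≤ I(s ; W | M) + H(Th | s, M)`.
* **`f2_fix`** : `∑_b I(Th b ; W b | M b) ≤ β H + ∑ (ν + η)`, `W b` nearly a function of `M (b + β)`.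
* `f2_fix0` : the same with `H(s | M c₀)` only.
* `f2_fixF` : the same over a finite set of caps contained in the interval.
-/

set_option autoImplicit false

namespace Vale.Agent.P106.U.H420

open Finset Vale.Agent.P127 Vale.Agent.P127.Stk
open Vale.Agent.P106.U.H833 (mi_near mi_near_mono tele_near tele_near' hc_le_near)

section fix

variable {Ω : Type} [Fintype Ω] (P : Law Ω) {S S' T T' U V : Type*}

/-- a letter nearly determined by `s` and the condition -/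
theorem mi_fix (s : Ω → U) (Th : Ω → V) (W : Ω → T) (M : Ω → S) :
    mi P Th W M ≤ mi P s W M + hc P Th (fun ω => (s ω, M ω)) := by
  have h1 : mi P Th W M ≤ mi P (fun ω => (s ω, Th ω)) W M :=
    mi_mono_left P W fun ω ω' _ _ e => by
      simp only [Prod.mk.injEq] at e
      exact e.1.2
  have h2 := mi_pair P W s Th M
  have h3 := mi_le_hc' P W Th (fun ω => (s ω, M ω))
  rw [mi_symm P (fun ω => (s ω, Th ω)) W M] at h1
  rw [mi_symm P s W M]
  linarith

/-- telescoping over an interval of caps, `W b` nearly a function of the deeper cell -/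
theorem tele_W (X : Ω → U) (D : ℕ → Ω → S) (W : ℕ → Ω → V) (ν ν' : ℕ → ℝ) (c0 n β : ℕ) {H : ℝ}
    (hW : ∀ b, c0 ≤ b → b < c0 + n → hc P (W b) (D (b + β)) ≤ ν' b)
    (hν : ∀ b, c0 ≤ b → b < c0 + n → hc P (D b) (D (b + β)) ≤ ν b)
    (hH : ∀ b, c0 ≤ b → b < c0 + β → hc P X (D b) ≤ H) :
    ∑ b ∈ Ico c0 (c0 + n), mi P X (W b) (D b) ≤ β * H + ∑ b ∈ Ico c0 (c0 + n), (ν b + ν' b) := by
  have h := tele_Ico P X D ν c0 n β hν hH
  have e : ∑ b ∈ Ico c0 (c0 + n), mi P X (W b) (D b) ≤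
      ∑ b ∈ Ico c0 (c0 + n), (mi P X (D (b + β)) (D b) + ν' b) := by
    refine Finset.sum_le_sum fun b hb => ?_
    rw [Finset.mem_Ico] at hb
    refine (mi_near_mono P X (D b) (W b) (D (b + β))).trans ?_
    have := hW b hb.1 hb.2
    linarith
  rw [Finset.sum_add_distrib] at e ⊢
  linarith

/-- **[F2] for letters read off one fixed variable** -/
theorem f2_fix (s : Ω → U) (Th : ℕ → Ω → V) (M : ℕ → Ω → S) (W : ℕ → Ω → T) (ν ν' η : ℕ → ℝ) (c0 n β : ℕ)
    {H : ℝ} (hη : ∀ b, c0 ≤ b → b < c0 + n → hc P (Th b) (fun ω => (s ω, M b ω)) ≤ η b)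
    (hW : ∀ b, c0 ≤ b → b < c0 + n → hc P (W b) (M (b + β)) ≤ ν' b)
    (hν : ∀ b, c0 ≤ b → b < c0 + n → hc P (M b) (M (b + β)) ≤ ν b)
    (hH : ∀ b, c0 ≤ b → b < c0 + β → hc P s (M b) ≤ H) :
    ∑ b ∈ Ico c0 (c0 + n), mi P (Th b) (W b) (M b) ≤
      β * H + ∑ b ∈ Ico c0 (c0 + n), (ν b + ν' b + η b) := by
  have h := tele_W P s M W ν ν' c0 n β hW hν hH
  have e : ∑ b ∈ Ico c0 (c0 + n), mi P (Th b) (W b) (M b) ≤
      ∑ b ∈ Ico c0 (c0 + n), (mi P s (W b) (M b) + η b) := by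
    refine Finset.sum_le_sum fun b hb => ?_
    rw [Finset.mem_Ico] at hb
    have := mi_fix P s (Th b) (W b) (M b)
    have := hη b hb.1 hb.2
    linarith
  rw [Finset.sum_add_distrib] at e ⊢
  linarith

/-- the same with the entropy of `s` given the first cell only -/
theorem f2_fix0 (s : Ω → U) (Th : ℕ → Ω → V) (M : ℕ → Ω → S) (W : ℕ → Ω → T) (ν ν' η : ℕ → ℝ) (c0 n β : ℕ)
    {H ε : ℝ} (hη : ∀ b, c0 ≤ b → b < c0 + n → hc P (Th b) (fun ω => (s ω, M b ω)) ≤ η b)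
    (hW : ∀ b, c0 ≤ b → b < c0 + n → hc P (W b) (M (b + β)) ≤ ν' b)
    (hν : ∀ b, c0 ≤ b → b < c0 + n → hc P (M b) (M (b + β)) ≤ ν b)
    (hs : hc P s (M c0) ≤ H) (hε : ∀ b, c0 ≤ b → b < c0 + β → hc P (M c0) (M b) ≤ ε) :
    ∑ b ∈ Ico c0 (c0 + n), mi P (Th b) (W b) (M b) ≤
      β * (H + ε) + ∑ b ∈ Ico c0 (c0 + n), (ν b + ν' b + η b) := by
  refine f2_fix P s Th M W ν ν' η c0 n β hη hW hν fun b h1 h2 => ?_
  have e1 := hc_le_near P s (M c0) (M b)
  have e2 : hc P s (fun ω => (M b ω, M c0 ω)) ≤ hc P s (M c0) :=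
    hc_mono_right P s fun _ _ _ _ e => congrArg Prod.snd e
  have := hε b h1 h2
  linarith

/-- the same over a set of caps contained in the interval -/
theorem f2_fixF (s : Ω → U) (Th : ℕ → Ω → V) (M : ℕ → Ω → S) (W : ℕ → Ω → T) (ν ν' η : ℕ → ℝ) (c0 n β : ℕ)
    {H : ℝ} (F : Finset ℕ) (hF : F ⊆ Ico c0 (c0 + n))
    (hη : ∀ b ∈ F, hc P (Th b) (fun ω => (s ω, M b ω)) ≤ η b)
    (hW : ∀ b ∈ F, hc P (W b) (M (b + β)) ≤ ν' b)
    (hν : ∀ b, c0 ≤ b → b < c0 + n → hc P (M b) (M (b + β)) ≤ ν b)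
    (hH : ∀ b, c0 ≤ b → b < c0 + β → hc P s (M b) ≤ H) :
    ∑ b ∈ F, mi P (Th b) (W b) (M b) ≤
      β * H + (∑ b ∈ Ico c0 (c0 + n), ν b + ∑ b ∈ F, (ν' b + η b)) := by
  have h := tele_Ico P s M ν c0 n β hν hH
  have e : ∑ b ∈ F, mi P (Th b) (W b) (M b) ≤
      ∑ b ∈ F, (mi P s (M (b + β)) (M b) + (ν' b + η b)) := by
    refine Finset.sum_le_sum fun b hb => ?_
    have e1 := mi_fix P s (Th b) (W b) (M b)
    have e2 := hη b hb
    have e3 := mi_near_mono P s (M b) (W b) (M (b + β))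
    have e4 := hW b hb
    linarith
  have e' : ∑ b ∈ F, mi P s (M (b + β)) (M b) ≤ ∑ b ∈ Ico c0 (c0 + n), mi P s (M (b + β)) (M b) :=
    Finset.sum_le_sum_of_subset_of_nonneg hF fun b _ _ => mi_nonneg P _ _ _
  rw [Finset.sum_add_distrib] at e
  linarith

end fix

end Vale.Agent.P106.U.H420
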