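import Vale.Agent.P106.U.H470.Fib
import Vale.Agent.P106.U.H420.F2S

/-!
# P106 / U / H420 : telescoping in the form of laws conditioned on the word, increasing events (helper420)

`w k` = word up to the cap `k` (nested), `U k` = increasing events, functions of `w k` (the label is in the deep phi regime at
the cap `k`; no condition on the age), `S` = ONE variable.

* **`up_fib`** : `∑_k E [1{U k} mi (P | w k) S (X k) (D k)] ≤ 2 β log N + ∑ E ν₁ + ∑ E ν₂`; hypotheses in the form of 470's
  `pos_fib`, needed on `U k` only.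
-/

set_option autoImplicit false

namespace Vale.Agent.P106.U.H420

open Finset Vale.Agent.P127 Vale.Agent.P127.Stk
open Vale.Agent.P106.U.H470.Fib (cond_supp)
open Vale.Agent.P106.U.H833 (hc_le_near)

section num

/-- telescoping of nonnegative numbers -/
lemma tele_nn (g : ℕ → ℝ) (hg : ∀ k, 0 ≤ g k) (K β : ℕ) :
    ∑ k ∈ range K, (g k - g (k + β)) ≤ ∑ k ∈ range β, g k := by
  rw [Finset.sum_sub_distrib]
  have e1 : ∑ k ∈ range K, g (k + β) = ∑ k ∈ range (K + β), g k - ∑ k ∈ range β, g k := by
    rw [add_comm K β, Finset.sum_range_add, add_sub_cancel_left]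
    exact Finset.sum_congr rfl fun k _ => by rw [add_comm]
  have e2 : ∑ k ∈ range K, g k ≤ ∑ k ∈ range (K + β), g k :=
    Finset.sum_le_sum_of_subset_of_nonneg (Finset.range_mono (Nat.le_add_right _ _)) fun k _ _ => hg k
  linarith

/-- telescoping of increasing numbers in `[0, 1]` -/
lemma tele_up (u : ℕ → ℝ) (h0 : ∀ k, 0 ≤ u k) (h1 : ∀ k, u k ≤ 1) (K β : ℕ) :
    ∑ k ∈ range K, (u (k + β) - u k) ≤ β := by
  have h := tele_nn (fun k => 1 - u k) (fun k => by have := h1 k; linarith) K β
  have e : ∑ k ∈ range K, (u (k + β) - u k) = ∑ k ∈ range K, (1 - u k - (1 - u (k + β))) :=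
    Finset.sum_congr rfl fun k _ => by ring
  rw [e]
  refine h.trans ?_
  calc ∑ k ∈ range β, (1 - u k) ≤ ∑ _k ∈ range β, (1 : ℝ) :=
        Finset.sum_le_sum fun k _ => by have := h0 k; linarith
    _ = β := by simp

end num

section law

variable {Ω : Type} [Fintype Ω] (P : Law Ω) {S' T V W : Type*}

/-- the word of a smaller cap -/
lemma word_fn {w : ℕ → Ω → W} (hW : ∀ b, Fn P (w b) (w (b + 1))) (b j : ℕ) : Fn P (w b) (w (b + j)) := by
  induction j with
  | zero => exact fun _ _ _ _ e => e
  | succ j ih => exact fun ω ω' p p' e => ih ω ω' p p' (hW (b + j) ω ω' p p' e)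

open Classical in
/-- **telescoping over the caps, laws conditioned on the word, increasing events** -/
theorem up_fib {w : ℕ → Ω → W} (hW : ∀ b, Fn P (w b) (w (b + 1))) (U : ℕ → Ω → Prop)
    (hU : ∀ k, Fn P (U k) (w k)) (hmono : ∀ k ω, 0 < P.w ω → U k ω → U (k + 1) ω) (S : Ω → S')
    (D : ℕ → W → Ω → T) (X : ℕ → W → Ω → V) (N : ℕ) (hN : 1 ≤ N) {β K : ℕ}
    (h2 : ∀ k < K + β, ∀ ω, 0 < P.w ω → U k ω → ∃ F : Finset S', F.card ≤ N ∧
      ∀ ω', 0 < P.w ω' → w k ω' = w k ω → D k (w k ω) ω' = D k (w k ω) ω → S ω' ∈ F)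
    (ν₁ ν₂ : ℕ → Ω → ℝ) (n₁ : ∀ k ω, 0 ≤ ν₁ k ω) (n₂ : ∀ k ω, 0 ≤ ν₂ k ω)
    (hν : ∀ k < K, ∀ ω, 0 < P.w ω → U k ω →
      hc (P.cond (w (k + β)) (w (k + β) ω)) (D k (w k ω)) (D (k + β) (w (k + β) ω)) ≤ ν₁ k ω)
    (hX : ∀ k < K, ∀ ω, 0 < P.w ω → U k ω →
      hc (P.cond (w (k + β)) (w (k + β) ω)) (X k (w k ω)) (D (k + β) (w (k + β) ω)) ≤ ν₂ k ω) :
    ∑ k ∈ range K, P.ex (fun ω => if U k ω then
      mi (P.cond (w k) (w k ω)) S (X k (w k ω)) (D k (w k ω)) else 0) ≤
      2 * β * Real.log N + ∑ k ∈ range K, P.ex (ν₁ k) + ∑ k ∈ range K, P.ex (ν₂ k) := by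
  have hlog : 0 ≤ Real.log N := Real.log_nonneg (by exact_mod_cast hN)
  have hmono' : ∀ j k ω, 0 < P.w ω → U k ω → U (k + j) ω := by
    intro j
    induction j with
    | zero => exact fun k ω _ h => h
    | succ j ih => exact fun k ω p h => hmono (k + j) ω p (ih k ω p h)
  set h : ℕ → Ω → ℝ := fun j ω => hc (P.cond (w j) (w j ω)) S (D j (w j ω)) with hh
  have h0 : ∀ j ω, 0 ≤ h j ω := fun j ω => hc_nonneg _ _ _
  -- few values
  have hle : ∀ j < K + β, ∀ ω, 0 < P.w ω → U j ω → h j ω ≤ Real.log N := by
    intro j hj ω hω hUj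
    refine hc_le_log _ S (D j (w j ω)) N fun a ha => ?_
    obtain ⟨pa, ea⟩ := cond_supp P hω ha
    have hUa : U j a := by
      have := hU j a ω pa hω ea
      rw [this]; exact hUj
    obtain ⟨F, hF, hF2⟩ := h2 j hj a pa hUa
    refine ⟨F, hF, fun a' ha' e => ?_⟩
    obtain ⟨pa', ea'⟩ := cond_supp P hω ha'
    refine hF2 a' pa' (ea'.trans ea.symm) ?_
    rw [ea]
    exact e
  -- one step
  have step : ∀ k < K, P.ex (fun ω => if U k ω then
      mi (P.cond (w k) (w k ω)) S (X k (w k ω)) (D k (w k ω)) else 0) ≤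
      P.ex (fun ω => if U k ω then h k ω else 0) - P.ex (fun ω => if U k ω then h (k + β) ω else 0) +
        P.ex (ν₁ k) + P.ex (ν₂ k) := by
    intro k hk
    set A : Ω → Option S' := fun ω => if U k ω then some (S ω) else none with hA
    set B : Ω → V × T := fun ω => (X k (w k ω) ω, D k (w k ω) ω) with hB
    have eB : ∀ ω c, w k c = w k ω → B c = (X k (w k ω) c, D k (w k ω) c) := by
      intro ω c hc
      simp only [hB, hc]
    have f1 : P.ex (fun ω => if U k ω then hc (P.cond (w k) (w k ω)) S
        (fun a => (X k (w k ω) a, D k (w k ω) a)) else 0) = hc P A (fun ω => (B ω, w k ω)) := by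
      rw [TV.hc_cond_ex]
      refine P.ex_congr fun ω hω => ?_
      by_cases hu : U k ω
      · rw [if_pos hu]
        refine hc_congr _ ?_ ?_ ?_ ?_
        · intro a b ha hb e
          obtain ⟨pa, ea⟩ := cond_supp P hω ha
          obtain ⟨pb, eb⟩ := cond_supp P hω hb
          have ua : U k a := by rw [hU k a ω pa hω ea]; exact hu
          have ub : U k b := by rw [hU k b ω pb hω eb]; exact hu
          simp only [Prod.mk.injEq, hA, if_pos ua, if_pos ub, Option.some.injEq] at e ⊢
          exact e.1
        · intro a b ha hb e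
          obtain ⟨pa, ea⟩ := cond_supp P hω ha
          obtain ⟨pb, eb⟩ := cond_supp P hω hb
          have ua : U k a := by rw [hU k a ω pa hω ea]; exact hu
          have ub : U k b := by rw [hU k b ω pb hω eb]; exact hu
          simp only [Prod.mk.injEq, hA, if_pos ua, if_pos ub, Option.some.injEq] at e ⊢
          exact e.1
        · intro a b ha hb e
          obtain ⟨pa, ea⟩ := cond_supp P hω ha
          obtain ⟨pb, eb⟩ := cond_supp P hω hb
          rw [eB ω a ea, eB ω b eb] at e
          exact e
        · intro a b ha hb e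
          obtain ⟨pa, ea⟩ := cond_supp P hω ha
          obtain ⟨pb, eb⟩ := cond_supp P hω hb
          rw [eB ω a ea, eB ω b eb]
          exact e
      · rw [if_neg hu]
        refine (hc_zero _ ?_).symm
        intro a b ha hb _
        obtain ⟨pa, ea⟩ := cond_supp P hω ha
        obtain ⟨pb, eb⟩ := cond_supp P hω hb
        have ua : ¬ U k a := by rw [hU k a ω pa hω ea]; exact hu
        have ub : ¬ U k b := by rw [hU k b ω pb hω eb]; exact hu
        simp only [hA, if_neg ua, if_neg ub]
    have f2 : hc P A (fun ω => (B ω, w (k + β) ω)) ≤ hc P A (fun ω => (B ω, w k ω)) :=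
      hc_mono_right P A fun ω ω' p p' e => by
        simp only [Prod.mk.injEq] at e ⊢
        exact ⟨e.1, word_fn P hW k β ω ω' p p' e.2⟩
    have f3 : P.ex (fun ω => if U k ω then h (k + β) ω - ν₁ k ω - ν₂ k ω else 0) ≤
        hc P A (fun ω => (B ω, w (k + β) ω)) := by
      rw [TV.hc_cond_ex]
      refine P.ex_mono fun ω hω => ?_
      by_cases hu : U k ω
      · rw [if_pos hu]
        set Q := P.cond (w (k + β)) (w (k + β) ω) with hQ
        have sup : ∀ a, 0 < Q.w a → 0 < P.w a ∧ w (k + β) a = w (k + β) ω ∧ w k a = w k ω := by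
          intro a ha
          obtain ⟨pa, ea⟩ := cond_supp P hω ha
          exact ⟨pa, ea, word_fn P hW k β a ω pa hω ea⟩
        have g1 : hc Q A B = hc Q S (fun a => (X k (w k ω) a, D k (w k ω) a)) := by
          refine hc_congr _ ?_ ?_ ?_ ?_
          · intro a b ha hb e
            obtain ⟨pa, _, ea⟩ := sup a ha
            obtain ⟨pb, _, eb⟩ := sup b hb
            have ua : U k a := by rw [hU k a ω pa hω ea]; exact hu
            have ub : U k b := by rw [hU k b ω pb hω eb]; exact hu
            simp only [Prod.mk.injEq, hA, if_pos ua, if_pos ub, Option.some.injEq] at e ⊢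
            exact e.1
          · intro a b ha hb e
            obtain ⟨pa, _, ea⟩ := sup a ha
            obtain ⟨pb, _, eb⟩ := sup b hb
            have ua : U k a := by rw [hU k a ω pa hω ea]; exact hu
            have ub : U k b := by rw [hU k b ω pb hω eb]; exact hu
            simp only [Prod.mk.injEq, hA, if_pos ua, if_pos ub, Option.some.injEq] at e ⊢
            exact e.1
          · intro a b ha hb e
            obtain ⟨_, _, ea⟩ := sup a ha
            obtain ⟨_, _, eb⟩ := sup b hb
            rw [eB ω a ea, eB ω b eb]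
            exact e
          · intro a b ha hb e
            obtain ⟨_, _, ea⟩ := sup a ha
            obtain ⟨_, _, eb⟩ := sup b hb
            rw [eB ω a ea, eB ω b eb] at e
            exact e
        rw [g1]
        have g2 := hc_le_near Q S (fun a => (X k (w k ω) a, D k (w k ω) a)) (D (k + β) (w (k + β) ω))
        have g3 : hc Q S (fun a => (D (k + β) (w (k + β) ω) a, (X k (w k ω) a, D k (w k ω) a))) ≤
            hc Q S (fun a => (X k (w k ω) a, D k (w k ω) a)) :=
          hc_mono_right Q S fun _ _ _ _ e => congrArg Prod.snd e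
        have g4 := hc_pair_le Q (X k (w k ω)) (D k (w k ω)) (D (k + β) (w (k + β) ω))
        have g5 := hν k hk ω hω hu
        have g6 := hX k hk ω hω hu
        have g7 : h (k + β) ω = hc Q S (D (k + β) (w (k + β) ω)) := rfl
        rw [g7]
        linarith
      · rw [if_neg hu]
        exact hc_nonneg _ _ _
    have f4 : P.ex (fun ω => if U k ω then mi (P.cond (w k) (w k ω)) S (X k (w k ω)) (D k (w k ω)) else 0) =
        P.ex (fun ω => if U k ω then h k ω else 0) - P.ex (fun ω => if U k ω then hc (P.cond (w k) (w k ω)) S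
        (fun a => (X k (w k ω) a, D k (w k ω) a)) else 0) := by
      rw [← P.ex_sub]
      refine P.ex_congr fun ω _ => ?_
      by_cases hu : U k ω
      · simp only [if_pos hu]
        rfl
      · simp only [if_neg hu, sub_zero]
    have f5 : P.ex (fun ω => if U k ω then h (k + β) ω else 0) - P.ex (ν₁ k) - P.ex (ν₂ k) ≤
        P.ex (fun ω => if U k ω then h (k + β) ω - ν₁ k ω - ν₂ k ω else 0) := by
      rw [← P.ex_sub, ← P.ex_sub]
      refine P.ex_mono fun ω _ => ?_
      by_cases hu : U k ω
      · simp only [if_pos hu]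
        exact le_rfl
      · simp only [if_neg hu]
        have := n₁ k ω
        have := n₂ k ω
        linarith
    rw [f4, f1]
    linarith
  -- the sum
  set g : ℕ → ℝ := fun k => if k < K + β then P.ex (fun ω => if U k ω then h k ω else 0) else 0 with hg
  set u : ℕ → ℝ := fun k => P.ex (fun ω => if U k ω then (1 : ℝ) else 0) with hu
  have g0 : ∀ k, 0 ≤ g k := by
    intro k
    simp only [hg]
    split_ifs
    · exact P.ex_nonneg fun ω _ => by
        split_ifs
        · exact h0 _ _
        · exact le_rfl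
    · exact le_rfl
  have gle : ∀ k, g k ≤ Real.log N := by
    intro k
    simp only [hg]
    split_ifs with hk
    · calc _ ≤ P.ex (fun _ => Real.log N) := P.ex_mono fun ω hω => by
            split_ifs with hk2
            · exact hle k hk ω hω hk2
            · exact hlog
        _ = _ := P.ex_const _
    · exact hlog
  have u0 : ∀ k, 0 ≤ u k := fun k => P.ex_nonneg fun ω _ => by split_ifs <;> norm_num
  have u1 : ∀ k, u k ≤ 1 := by
    intro k
    calc _ ≤ P.ex (fun _ => (1 : ℝ)) := P.ex_mono fun ω _ => by split_ifs <;> norm_num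
      _ = _ := P.ex_const _
  have key : ∀ k < K, P.ex (fun ω => if U k ω then
      mi (P.cond (w k) (w k ω)) S (X k (w k ω)) (D k (w k ω)) else 0) ≤
      (g k - g (k + β)) + (u (k + β) - u k) * Real.log N + P.ex (ν₁ k) + P.ex (ν₂ k) := by
    intro k hk
    have s := step k hk
    have e1 : g k = P.ex (fun ω => if U k ω then h k ω else 0) := by
      simp only [hg]; rw [if_pos (by omega)]
    have e2 : g (k + β) = P.ex (fun ω => if U (k + β) ω then h (k + β) ω else 0) := by
      simp only [hg]; rw [if_pos (by omega)]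
    have e3 : P.ex (fun ω => if U (k + β) ω then h (k + β) ω else 0) ≤
        P.ex (fun ω => if U k ω then h (k + β) ω else 0) + (u (k + β) - u k) * Real.log N := by
      have e4 : (u (k + β) - u k) * Real.log N = P.ex (fun ω => Real.log N *
          ((if U (k + β) ω then (1 : ℝ) else 0) - (if U k ω then (1 : ℝ) else 0))) := by
        rw [P.ex_const_mul, P.ex_sub, mul_comm]
      rw [e4, ← P.ex_add]
      refine P.ex_mono fun ω hω => ?_
      by_cases hu1 : U k ω
      · have hu2 := hmono' β k ω hω hu1
        simp only [if_pos hu1, if_pos hu2, sub_self, mul_zero, add_zero]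
        exact le_rfl
      · by_cases hu2 : U (k + β) ω
        · simp only [if_neg hu1, if_pos hu2, sub_zero, mul_one, zero_add]
          exact hle (k + β) (by omega) ω hω hu2
        · simp only [if_neg hu1, if_neg hu2, sub_zero, mul_zero, add_zero]
          exact le_rfl
    rw [e1, e2]
    linarith
  have s1 := tele_nn g g0 K β
  have s2 := tele_up u u0 u1 K β
  have s3 : ∑ k ∈ range β, g k ≤ β * Real.log N := by
    calc ∑ k ∈ range β, g k ≤ ∑ _k ∈ range β, Real.log N := Finset.sum_le_sum fun k _ => gle k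
      _ = _ := by simp
  have s4 : (∑ k ∈ range K, (u (k + β) - u k)) * Real.log N ≤ β * Real.log N :=
    mul_le_mul_of_nonneg_right s2 hlog
  refine (Finset.sum_le_sum fun k hk => key k (Finset.mem_range.1 hk)).trans ?_
  rw [Finset.sum_add_distrib, Finset.sum_add_distrib, Finset.sum_add_distrib, ← Finset.sum_mul]
  linarith

end law

end Vale.Agent.P106.U.H420
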