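import Vale.Agent.P106.U.H420.PhiZ
import Vale.Agent.P106.U.H420.UpFib

/-!
# P106 / U / H420 : [P1] at one label, all words (helper420)

* `two D k i` : the data `D` at the two indices `k ≤ i` only (index `0` = `k`, index `≥ 1` = `i`, one line: that of `k`).
* `two_LDk`, `two_LTh`, `two_cell`, `two_Sz`, `two_hy` : its letters are those of `D.fz k k` at `k` and `i`.
* **`p1_fib`** : the sum over the caps of the term (P1) of `S3.F2o` at one label: indices `k x e ≤ i x e` depend on the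
  value `e` of the word at the cap `x`.
-/

set_option autoImplicit false

namespace Vale.Agent.P106.U.H420

open Finset Vale.Agent.P127 Vale.Agent.P127.Stk
open Vale.Agent.P127.U.CellD (q2 rd Nb q2_pos q2_add q2_le q2_mul_pow fl1_fl1)
open Vale.Agent.P106.U.Cell
open Vale.Agent.P106.U.H785.Mtr (Mtd Lt)
open Vale.Agent.P106.U.S3 (LTh LDk)
open Vale.Agent.P106.U.H470.Fib (cond_supp)

section two

variable {Ω π : Type} {k i b : ℕ} {ω ω' : Ω} {K : ℝ} {I : Set ℕ}

/-- the data at the two indices `k ≤ i`, line of `k` -/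
noncomputable def two (D : Mtd Ω π) (k i : ℕ) (h : k ≤ i) : Mtd Ω π where
  a j := if j = 0 then D.a k else D.a i
  rf j := if j = 0 then D.rf k else D.rf i
  rk _ := D.rk k
  ha := by
    intro x y hxy
    have := D.ha h
    show (if x = 0 then D.a k else D.a i) ≤ (if y = 0 then D.a k else D.a i)
    split_ifs <;> omega
  hf := by
    intro x y hxy
    have := D.hf h
    show (if x = 0 then D.rf k else D.rf i) ≤ (if y = 0 then D.rf k else D.rf i)
    split_ifs <;> omega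
  hk := fun _ _ _ => le_rfl
  hkf := by
    intro x
    have h1 := D.hf h
    have h2 := D.hkf k
    show D.rk k ≤ (if x = 0 then D.rf k else D.rf i)
    split_ifs <;> omega
  μ := D.μ
  ν := D.ν
  o := D.o
  oκ := D.oκ
  oγ := D.oγ
  l := D.l
  t := D.t
  p := D.p
  un := D.un
  κ _ := D.κ k
  al _ := D.al k
  pf _ := D.pf k
  gv _ := D.gv k

variable (D : Mtd Ω π) (h : k ≤ i)

lemma two_lt : (two D k i h).lt 0 = D.lt k := rfl

lemma two_rr : (two D k i h).rr 0 = D.rr k := rfl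

lemma two_mtr (b : ℕ) : (two D k i h).mtr 0 b = D.mtr k b := rfl

lemma two_hy (hy : D.Hy K I ω) (hk : k ∈ I) : (two D k i h).Hy K {0} ω where
  v1 := hy.v1
  w1 := hy.w1
  p1 := hy.p1
  n1 := hy.n1
  n2 := hy.n2
  k1 := fun _ _ => hy.k1 k hk
  a1 := by
    rintro j rfl
    exact hy.a1 k hk
  ap := by
    rintro j rfl
    exact hy.ap k hk
  ka := by
    rintro j rfl j' rfl _
    exact hy.ka k hk k hk le_rfl
  aa := by
    rintro j rfl j' rfl _
    exact hy.aa k hk k hk le_rfl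
  r0 := fun _ _ => hy.r0 k hk

/-- the slope in the frozen frame, explicit -/
lemma slR_fz_eq (D : Mtd Ω π) (h : k ≤ i) (b : ℕ) (ω : Ω) : slR (D.fz k k) i b ω = D.p ω * D.cNL k ω -
    (D.kaL k (D.lt k ω) - (D.s i ω - D.s k ω) * D.g k ω) *
      ((D.l ω).v - rd (min b (D.rf i - D.rr k)) (D.l ω).v) - D.g k ω * (D.l ω).X (D.s i ω) := by
  have hs : (D.fz k k).s i ω = D.s i ω := D.fz_s h ω
  have hb : (D.fz k k).bs i b = min b (D.rf i - D.rr k) := by
    unfold Pth.bs
    rw [fzk_rf D h, fzk_rk D h]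
  have hc := Mtd.fz_cN D k k i ω
  unfold slR
  rw [hc, Mtd.fz_ka, Mtd.fz_al, hb, hs]
  rfl

lemma two_slR (i' : Fin 2) (b : ℕ) : slR ((two D k i h).fz 0 0) i'.val b =
    slR (D.fz k k) (if i'.val = 0 then k else i) b := by
  funext ω
  rw [slR_fz_eq (two D k i h) (Nat.zero_le _)]
  fin_cases i'
  · rw [if_pos rfl, slR_fz_eq D le_rfl]
    rfl
  · rw [if_neg (by decide), slR_fz_eq D h]
    rfl

lemma two_Sz (b : ℕ) : Sz (two D k i h) 0 b 1 = Sz D k b i := by
  have e := two_slR D h 1 b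
  rw [if_neg (by decide)] at e
  have e' : slR ((two D k i h).fz 0 0) 1 b = slR (D.fz k k) i b := e
  funext ω
  unfold Sz
  rw [e']
  rfl

/-- `LDk` of the two-index data -/
lemma two_LDk_iff (b : ℕ) (ω ω' : Ω) : LDk ((two D k i h).fz 0 0) b 0 ω = LDk ((two D k i h).fz 0 0) b 0 ω' ↔
    LDk (D.fz k k) b k ω = LDk (D.fz k k) b k ω' := by
  have e' : slR ((two D k i h).fz 0 0) 0 b = slR (D.fz k k) k b := two_slR D h 0 b
  have c1 : ∀ ω ω', ((two D k i h).fz 0 0).cell 0 b ω = ((two D k i h).fz 0 0).cell 0 b ω' ↔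
      (D.fz k k).cell k b ω = (D.fz k k).cell k b ω' := by
    intro ω ω'
    rw [(two D k i h).fz_cell_iff le_rfl, D.fz_cell_iff le_rfl, two_mtr]
  have r1 : ((two D k i h).fz 0 0).rf 0 = D.rf k := rfl
  have r2 : ((two D k i h).fz 0 0).rk 0 = D.rr k := rfl
  have r3 : (D.fz k k).rf k = D.rf k := fzk_rf D le_rfl
  have r4 : (D.fz k k).rk k = D.rr k := fzk_rk D le_rfl
  have r5 : ∀ ω, H683.slR ((two D k i h).fz 0 0) 0 b ω = H683.slR (D.fz k k) k b ω := fun ω => congrFun e' ω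
  have r6 : ((two D k i h).fz 0 0).o = (D.fz k k).o := rfl
  unfold LDk
  rw [r1, r2, r3, r4, r6]
  simp only [Prod.mk.injEq, r5]
  rw [c1]

lemma two_cell_iff (b : ℕ) (ω ω' : Ω) : ((two D k i h).fz 0 0).cell 0 b ω = ((two D k i h).fz 0 0).cell 0 b ω' ↔
    (D.fz k k).cell k b ω = (D.fz k k).cell k b ω' := by
  rw [(two D k i h).fz_cell_iff le_rfl, D.fz_cell_iff le_rfl, two_mtr]

/-- the exceptional event of the two-index data -/
lemma two_Bad (K : ℝ) (b : ℕ) (ω : Ω) : ((two D k i h).fz 0 0).Bad K 0 b ω ↔ (D.fz k k).Bad K k b ω := by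
  have hF : ((two D k i h).fz 0 0).F 0 ω = (D.fz k k).F k ω := by
    rw [(two D k i h).fz_Fk le_rfl, D.fz_Fk le_rfl]
    rfl
  have hs : ((two D k i h).fz 0 0).s 0 ω = (D.fz k k).s k ω := by
    rw [D.fz_s le_rfl]; rfl
  have hbs : ((two D k i h).fz 0 0).bs 0 b = (D.fz k k).bs k b := by
    rw [(two D k i h).fz_bs le_rfl, D.fz_bs le_rfl]; rfl
  have hR : ((two D k i h).fz 0 0).R 0 b = (D.fz k k).R k b := by
    rw [(two D k i h).fz_R le_rfl, D.fz_R le_rfl]; rfl
  have ha : ((two D k i h).fz 0 0).a 0 = (D.fz k k).a k := by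
    rw [D.fz_a le_rfl]; rfl
  have hsl : ((two D k i h).fz 0 0).sl 0 b ω = (D.fz k k).sl k b ω := by
    unfold Pth.sl
    rw [hF, hbs]
    rfl
  have hFr : ∀ n, ((two D k i h).fz 0 0).Fr 0 b n ω = (D.fz k k).Fr k b n ω := by
    intro n
    unfold Pth.Fr
    rw [hF, hbs, hsl]
    rfl
  have hva : ((two D k i h).fz 0 0).va 0 b ω = (D.fz k k).va k b ω := by
    unfold Pth.va
    rw [hsl, hs, hR, hFr]
    rfl
  have hlv : ((two D k i h).fz 0 0).lv 0 b = (D.fz k k).lv k b := by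
    unfold Pth.lv
    rw [ha, hR]
    rfl
  unfold Pth.Bad
  rw [hva, hlv]
  rfl

end two

section fam

variable {Ω π W : Type} [Fintype Ω] {Kc : ℝ}

open Classical in
/-- **[P1] at one label** : words `w x`, events `U x` (deep phi regime), data `D x e`, indices `k x e ≤ i x e`, caps `bc x` -/
theorem p1_fib (P : Law Ω) {w : ℕ → Ω → W} (hW : ∀ x, Fn P (w x) (w (x + 1))) (U : ℕ → Ω → Prop)
    (hU : ∀ x, Fn P (U x) (w x)) (hmono : ∀ x ω, 0 < P.w ω → U x ω → U (x + 1) ω) (h1 : 1 ≤ Kc)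
    (D : ℕ → W → Mtd Ω π) (k i : ℕ → W → ℕ) (hki : ∀ x e, k x e ≤ i x e) (bc : ℕ → ℕ) (hbm : Monotone bc)
    {β K N0 g A : ℕ}
    (hS : ∀ x x', x ≤ x' → x' < K + β → ∀ ω, 0 < P.w ω → U x ω →
      Sn (two (D x (w x ω)) (k x (w x ω)) (i x (w x ω)) (hki _ _))
        (two (D x' (w x' ω)) (k x' (w x' ω)) (i x' (w x' ω)) (hki _ _)) 0)
    (hpf : ∀ x < K, ∀ ω, 0 < P.w ω → U x ω → Fn (P.cond (w (x + β)) (w (x + β) ω))
      ((D x (w x ω)).pf (k x (w x ω))) ((D (x + β) (w (x + β) ω)).pf (k (x + β) (w (x + β) ω))))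
    (hHy : ∀ x < K + β, ∀ ω ω', 0 < P.w ω → 0 < P.w ω' → U x ω → w x ω' = w x ω →
      (D x (w x ω)).Hy Kc {k x (w x ω)} ω')
    (hb8 : ∀ x < K + β, ∀ ω, 0 < P.w ω → U x ω → 8 * (D x (w x ω)).μ ≤ bc x ∧
      8 * (D x (w x ω)).μ ≤ (D x (w x ω)).rf (k x (w x ω)) ∧
      (D x (w x ω)).rf (i x (w x ω)) ≤ (D x (w x ω)).rr (k x (w x ω)) + bc x ∧
      bc x + 8 * (D x (w x ω)).μ ≤ bc (x + β))
    (hN : 43 * (8 * Kc) ^ 5 ≤ N0)
    (hA : ∀ x < K + β, ∀ ω, 0 < P.w ω → U x ω →
      (D x (w x ω)).a (i x (w x ω)) - (D x (w x ω)).a (k x (w x ω)) ≤ A ∧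
      (D x (w x ω)).a (i x (w x ω)) - (D x (w x ω)).a (k x (w x ω)) +
        ((D x (w x ω)).rf (i x (w x ω)) - (D x (w x ω)).rf (k x (w x ω))) + 3 * (D x (w x ω)).μ ≤ g) :
    ∑ x ∈ range K, P.ex (fun ω => if U x ω then mi (P.cond (w x) (w x ω))
        (LTh ((D x (w x ω)).fz (k x (w x ω)) (k x (w x ω))) (bc x) (i x (w x ω)))
        (((D x (w x ω)).fz (k x (w x ω)) (k x (w x ω))).cell (k x (w x ω)) (bc (x + β)))
        (LDk ((D x (w x ω)).fz (k x (w x ω)) (k x (w x ω))) (bc x) (k x (w x ω))) else 0) ≤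
      2 * β * (A * Real.log 2 + (Real.log (5 * N0) + g * Real.log 2)) +
        ∑ x ∈ range K, P.ex (fun ω => if U x ω then (4 + 9 * Real.log (2 * ⌈30 * (8 * Kc) ^ 2⌉₊ + 3)) *
          Real.sqrt (prE (P.cond (w (x + β)) (w (x + β) ω))
            (((D (x + β) (w (x + β) ω)).fz (k (x + β) (w (x + β) ω)) (k (x + β) (w (x + β) ω))).Bad
              (40 * (8 * Kc) ^ 2) (k (x + β) (w (x + β) ω)) (bc x))) else 0) := by
  rcases Nat.eq_zero_or_pos (K + β) with hz | hpos
  · have hK0 : K = 0 := by omega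
    have hβ0 : β = 0 := by omega
    subst hK0
    subst hβ0
    simp
  have hmono' : ∀ x x' ω, x ≤ x' → 0 < P.w ω → U x ω → U x' ω := by
    intro x x' ω hx p hu
    induction x', hx using Nat.le_induction with
    | base => exact hu
    | succ y _ ih => exact hmono y ω p ih
  have hwf : ∀ x x', x ≤ x' → Fn P (w x) (w x') := fun x x' hx => by
    obtain ⟨d, rfl⟩ := Nat.exists_eq_add_of_le hx
    exact word_fn P hW x d
  -- the one variable
  set z := K + β - 1 with hzd
  set S : Ω → ℤ × ℤ := fun ω => if U z ω then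
    Sz (D z (w z ω)) (k z (w z ω)) (bc z) (i z (w z ω)) ω else (0, 0) with hSd
  have key : ∀ x < K + β, ∀ ω ω', 0 < P.w ω → 0 < P.w ω' → U x ω → w x ω' = w x ω →
      S ω' = Sz (D x (w x ω)) (k x (w x ω)) (bc x) (i x (w x ω)) ω' := by
    intro x hx ω ω' p p' hu e
    have hu' : U x ω' := by rw [hU x ω' ω p' p e]; exact hu
    have huz : U z ω' := hmono' x z ω' (by omega) p' hu'
    have s := hS x z (by omega) (by omega) ω' p' hu'
    have b2 := (hb8 x hx ω' p' hu').2.2.1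
    have q := Sz_eq (i := 1) s (Nat.zero_le _) (b := bc x) (b2 := bc z) (by
      rw [← s.ff, ← s.rr]
      exact b2) (hbm (by omega))
    rw [two_Sz, two_Sz] at q
    simp only [hSd, if_pos huz]
    rw [← q, e]
  set N : ℕ := 2 ^ A * (2 * (N0 * 2 ^ g) + 3) with hNd
  have hN1 : 1 ≤ N := Nat.one_le_iff_ne_zero.2 (by positivity)
  have main := up_fib P hW U hU hmono S
    (fun x e => LDk ((D x e).fz (k x e) (k x e)) (bc x) (k x e))
    (fun x e => ((D x e).fz (k x e) (k x e)).cell (k x e) (bc (x + β))) N hN1 (β := β) (K := K)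
    ?_ (fun x ω => if U x ω then (4 + 9 * Real.log (2 * ⌈30 * (8 * Kc) ^ 2⌉₊ + 3)) *
          Real.sqrt (prE (P.cond (w (x + β)) (w (x + β) ω))
            (((D (x + β) (w (x + β) ω)).fz (k (x + β) (w (x + β) ω)) (k (x + β) (w (x + β) ω))).Bad
              (40 * (8 * Kc) ^ 2) (k (x + β) (w (x + β) ω)) (bc x))) else 0) (fun _ _ => 0) ?_
    (fun _ _ => le_rfl) ?_ ?_
  · have e0 : ∑ x ∈ range K, P.ex (fun _ : Ω => (0 : ℝ)) = 0 := by simp [P.ex_const]
    rw [e0, add_zero] at main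
    have hlogN : Real.log N ≤ A * Real.log 2 + (Real.log (5 * N0) + g * Real.log 2) := by
      have hN2 : (1 : ℝ) ≤ N0 := le_trans (by
        have : (1 : ℝ) ≤ (8 * Kc) ^ 5 := one_le_pow₀ (by linarith)
        linarith) hN
      have hM : (1 : ℝ) ≤ N0 * 2 ^ g := by
        have : (1 : ℝ) ≤ 2 ^ g := one_le_pow₀ (by norm_num)
        nlinarith
      rw [hNd]
      push_cast
      rw [Real.log_mul (by positivity) (by positivity), Real.log_pow]
      have e1 : Real.log (5 * N0) + g * Real.log 2 = Real.log (5 * N0 * 2 ^ g) := by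
        rw [Real.log_mul (x := 5 * (N0 : ℝ)) (by positivity) (by positivity), Real.log_pow]
      rw [e1]
      have e2 : Real.log (2 * (N0 * 2 ^ g) + 3) ≤ Real.log (5 * N0 * 2 ^ g) :=
        Real.log_le_log (by positivity) (by linarith)
      linarith
    have e3 : 2 * (β : ℝ) * Real.log N ≤ 2 * β * (A * Real.log 2 + (Real.log (5 * N0) + g * Real.log 2)) :=
      mul_le_mul_of_nonneg_left hlogN (by positivity)
    refine le_trans (Finset.sum_le_sum fun x hx => P.ex_mono fun ω hω => ?_) (main.trans (by linarith))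
    rw [Finset.mem_range] at hx
    show _ ≤ (if U x ω then mi (P.cond (w x) (w x ω)) S
      (((D x (w x ω)).fz (k x (w x ω)) (k x (w x ω))).cell (k x (w x ω)) (bc (x + β)))
      (LDk ((D x (w x ω)).fz (k x (w x ω)) (k x (w x ω))) (bc x) (k x (w x ω))) else 0)
    by_cases hu : U x ω
    · rw [if_pos hu, if_pos hu]
      refine (mi_LTh (P.cond (w x) (w x ω)) (D x (w x ω)) _ (hki _ _)
        (hb8 x (by omega) ω hω hu).2.2.1).trans ?_
      refine mi_mono_left _ _ fun a c pa pc e => ?_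
      obtain ⟨qa, ea⟩ := cond_supp P hω pa
      obtain ⟨qc, ec⟩ := cond_supp P hω pc
      simp only [Prod.mk.injEq] at e
      rw [← key x (by omega) ω a hω qa hu ea, ← key x (by omega) ω c hω qc hu ec]
      exact e.1
    · rw [if_neg hu, if_neg hu]
  · -- few values
    intro x hx ω hω hu
    have nb := hb8 x hx ω hω hu
    have nA := hA x hx ω hω hu
    have hkf := (D x (w x ω)).hf (hki x (w x ω))
    have f := few_Sz (P.cond (w x) (w x ω)) (D x (w x ω)) (I := {k x (w x ω)}) h1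
      (fun a pa => by
        obtain ⟨qa, ea⟩ := cond_supp P hω pa
        exact hHy x hx ω a hω qa hu ea) (Set.mem_singleton _) (hki x (w x ω)) nb.1 nb.2.1
      (by have := nb.2.2.1; omega) hN nA.2 ω (by
        rw [P.cond_w _ _ (P.pr_pos (w x) hω), if_pos rfl]
        exact div_pos hω (P.pr_pos (w x) hω))
    obtain ⟨F, hF1, hF2⟩ := f
    refine ⟨F, hF1.trans ?_, fun ω' hω' e1 e2 => ?_⟩
    · rw [hNd]
      exact Nat.mul_le_mul_right _ (Nat.pow_le_pow_right (by norm_num) nA.1)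
    · rw [key x hx ω ω' hω hω' hu e1]
      refine hF2 ω' ?_ e2
      rw [P.cond_w _ _ (P.pr_pos (w x) hω), if_pos e1]
      exact div_pos hω' (P.pr_pos (w x) hω)
  · intro x ω
    show 0 ≤ (if U x ω then _ else 0)
    split_ifs
    · have : 0 ≤ Real.log (2 * (⌈30 * (8 * Kc) ^ 2⌉₊ : ℝ) + 3) := Real.log_nonneg (by
        have : (0 : ℝ) ≤ (⌈30 * (8 * Kc) ^ 2⌉₊ : ℝ) := Nat.cast_nonneg _
        linarith)
      positivity
    · exact le_rfl
  · -- near-nested
    intro x hx ω hω hu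
    rw [if_pos hu]
    have hux : U (x + β) ω := hmono' x (x + β) ω (by omega) hω hu
    have s := hS x (x + β) (by omega) (by omega) ω hω hu
    have nb := hb8 x (by omega) ω hω hu
    have em : (D x (w x ω)).μ = (D (x + β) (w (x + β) ω)).μ := s.sm.μ
    have er : (D x (w x ω)).rr (k x (w x ω)) = (D (x + β) (w (x + β) ω)).rr (k (x + β) (w (x + β) ω)) := s.rr
    have ef : (D x (w x ω)).rf (k x (w x ω)) = (D (x + β) (w (x + β) ω)).rf (k (x + β) (w (x + β) ω)) :=
      congrFun s.ff 0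
    have hkf := (D x (w x ω)).hf (hki x (w x ω))
    have e := hc_LDk (P.cond (w (x + β)) (w (x + β) ω))
      (two (D x (w x ω)) (k x (w x ω)) (i x (w x ω)) (hki _ _))
      (two (D (x + β) (w (x + β) ω)) (k (x + β) (w (x + β) ω)) (i (x + β) (w (x + β) ω)) (hki _ _))
      (k := 0) (b := bc x) (b2 := bc (x + β)) (I := {0}) s h1
      (fun a pa => by
        obtain ⟨qa, ea⟩ := cond_supp P hω pa
        exact two_hy _ _ (hHy (x + β) (by omega) ω a hω qa hux ea) (Set.mem_singleton _))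
      (Set.mem_singleton _)
      (by show 8 * (D (x + β) (w (x + β) ω)).μ ≤ bc x
          rw [← em]; exact nb.1)
      (by show 8 * (D (x + β) (w (x + β) ω)).μ ≤ (D (x + β) (w (x + β) ω)).rf (k (x + β) (w (x + β) ω))
          rw [← em, ← ef]; exact nb.2.1)
      (by show (D (x + β) (w (x + β) ω)).rf (k (x + β) (w (x + β) ω)) ≤
            (D (x + β) (w (x + β) ω)).rr (k (x + β) (w (x + β) ω)) + bc x
          rw [← er, ← ef]
          have := nb.2.2.1
          omega)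
      (by show bc x + 8 * (D (x + β) (w (x + β) ω)).μ ≤ bc (x + β)
          rw [← em]; exact nb.2.2.2)
      (hpf x hx ω hω hu)
    have e1 : hc (P.cond (w (x + β)) (w (x + β) ω))
        (LDk ((D x (w x ω)).fz (k x (w x ω)) (k x (w x ω))) (bc x) (k x (w x ω)))
        (LDk ((D (x + β) (w (x + β) ω)).fz (k (x + β) (w (x + β) ω)) (k (x + β) (w (x + β) ω)))
          (bc (x + β)) (k (x + β) (w (x + β) ω))) =
        hc (P.cond (w (x + β)) (w (x + β) ω))
        (LDk ((two (D x (w x ω)) (k x (w x ω)) (i x (w x ω)) (hki _ _)).fz 0 0) (bc x) 0)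
        (LDk ((two (D (x + β) (w (x + β) ω)) (k (x + β) (w (x + β) ω)) (i (x + β) (w (x + β) ω))
          (hki _ _)).fz 0 0) (bc (x + β)) 0) := by
      refine hc_congr _ ?_ ?_ ?_ ?_
      · intro a c _ _ e
        exact (two_LDk_iff (D x (w x ω)) (hki x (w x ω)) (bc x) a c).1 (congrArg Prod.fst e)
      · intro a c _ _ e
        exact (two_LDk_iff (D x (w x ω)) (hki x (w x ω)) (bc x) a c).2 (congrArg Prod.fst e)
      · intro a c _ _ e
        exact (two_LDk_iff (D (x + β) (w (x + β) ω)) (hki (x + β) (w (x + β) ω)) (bc (x + β)) a c).1 e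
      · intro a c _ _ e
        exact (two_LDk_iff (D (x + β) (w (x + β) ω)) (hki (x + β) (w (x + β) ω)) (bc (x + β)) a c).2 e
    rw [e1]
    refine e.trans (le_of_eq ?_)
    congr 3
    funext a
    exact propext (two_Bad _ _ _ _ _)
  · intro x hx ω hω hu
    have s := hS x (x + β) (by omega) (by omega) ω hω hu
    refine le_of_eq (hc_zero _ fun a c pa pc e => ?_)
    have m := LDk_mtr (D (x + β) (w (x + β) ω)) e
    have m' : (D x (w x ω)).pf (k x (w x ω)) a = (D x (w x ω)).pf (k x (w x ω)) c :=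
      hpf x hx ω hω hu a c pa pc (congrArg (fun y => y.1.2.1) m)
    exact ((D x (w x ω)).fz_cell_iff le_rfl (bc (x + β)) a c).2
      (mtr_fn (k := 0) s m' m)

end fam

end Vale.Agent.P106.U.H420
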