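import Vale.Agent.P106.U.H420.UpFib
import Vale.Agent.P106.U.H122.V1

/-!
# P106 / U / H420 : telescoping in the form of laws conditioned on the word, events = intervals of caps (helper420)

`w k` = word up to the cap `k` (nested), `U k` = events, functions of `w k`, CONVEX in `k` on every path (interval of caps),
`S` = ONE variable.

* **`iv_fib`** : `∑_(k<K) E [1{U k} mi (P | w k) S (X k) (D k)] ≤ 2 β log N + ∑ E [ν₁ + ν₂]`; the near-nestedness is needed only
  if `U k`, `U (k + β)`, `k + β < K`.
* `ex_prE_word`, `ex_sqrt_word` : means of (root of) the conditional probability of an event of the smaller word.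
-/

set_option autoImplicit false

namespace Vale.Agent.P106.U.H420

open Finset Vale.Agent.P127 Vale.Agent.P127.Stk
open Vale.Agent.P106.U.H470.Fib (cond_supp)
open Vale.Agent.P106.U.H833 (hc_le_near)

section num

/-- entries of an interval, steps of length `β` -/
lemma card_entry {V : ℕ → Prop} (hV : ∀ j k l, j ≤ k → k ≤ l → V j → V l → V k) (K β : ℕ) (T : Finset ℕ)
    (hT : ∀ k ∈ T, V (k + β) ∧ ¬ V k) : T.card ≤ β := by
  rcases T.eq_empty_or_nonempty with h | h
  · rw [h, card_empty]; exact Nat.zero_le _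
  · have hsub : T ⊆ Ico (T.min' h) (T.min' h + β) := by
      intro k hk
      rw [mem_Ico]
      refine ⟨T.min'_le k hk, ?_⟩
      by_contra hcon
      have h1 := hT _ (T.min'_mem h)
      have h2 := hT k hk
      exact h2.2 (hV _ k _ (by omega) (Nat.le_add_right k β) h1.1 h2.1)
    refine (card_le_card hsub).trans ?_
    simp

end num

section law

variable {Ω : Type} [Fintype Ω] (P : Law Ω) {S' T V W : Type*}

lemma ex_sumK {ι : Type*} (s : Finset ι) (f : ι → Ω → ℝ) :
    P.ex (fun ω => ∑ j ∈ s, f j ω) = ∑ j ∈ s, P.ex (f j) := by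
  unfold Law.ex
  rw [Finset.sum_comm]
  exact Finset.sum_congr rfl fun ω _ => Finset.mul_sum _ _ _

open Classical in
/-- mean of the conditional probability of an event which depends on a smaller word -/
lemma ex_prE_word {z : Ω → V} {z' : Ω → W} (hz : Fn P z' z) (U : Ω → Prop) (hU : Fn P U z') (E : W → Ω → Prop) :
    P.ex (fun ω => if U ω then prE (P.cond z (z ω)) (E (z' ω)) else 0) = prE P (fun a => U a ∧ E (z' a) a) := by
  have h := Vale.Agent.P127.U.Pin.ex_cond P z (fun a => Law.ind (U a ∧ E (z' a) a))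
  rw [H300.ex_ind_eq] at h
  rw [← h]
  refine P.ex_congr fun ω hω => ?_
  rw [H300.ex_ind_eq]
  have sup : ∀ a, 0 < (P.cond z (z ω)).w a → z' a = z' ω ∧ (U a ↔ U ω) := by
    intro a ha
    obtain ⟨pa, ea⟩ := cond_supp P hω ha
    have e := hz a ω pa hω ea
    exact ⟨e, by rw [hU a ω pa hω e]⟩
  by_cases hu : U ω
  · rw [if_pos hu, ← H300.ex_ind_eq, ← H300.ex_ind_eq]
    refine (P.cond z (z ω)).ex_congr fun a ha => ?_
    obtain ⟨e1, e2⟩ := sup a ha
    congr 1
    rw [e1]
    exact propext ⟨fun h => ⟨e2.2 hu, h⟩, fun h => h.2⟩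
  · rw [if_neg hu, ← H300.ex_ind_eq]
    have : (0 : ℝ) = (P.cond z (z ω)).ex (fun _ => 0) := (Law.ex_const _ _).symm
    rw [this]
    refine (P.cond z (z ω)).ex_congr fun a ha => ?_
    obtain ⟨e1, e2⟩ := sup a ha
    exact (Law.ind_not fun h => hu (e2.1 h.1)).symm

open Classical in
/-- Jensen, event of the smaller word -/
lemma ex_sqrt_word {z : Ω → V} {z' : Ω → W} (hz : Fn P z' z) (U : Ω → Prop) (hU : Fn P U z') (E : W → Ω → Prop) :
    P.ex (fun ω => if U ω then Real.sqrt (prE (P.cond z (z ω)) (E (z' ω))) else 0) ≤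
      Real.sqrt (P.ex (fun ω => if U ω then prE (P.cond z' (z' ω)) (E (z' ω)) else 0)) := by
  rw [ex_prE_word P (z := z') (fun _ _ _ _ e => e) U hU E, ← ex_prE_word P hz U hU E]
  refine le_trans (le_of_eq ?_) (H122.ex_sqrt_le P _ fun ω _ => ?_)
  · refine P.ex_congr fun ω _ => ?_
    split_ifs
    · rfl
    · rw [Real.sqrt_zero]
  · split_ifs
    · exact prE_nonneg _ _
    · exact le_rfl

open Classical in
/-- **telescoping over the caps, laws conditioned on the word, events = intervals** -/
theorem iv_fib {w : ℕ → Ω → W} (hW : ∀ b, Fn P (w b) (w (b + 1))) (U : ℕ → Ω → Prop)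
    (hU : ∀ k, Fn P (U k) (w k)) {β K : ℕ}
    (hcv : ∀ j k l ω, 0 < P.w ω → j ≤ k → k ≤ l → l < K → U j ω → U l ω → U k ω) (S : Ω → S')
    (D : ℕ → W → Ω → T) (X : ℕ → W → Ω → V) (N : ℕ) (hN : 1 ≤ N)
    (h2 : ∀ k < K, ∀ ω, 0 < P.w ω → U k ω → ∃ F : Finset S', F.card ≤ N ∧
      ∀ ω', 0 < P.w ω' → w k ω' = w k ω → D k (w k ω) ω' = D k (w k ω) ω → S ω' ∈ F)
    (ν₁ ν₂ : ℕ → Ω → ℝ) (n₁ : ∀ k ω, 0 ≤ ν₁ k ω) (n₂ : ∀ k ω, 0 ≤ ν₂ k ω)
    (hν : ∀ k, k + β < K → ∀ ω, 0 < P.w ω → U k ω → U (k + β) ω →
      hc (P.cond (w (k + β)) (w (k + β) ω)) (D k (w k ω)) (D (k + β) (w (k + β) ω)) ≤ ν₁ k ω)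
    (hX : ∀ k, k + β < K → ∀ ω, 0 < P.w ω → U k ω → U (k + β) ω →
      hc (P.cond (w (k + β)) (w (k + β) ω)) (X k (w k ω)) (D (k + β) (w (k + β) ω)) ≤ ν₂ k ω) :
    ∑ k ∈ range K, P.ex (fun ω => if U k ω then
      mi (P.cond (w k) (w k ω)) S (X k (w k ω)) (D k (w k ω)) else 0) ≤
      2 * β * Real.log N + ∑ k ∈ range K, P.ex (fun ω => if U k ω ∧ U (k + β) ω ∧ k + β < K then
        ν₁ k ω + ν₂ k ω else 0) := by
  have hlog : 0 ≤ Real.log N := Real.log_nonneg (by exact_mod_cast hN)
  set h : ℕ → Ω → ℝ := fun j ω => hc (P.cond (w j) (w j ω)) S (D j (w j ω)) with hh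
  have h0 : ∀ j ω, 0 ≤ h j ω := fun j ω => hc_nonneg _ _ _
  -- few values
  have hle : ∀ j < K, ∀ ω, 0 < P.w ω → U j ω → h j ω ≤ Real.log N := by
    intro j hj ω hω hUj
    refine hc_le_log _ S (D j (w j ω)) N fun a ha => ?_
    obtain ⟨pa, ea⟩ := cond_supp P hω ha
    have hUa : U j a := by
      have := hU j a ω pa hω ea
      rw [this]; exact hUj
    obtain ⟨F, hF, hF2⟩ := h2 j hj a pa hUa
    refine ⟨F, hF, fun a' ha' e => ?_⟩
    obtain ⟨pa', ea'⟩ := cond_supp P hω ha'
    refine hF2 a' pa' (ea'.trans ea.symm) ?_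
    rw [ea]
    exact e
  -- one step
  have step : ∀ k < K, P.ex (fun ω => if U k ω then
      mi (P.cond (w k) (w k ω)) S (X k (w k ω)) (D k (w k ω)) else 0) ≤
      P.ex (fun ω => if U k ω then h k ω else 0) -
        P.ex (fun ω => if U k ω ∧ U (k + β) ω ∧ k + β < K then h (k + β) ω else 0) +
        P.ex (fun ω => if U k ω ∧ U (k + β) ω ∧ k + β < K then ν₁ k ω + ν₂ k ω else 0) := by
    intro k hk
    set A : Ω → Option S' := fun ω => if U k ω then some (S ω) else none with hA
    set B : Ω → V × T := fun ω => (X k (w k ω) ω, D k (w k ω) ω) with hB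
    have eB : ∀ ω c, w k c = w k ω → B c = (X k (w k ω) c, D k (w k ω) c) := by
      intro ω c hc
      simp only [hB, hc]
    have f1 : P.ex (fun ω => if U k ω then hc (P.cond (w k) (w k ω)) S
        (fun a => (X k (w k ω) a, D k (w k ω) a)) else 0) = hc P A (fun ω => (B ω, w k ω)) := by
      rw [TV.hc_cond_ex]
      refine P.ex_congr fun ω hω => ?_
      by_cases hu : U k ω
      · rw [if_pos hu]
        refine hc_congr _ ?_ ?_ ?_ ?_
        · intro a b ha hb e
          obtain ⟨pa, ea⟩ := cond_supp P hω ha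
          obtain ⟨pb, eb⟩ := cond_supp P hω hb
          have ua : U k a := by rw [hU k a ω pa hω ea]; exact hu
          have ub : U k b := by rw [hU k b ω pb hω eb]; exact hu
          simp only [Prod.mk.injEq, hA, if_pos ua, if_pos ub, Option.some.injEq] at e ⊢
          exact e.1
        · intro a b ha hb e
          obtain ⟨pa, ea⟩ := cond_supp P hω ha
          obtain ⟨pb, eb⟩ := cond_supp P hω hb
          have ua : U k a := by rw [hU k a ω pa hω ea]; exact hu
          have ub : U k b := by rw [hU k b ω pb hω eb]; exact hu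
          simp only [Prod.mk.injEq, hA, if_pos ua, if_pos ub, Option.some.injEq] at e ⊢
          exact e.1
        · intro a b ha hb e
          obtain ⟨pa, ea⟩ := cond_supp P hω ha
          obtain ⟨pb, eb⟩ := cond_supp P hω hb
          rw [eB ω a ea, eB ω b eb] at e
          exact e
        · intro a b ha hb e
          obtain ⟨pa, ea⟩ := cond_supp P hω ha
          obtain ⟨pb, eb⟩ := cond_supp P hω hb
          rw [eB ω a ea, eB ω b eb]
          exact e
      · rw [if_neg hu]
        refine (hc_zero _ ?_).symm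
        intro a b ha hb _
        obtain ⟨pa, ea⟩ := cond_supp P hω ha
        obtain ⟨pb, eb⟩ := cond_supp P hω hb
        have ua : ¬ U k a := by rw [hU k a ω pa hω ea]; exact hu
        have ub : ¬ U k b := by rw [hU k b ω pb hω eb]; exact hu
        simp only [hA, if_neg ua, if_neg ub]
    have f2 : hc P A (fun ω => (B ω, w (k + β) ω)) ≤ hc P A (fun ω => (B ω, w k ω)) :=
      hc_mono_right P A fun ω ω' p p' e => by
        simp only [Prod.mk.injEq] at e ⊢
        exact ⟨e.1, word_fn P hW k β ω ω' p p' e.2⟩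
    have f3 : P.ex (fun ω => if U k ω ∧ U (k + β) ω ∧ k + β < K then h (k + β) ω - (ν₁ k ω + ν₂ k ω) else 0) ≤
        hc P A (fun ω => (B ω, w (k + β) ω)) := by
      rw [TV.hc_cond_ex]
      refine P.ex_mono fun ω hω => ?_
      by_cases hu' : U k ω ∧ U (k + β) ω ∧ k + β < K
      · have hu := hu'.1
        rw [if_pos hu']
        set Q := P.cond (w (k + β)) (w (k + β) ω) with hQ
        have sup : ∀ a, 0 < Q.w a → 0 < P.w a ∧ w (k + β) a = w (k + β) ω ∧ w k a = w k ω := by
          intro a ha
          obtain ⟨pa, ea⟩ := cond_supp P hω ha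
          exact ⟨pa, ea, word_fn P hW k β a ω pa hω ea⟩
        have g1 : hc Q A B = hc Q S (fun a => (X k (w k ω) a, D k (w k ω) a)) := by
          refine hc_congr _ ?_ ?_ ?_ ?_
          · intro a b ha hb e
            obtain ⟨pa, _, ea⟩ := sup a ha
            obtain ⟨pb, _, eb⟩ := sup b hb
            have ua : U k a := by rw [hU k a ω pa hω ea]; exact hu
            have ub : U k b := by rw [hU k b ω pb hω eb]; exact hu
            simp only [Prod.mk.injEq, hA, if_pos ua, if_pos ub, Option.some.injEq] at e ⊢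
            exact e.1
          · intro a b ha hb e
            obtain ⟨pa, _, ea⟩ := sup a ha
            obtain ⟨pb, _, eb⟩ := sup b hb
            have ua : U k a := by rw [hU k a ω pa hω ea]; exact hu
            have ub : U k b := by rw [hU k b ω pb hω eb]; exact hu
            simp only [Prod.mk.injEq, hA, if_pos ua, if_pos ub, Option.some.injEq] at e ⊢
            exact e.1
          · intro a b ha hb e
            obtain ⟨_, _, ea⟩ := sup a ha
            obtain ⟨_, _, eb⟩ := sup b hb
            rw [eB ω a ea, eB ω b eb]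
            exact e
          · intro a b ha hb e
            obtain ⟨_, _, ea⟩ := sup a ha
            obtain ⟨_, _, eb⟩ := sup b hb
            rw [eB ω a ea, eB ω b eb] at e
            exact e
        rw [g1]
        have g2 := hc_le_near Q S (fun a => (X k (w k ω) a, D k (w k ω) a)) (D (k + β) (w (k + β) ω))
        have g3 : hc Q S (fun a => (D (k + β) (w (k + β) ω) a, (X k (w k ω) a, D k (w k ω) a))) ≤
            hc Q S (fun a => (X k (w k ω) a, D k (w k ω) a)) :=
          hc_mono_right Q S fun _ _ _ _ e => congrArg Prod.snd e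
        have g4 := hc_pair_le Q (X k (w k ω)) (D k (w k ω)) (D (k + β) (w (k + β) ω))
        have g5 := hν k hu'.2.2 ω hω hu hu'.2.1
        have g6 := hX k hu'.2.2 ω hω hu hu'.2.1
        have g7 : h (k + β) ω = hc Q S (D (k + β) (w (k + β) ω)) := rfl
        rw [g7]
        linarith
      · rw [if_neg hu']
        exact hc_nonneg _ _ _
    have f4 : P.ex (fun ω => if U k ω then mi (P.cond (w k) (w k ω)) S (X k (w k ω)) (D k (w k ω)) else 0) =
        P.ex (fun ω => if U k ω then h k ω else 0) - P.ex (fun ω => if U k ω then hc (P.cond (w k) (w k ω)) S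
        (fun a => (X k (w k ω) a, D k (w k ω) a)) else 0) := by
      rw [← P.ex_sub]
      refine P.ex_congr fun ω _ => ?_
      by_cases hu : U k ω
      · simp only [if_pos hu]
        rfl
      · simp only [if_neg hu, sub_zero]
    have f5 : P.ex (fun ω => if U k ω ∧ U (k + β) ω ∧ k + β < K then h (k + β) ω else 0) -
        P.ex (fun ω => if U k ω ∧ U (k + β) ω ∧ k + β < K then ν₁ k ω + ν₂ k ω else 0) ≤
        P.ex (fun ω => if U k ω ∧ U (k + β) ω ∧ k + β < K then h (k + β) ω - (ν₁ k ω + ν₂ k ω) else 0) := by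
      rw [← P.ex_sub]
      refine P.ex_mono fun ω _ => ?_
      by_cases hu : U k ω ∧ U (k + β) ω ∧ k + β < K
      · simp only [if_pos hu]
        exact le_rfl
      · simp only [if_neg hu, sub_zero]
        exact le_rfl
    rw [f4, f1]
    linarith
  -- the sum
  set g : ℕ → ℝ := fun k => if k < K then P.ex (fun ω => if U k ω then h k ω else 0) else 0 with hg
  have g0 : ∀ k, 0 ≤ g k := by
    intro k
    simp only [hg]
    split_ifs
    · exact P.ex_nonneg fun ω _ => by
        split_ifs
        · exact h0 _ _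
        · exact le_rfl
    · exact le_rfl
  have gle : ∀ k, g k ≤ Real.log N := by
    intro k
    simp only [hg]
    split_ifs with hk
    · calc _ ≤ P.ex (fun _ => Real.log N) := P.ex_mono fun ω hω => by
            split_ifs with hk2
            · exact hle k hk ω hω hk2
            · exact hlog
        _ = _ := P.ex_const _
    · exact hlog
  set u : ℕ → Ω → ℝ := fun k ω => if U (k + β) ω ∧ k + β < K ∧ ¬ U k ω then 1 else 0 with hu
  have key : ∀ k < K, P.ex (fun ω => if U k ω then
      mi (P.cond (w k) (w k ω)) S (X k (w k ω)) (D k (w k ω)) else 0) ≤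
      (g k - g (k + β)) + P.ex (fun ω => u k ω) * Real.log N +
        P.ex (fun ω => if U k ω ∧ U (k + β) ω ∧ k + β < K then ν₁ k ω + ν₂ k ω else 0) := by
    intro k hk
    have s := step k hk
    have e1 : g k = P.ex (fun ω => if U k ω then h k ω else 0) := by
      simp only [hg]; rw [if_pos hk]
    have e3 : g (k + β) ≤ P.ex (fun ω => if U k ω ∧ U (k + β) ω ∧ k + β < K then h (k + β) ω else 0) +
        P.ex (fun ω => u k ω) * Real.log N := by
      by_cases hkb : k + β < K
      · have e2 : g (k + β) = P.ex (fun ω => if U (k + β) ω then h (k + β) ω else 0) := by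
          simp only [hg]; rw [if_pos hkb]
        have e4 : P.ex (fun ω => u k ω) * Real.log N = P.ex (fun ω => Real.log N * u k ω) := by
          rw [P.ex_const_mul, mul_comm]
        rw [e2, e4, ← P.ex_add]
        refine P.ex_mono fun ω hω => ?_
        by_cases hu2 : U (k + β) ω
        · by_cases hu1 : U k ω
          · rw [if_pos hu2, if_pos ⟨hu1, hu2, hkb⟩]
            have : 0 ≤ Real.log N * u k ω := mul_nonneg hlog (by simp only [hu]; split_ifs <;> norm_num)
            linarith
          · rw [if_pos hu2, if_neg (fun h => hu1 h.1)]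
            have : u k ω = 1 := by simp only [hu]; rw [if_pos ⟨hu2, hkb, hu1⟩]
            rw [this, mul_one, zero_add]
            exact hle (k + β) hkb ω hω hu2
        · rw [if_neg hu2, if_neg (fun h => hu2 h.2.1)]
          have : 0 ≤ Real.log N * u k ω := mul_nonneg hlog (by simp only [hu]; split_ifs <;> norm_num)
          linarith
      · have e2 : g (k + β) = 0 := by simp only [hg]; rw [if_neg hkb]
        rw [e2]
        have a1 : 0 ≤ P.ex (fun ω => if U k ω ∧ U (k + β) ω ∧ k + β < K then h (k + β) ω else 0) :=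
          P.ex_nonneg fun ω _ => by
            split_ifs
            · exact h0 _ _
            · exact le_rfl
        have a2 : 0 ≤ P.ex (fun ω => u k ω) :=
          P.ex_nonneg fun ω _ => by simp only [hu]; split_ifs <;> norm_num
        have := mul_nonneg a2 hlog
        linarith
    rw [e1]
    linarith
  have s1 := tele_nn g g0 K β
  have s3 : ∑ k ∈ range β, g k ≤ β * Real.log N := by
    calc ∑ k ∈ range β, g k ≤ ∑ _k ∈ range β, Real.log N := Finset.sum_le_sum fun k _ => gle k
      _ = _ := by simp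
  have s2 : ∑ k ∈ range K, P.ex (fun ω => u k ω) ≤ β := by
    rw [← ex_sumK]
    have : (β : ℝ) = P.ex (fun _ => (β : ℝ)) := (P.ex_const _).symm
    rw [this]
    refine P.ex_mono fun ω hω => ?_
    have e : ∑ k ∈ range K, u k ω = (((range K).filter fun k => U (k + β) ω ∧ k + β < K ∧ ¬ U k ω).card : ℝ) := by
      simp only [hu]
      rw [Finset.sum_boole]
    rw [e]
    have := card_entry (V := fun k => U k ω ∧ k < K) (fun j k l hjk hkl hj hl =>
      ⟨hcv j k l ω hω hjk hkl hl.2 hj.1 hl.1, lt_of_le_of_lt hkl hl.2⟩) K β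
      ((range K).filter fun k => U (k + β) ω ∧ k + β < K ∧ ¬ U k ω) (fun k hk => by
        rw [mem_filter] at hk
        exact ⟨⟨hk.2.1, hk.2.2.1⟩, fun h => hk.2.2.2 h.1⟩)
    exact_mod_cast this
  have s4 : (∑ k ∈ range K, P.ex (fun ω => u k ω)) * Real.log N ≤ β * Real.log N :=
    mul_le_mul_of_nonneg_right s2 hlog
  refine (Finset.sum_le_sum fun k hk => key k (Finset.mem_range.1 hk)).trans ?_
  rw [Finset.sum_add_distrib, Finset.sum_add_distrib, ← Finset.sum_mul]
  linarith

end law

end Vale.Agent.P106.U.H420
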