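import Vale.Agent.P106.U.H420.PhiL
import Vale.Agent.P106.U.H420.IvFib

/-!
# P106 / U / H420 : [P1] at one label, all words, intervals of caps (helper420)

* `Sn.bad` : the exceptional events of the frozen paths of two caps are the same.
* **`p1_iv`** : the sum over the caps of the term (P1) of `S3.F2o` at one label; events `U x` = interval of caps; the error is
  the exceptional event of the frozen path of the OWN cap (`S3.exc`), in the mean over the words.
-/

set_option autoImplicit false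

namespace Vale.Agent.P106.U.H420

open Finset Vale.Agent.P127 Vale.Agent.P127.Stk
open Vale.Agent.P127.U.CellD (q2 rd Nb q2_pos q2_add q2_le q2_mul_pow fl1_fl1)
open Vale.Agent.P106.U.Cell
open Vale.Agent.P106.U.H785.Mtr (Mtd Lt)
open Vale.Agent.P106.U.S3 (LTh LDk)
open Vale.Agent.P106.U.H470.Fib (cond_supp)

/-- constant of the near-nestedness -/
noncomputable def cDp (Kc : ℝ) : ℝ := 4 + 9 * Real.log (2 * ⌈30 * (8 * Kc) ^ 2⌉₊ + 3)

lemma cDp_nonneg (Kc : ℝ) : 0 ≤ cDp Kc := by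
  have : 0 ≤ Real.log (2 * (⌈30 * (8 * Kc) ^ 2⌉₊ : ℝ) + 3) := Real.log_nonneg (by
    have : (0 : ℝ) ≤ (⌈30 * (8 * Kc) ^ 2⌉₊ : ℝ) := Nat.cast_nonneg _
    linarith)
  unfold cDp
  positivity

/-- the entropy of the later letter -/
noncomputable def Hd (A g N0 : ℕ) : ℝ := A * Real.log 2 + (Real.log (5 * N0) + g * Real.log 2)

section fam

variable {Ω π W : Type} [Fintype Ω] {Kc : ℝ}

open Classical in
/-- **[P1] at one label**, intervals of caps -/
theorem p1_iv (P : Law Ω) {w : ℕ → Ω → W} (hW : ∀ x, Fn P (w x) (w (x + 1))) (U : ℕ → Ω → Prop)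
    (hU : ∀ x, Fn P (U x) (w x)) {β K : ℕ}
    (hcv : ∀ j k l ω, 0 < P.w ω → j ≤ k → k ≤ l → l < K → U j ω → U l ω → U k ω) (h1 : 1 ≤ Kc)
    (D : ℕ → W → Mtd Ω π) (k i : ℕ → W → ℕ) (hki : ∀ x e, k x e ≤ i x e) (bc : ℕ → ℕ) (hbm : Monotone bc)
    {N0 g A : ℕ}
    (hS : ∀ x x', x ≤ x' → x' < K → ∀ ω, 0 < P.w ω → U x ω → U x' ω →
      Sn (two (D x (w x ω)) (k x (w x ω)) (i x (w x ω)) (hki _ _))
        (two (D x' (w x' ω)) (k x' (w x' ω)) (i x' (w x' ω)) (hki _ _)) 0)
    (hpf : ∀ x, x + β < K → ∀ ω, 0 < P.w ω → U x ω → U (x + β) ω → Fn (P.cond (w (x + β)) (w (x + β) ω))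
      ((D x (w x ω)).pf (k x (w x ω))) ((D (x + β) (w (x + β) ω)).pf (k (x + β) (w (x + β) ω))))
    (hHy : ∀ x < K, ∀ ω ω', 0 < P.w ω → 0 < P.w ω' → U x ω → w x ω' = w x ω →
      (D x (w x ω)).Hy Kc {k x (w x ω)} ω')
    (hb8 : ∀ x < K, ∀ ω, 0 < P.w ω → U x ω → 8 * (D x (w x ω)).μ ≤ bc x ∧
      8 * (D x (w x ω)).μ ≤ (D x (w x ω)).rf (k x (w x ω)) ∧
      (D x (w x ω)).rf (i x (w x ω)) ≤ (D x (w x ω)).rr (k x (w x ω)) + bc x ∧
      bc x + 8 * (D x (w x ω)).μ ≤ bc (x + β))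
    (hN : 43 * (8 * Kc) ^ 5 ≤ N0)
    (hA : ∀ x < K, ∀ ω, 0 < P.w ω → U x ω →
      (D x (w x ω)).a (i x (w x ω)) - (D x (w x ω)).a (k x (w x ω)) ≤ A ∧
      (D x (w x ω)).a (i x (w x ω)) - (D x (w x ω)).a (k x (w x ω)) +
        ((D x (w x ω)).rf (i x (w x ω)) - (D x (w x ω)).rf (k x (w x ω))) + 3 * (D x (w x ω)).μ ≤ g) :
    ∑ x ∈ range K, P.ex (fun ω => if U x ω then mi (P.cond (w x) (w x ω))
        (LTh ((D x (w x ω)).fz (k x (w x ω)) (k x (w x ω))) (bc x) (i x (w x ω)))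
        (((D x (w x ω)).fz (k x (w x ω)) (k x (w x ω))).cell (k x (w x ω)) (bc (x + β)))
        (LDk ((D x (w x ω)).fz (k x (w x ω)) (k x (w x ω))) (bc x) (k x (w x ω))) else 0) ≤
      2 * β * Hd A g N0 + ∑ x ∈ range K, cDp Kc * Real.sqrt (P.ex (fun ω => if U x ω then
        prE (P.cond (w x) (w x ω)) (((D x (w x ω)).fz (k x (w x ω)) (k x (w x ω))).Bad (40 * (8 * Kc) ^ 2)
          (k x (w x ω)) (bc x)) else 0)) := by
  -- the one variable
  set Y : ℕ → Ω → ℤ × ℤ := fun x ω => Sz (D x (w x ω)) (k x (w x ω)) (bc x) (i x (w x ω)) ω with hY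
  set S : Ω → ℤ × ℤ := fun ω => if h : ∃ x, x < K ∧ U x ω then Y h.choose ω else (0, 0) with hSd
  have hYY : ∀ x x', x ≤ x' → x' < K → ∀ ω, 0 < P.w ω → U x ω → U x' ω → ∀ ω₀,
      Sz (D x (w x ω)) (k x (w x ω)) (bc x) (i x (w x ω)) ω₀ =
        Sz (D x' (w x' ω)) (k x' (w x' ω)) (bc x') (i x' (w x' ω)) ω₀ := by
    intro x x' hx hx' ω hω hu hu' ω₀
    have s := hS x x' hx hx' ω hω hu hu'
    have b2 := (hb8 x (by omega) ω hω hu).2.2.1
    have q := Sz_eq (i := 1) s (Nat.zero_le _) (b := bc x) (b2 := bc x') (by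
      rw [← s.ff, ← s.rr]
      exact b2) (hbm hx)
    rw [two_Sz, two_Sz] at q
    exact congrFun q ω₀
  have hSY : ∀ x < K, ∀ ω, 0 < P.w ω → U x ω → S ω = Y x ω := by
    intro x hx ω hω hu
    have h : ∃ x, x < K ∧ U x ω := ⟨x, hx, hu⟩
    have h' := h.choose_spec
    have e : S ω = Y h.choose ω := by simp only [hSd]; rw [dif_pos h]
    rw [e]
    rcases Nat.le_total h.choose x with hc | hc
    · exact hYY _ _ hc hx ω hω h'.2 hu ω
    · exact (hYY _ _ hc h'.1 ω hω hu h'.2 ω).symm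
  have key : ∀ x < K, ∀ ω ω', 0 < P.w ω → 0 < P.w ω' → U x ω → w x ω' = w x ω →
      S ω' = Sz (D x (w x ω)) (k x (w x ω)) (bc x) (i x (w x ω)) ω' := by
    intro x hx ω ω' p p' hu e
    have hu' : U x ω' := by rw [hU x ω' ω p' p e]; exact hu
    rw [hSY x hx ω' p' hu']
    simp only [hY]
    rw [e]
  set N : ℕ := 2 ^ A * (2 * (N0 * 2 ^ g) + 3) with hNd
  have hN1 : 1 ≤ N := Nat.one_le_iff_ne_zero.2 (by positivity)
  have main := iv_fib P hW U hU (β := β) (K := K) hcv S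
    (fun x e => LDk ((D x e).fz (k x e) (k x e)) (bc x) (k x e))
    (fun x e => ((D x e).fz (k x e) (k x e)).cell (k x e) (bc (x + β))) N hN1
    ?_ (fun x ω => if U x ω then cDp Kc *
          Real.sqrt (prE (P.cond (w (x + β)) (w (x + β) ω))
            (((D x (w x ω)).fz (k x (w x ω)) (k x (w x ω))).Bad
              (40 * (8 * Kc) ^ 2) (k x (w x ω)) (bc x))) else 0) (fun _ _ => 0) ?_
    (fun _ _ => le_rfl) ?_ ?_
  · have hlogN : Real.log N ≤ Hd A g N0 := by
      unfold Hd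
      have hN2 : (1 : ℝ) ≤ N0 := le_trans (by
        have : (1 : ℝ) ≤ (8 * Kc) ^ 5 := one_le_pow₀ (by linarith)
        linarith) hN
      have hM : (1 : ℝ) ≤ N0 * 2 ^ g := by
        have : (1 : ℝ) ≤ 2 ^ g := one_le_pow₀ (by norm_num)
        nlinarith
      rw [hNd]
      push_cast
      rw [Real.log_mul (by positivity) (by positivity), Real.log_pow]
      have e1 : Real.log (5 * N0) + g * Real.log 2 = Real.log (5 * N0 * 2 ^ g) := by
        rw [Real.log_mul (x := 5 * (N0 : ℝ)) (by positivity) (by positivity), Real.log_pow]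
      rw [e1]
      have e2 : Real.log (2 * (N0 * 2 ^ g) + 3) ≤ Real.log (5 * N0 * 2 ^ g) :=
        Real.log_le_log (by positivity) (by linarith)
      linarith
    have e3 : 2 * (β : ℝ) * Real.log N ≤ 2 * β * Hd A g N0 :=
      mul_le_mul_of_nonneg_left hlogN (by positivity)
    have e4 : ∑ x ∈ range K, P.ex (fun ω => if U x ω ∧ U (x + β) ω ∧ x + β < K then
        (if U x ω then cDp Kc * Real.sqrt (prE (P.cond (w (x + β)) (w (x + β) ω))
            (((D x (w x ω)).fz (k x (w x ω)) (k x (w x ω))).Bad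
              (40 * (8 * Kc) ^ 2) (k x (w x ω)) (bc x))) else 0) + 0 else 0) ≤
        ∑ x ∈ range K, cDp Kc * Real.sqrt (P.ex (fun ω => if U x ω then
        prE (P.cond (w x) (w x ω)) (((D x (w x ω)).fz (k x (w x ω)) (k x (w x ω))).Bad (40 * (8 * Kc) ^ 2)
          (k x (w x ω)) (bc x)) else 0)) := by
      refine Finset.sum_le_sum fun x _ => ?_
      have j := ex_sqrt_word P (z := w (x + β)) (z' := w x) (word_fn P hW x β) (U x) (hU x)
        (fun e => ((D x e).fz (k x e) (k x e)).Bad (40 * (8 * Kc) ^ 2) (k x e) (bc x))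
      refine le_trans ?_ (mul_le_mul_of_nonneg_left j (cDp_nonneg Kc))
      rw [← P.ex_const_mul]
      refine P.ex_mono fun ω _ => ?_
      by_cases hu : U x ω
      · rw [if_pos hu, if_pos hu]
        by_cases hu2 : U x ω ∧ U (x + β) ω ∧ x + β < K
        · rw [if_pos hu2, add_zero]
        · rw [if_neg hu2]
          exact mul_nonneg (cDp_nonneg Kc) (Real.sqrt_nonneg _)
      · rw [if_neg (fun h => hu h.1), if_neg hu, mul_zero]
    refine le_trans (Finset.sum_le_sum fun x hx => P.ex_mono fun ω hω => ?_) (main.trans (add_le_add e3 e4))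
    rw [Finset.mem_range] at hx
    show _ ≤ (if U x ω then mi (P.cond (w x) (w x ω)) S
      (((D x (w x ω)).fz (k x (w x ω)) (k x (w x ω))).cell (k x (w x ω)) (bc (x + β)))
      (LDk ((D x (w x ω)).fz (k x (w x ω)) (k x (w x ω))) (bc x) (k x (w x ω))) else 0)
    by_cases hu : U x ω
    · rw [if_pos hu, if_pos hu]
      refine (mi_LTh (P.cond (w x) (w x ω)) (D x (w x ω)) _ (hki _ _)
        (hb8 x hx ω hω hu).2.2.1).trans ?_
      refine mi_mono_left _ _ fun a c pa pc e => ?_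
      obtain ⟨qa, ea⟩ := cond_supp P hω pa
      obtain ⟨qc, ec⟩ := cond_supp P hω pc
      simp only [Prod.mk.injEq] at e
      rw [← key x hx ω a hω qa hu ea, ← key x hx ω c hω qc hu ec]
      exact e.1
    · rw [if_neg hu, if_neg hu]
  · -- few values
    intro x hx ω hω hu
    have nb := hb8 x hx ω hω hu
    have nA := hA x hx ω hω hu
    have hkf := (D x (w x ω)).hf (hki x (w x ω))
    have f := few_Sz (P.cond (w x) (w x ω)) (D x (w x ω)) (I := {k x (w x ω)}) h1
      (fun a pa => by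
        obtain ⟨qa, ea⟩ := cond_supp P hω pa
        exact hHy x hx ω a hω qa hu ea) (Set.mem_singleton _) (hki x (w x ω)) nb.1 nb.2.1
      (by have := nb.2.2.1; omega) hN nA.2 ω (by
        rw [P.cond_w _ _ (P.pr_pos (w x) hω), if_pos rfl]
        exact div_pos hω (P.pr_pos (w x) hω))
    obtain ⟨F, hF1, hF2⟩ := f
    refine ⟨F, hF1.trans ?_, fun ω' hω' e1 e2 => ?_⟩
    · rw [hNd]
      exact Nat.mul_le_mul_right _ (Nat.pow_le_pow_right (by norm_num) nA.1)
    · rw [key x hx ω ω' hω hω' hu e1]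
      refine hF2 ω' ?_ e2
      rw [P.cond_w _ _ (P.pr_pos (w x) hω), if_pos e1]
      exact div_pos hω' (P.pr_pos (w x) hω)
  · intro x ω
    show 0 ≤ (if U x ω then _ else 0)
    split_ifs
    · exact mul_nonneg (cDp_nonneg Kc) (Real.sqrt_nonneg _)
    · exact le_rfl
  · -- near-nested
    intro x hx ω hω hu hux
    rw [if_pos hu]
    have s := hS x (x + β) (by omega) hx ω hω hu hux
    have nb := hb8 x (by omega) ω hω hu
    have em : (D x (w x ω)).μ = (D (x + β) (w (x + β) ω)).μ := s.sm.μ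
    have er : (D x (w x ω)).rr (k x (w x ω)) = (D (x + β) (w (x + β) ω)).rr (k (x + β) (w (x + β) ω)) := s.rr
    have ef : (D x (w x ω)).rf (k x (w x ω)) = (D (x + β) (w (x + β) ω)).rf (k (x + β) (w (x + β) ω)) :=
      congrFun s.ff 0
    have hkf := (D x (w x ω)).hf (hki x (w x ω))
    have e := hc_LDk (P.cond (w (x + β)) (w (x + β) ω))
      (two (D x (w x ω)) (k x (w x ω)) (i x (w x ω)) (hki _ _))
      (two (D (x + β) (w (x + β) ω)) (k (x + β) (w (x + β) ω)) (i (x + β) (w (x + β) ω)) (hki _ _))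
      (k := 0) (b := bc x) (b2 := bc (x + β)) (I := {0}) s h1
      (fun a pa => by
        obtain ⟨qa, ea⟩ := cond_supp P hω pa
        exact two_hy _ _ (hHy (x + β) hx ω a hω qa hux ea) (Set.mem_singleton _))
      (Set.mem_singleton _)
      (by show 8 * (D (x + β) (w (x + β) ω)).μ ≤ bc x
          rw [← em]; exact nb.1)
      (by show 8 * (D (x + β) (w (x + β) ω)).μ ≤ (D (x + β) (w (x + β) ω)).rf (k (x + β) (w (x + β) ω))
          rw [← em, ← ef]; exact nb.2.1)
      (by show (D (x + β) (w (x + β) ω)).rf (k (x + β) (w (x + β) ω)) ≤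
            (D (x + β) (w (x + β) ω)).rr (k (x + β) (w (x + β) ω)) + bc x
          rw [← er, ← ef]
          have := nb.2.2.1
          omega)
      (by show bc x + 8 * (D (x + β) (w (x + β) ω)).μ ≤ bc (x + β)
          rw [← em]; exact nb.2.2.2)
      (hpf x hx ω hω hu hux)
    have e1 : hc (P.cond (w (x + β)) (w (x + β) ω))
        (LDk ((D x (w x ω)).fz (k x (w x ω)) (k x (w x ω))) (bc x) (k x (w x ω)))
        (LDk ((D (x + β) (w (x + β) ω)).fz (k (x + β) (w (x + β) ω)) (k (x + β) (w (x + β) ω)))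
          (bc (x + β)) (k (x + β) (w (x + β) ω))) =
        hc (P.cond (w (x + β)) (w (x + β) ω))
        (LDk ((two (D x (w x ω)) (k x (w x ω)) (i x (w x ω)) (hki _ _)).fz 0 0) (bc x) 0)
        (LDk ((two (D (x + β) (w (x + β) ω)) (k (x + β) (w (x + β) ω)) (i (x + β) (w (x + β) ω))
          (hki _ _)).fz 0 0) (bc (x + β)) 0) := by
      refine hc_congr _ ?_ ?_ ?_ ?_
      · intro a c _ _ e
        exact (two_LDk_iff (D x (w x ω)) (hki x (w x ω)) (bc x) a c).1 (congrArg Prod.fst e)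
      · intro a c _ _ e
        exact (two_LDk_iff (D x (w x ω)) (hki x (w x ω)) (bc x) a c).2 (congrArg Prod.fst e)
      · intro a c _ _ e
        exact (two_LDk_iff (D (x + β) (w (x + β) ω)) (hki (x + β) (w (x + β) ω)) (bc (x + β)) a c).1 e
      · intro a c _ _ e
        exact (two_LDk_iff (D (x + β) (w (x + β) ω)) (hki (x + β) (w (x + β) ω)) (bc (x + β)) a c).2 e
    rw [e1]
    refine e.trans (le_of_eq ?_)
    have hbad : ((two (D (x + β) (w (x + β) ω)) (k (x + β) (w (x + β) ω)) (i (x + β) (w (x + β) ω))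
        (hki _ _)).fz 0 0).Bad (40 * (8 * Kc) ^ 2) 0 (bc x) =
        ((D x (w x ω)).fz (k x (w x ω)) (k x (w x ω))).Bad (40 * (8 * Kc) ^ 2) (k x (w x ω)) (bc x) := by
      rw [← s.eqz.Bad]
      funext a
      exact propext (two_Bad _ _ _ _ _)
    rw [hbad]
    rfl
  · intro x hx ω hω hu hux
    have s := hS x (x + β) (by omega) hx ω hω hu hux
    refine le_of_eq (hc_zero _ fun a c pa pc e => ?_)
    have m := LDk_mtr (D (x + β) (w (x + β) ω)) e
    have m' : (D x (w x ω)).pf (k x (w x ω)) a = (D x (w x ω)).pf (k x (w x ω)) c :=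
      hpf x hx ω hω hu hux a c pa pc (congrArg (fun y => y.1.2.1) m)
    exact ((D x (w x ω)).fz_cell_iff le_rfl (bc (x + β)) a c).2
      (mtr_fn (k := 0) s m' m)

end fam

end Vale.Agent.P106.U.H420
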