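import Vale.Agent.P106.U.H420.P1Sum
import Vale.Agent.P106.U.H465.Res
import Vale.Agent.P106.U.H122.YngA
import Vale.Agent.P106.U.H101.OffW

/-!
# P106 / U / H420 : the row [P1] of `S3.F2o` over a window of caps (helper420)

* `c1w` : the data after word 1;  `okk`, `kw`, `kaw` : numbers `k0` of the deep phi regime, total functions of the value.
* `F_eq` : the prefix data of helper712's window is `C2.pfd` with `kw`.
* `fam1` : the family of the data of a window (`Fam1`).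
* **`p1_win`** : `∑_(k < T)` of the means of `sP1` on good words: telescope part and the sum of the square roots of the exceptional
  probabilities (all levels).
-/

set_option autoImplicit false

namespace Vale.Agent.P106.U.H420.PW

open Finset Vale.Agent.P127 Vale.Agent.P127.Stk Vale.Agent.P127.U Vale.Agent.P106.W
open Vale.Agent.P127.U.CellD (q2 rd)
open Vale.Agent.P106.U Vale.Agent.P106.U.H565 Vale.Agent.P106.U.S3 Vale.Agent.P106.U.H449 Vale.Agent.P106.U.StripL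
open Vale.Agent.P106.U.LinkR Vale.Agent.P106.U.H715.RegC
open Vale.Agent.P106.U.H712.Fam (Win Vl Par Pl pfC)
open Vale.Agent.P106.U.H712.Fam.Win (good)
open Vale.Agent.P106.U.H823.NumG Vale.Agent.P106.U.H823.PathNum
open Vale.Agent.P106.U.H420

variable {Ω : Type} [Fintype Ω] (w : Win Ω)

/-- the data after word 1 -/
noncomputable def c1w : C1 Ω := w.c.c1 w.gd w.cn

open Classical in
theorem cv_c1 (k : ℕ) (z : Vl) : (w.cv k z).toC1 = c1w w := by
  unfold Win.cv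
  split_ifs <;> rfl

/-- the numbers of the deep phi regime are admissible -/
def okk (k : ℕ) (z : Vl) : Prop :=
  Monotone (H715.RegR.k0 (w.cv k z).D (w.rt z 0)) ∧
    ∀ i, H715.RegR.k0 (w.cv k z).D (w.rt z 0) i ≤ (w.cv k z).D.L.k ((w.cv k z).D.ix i)

open Classical in
/-- numbers of the deep phi regime -/
noncomputable def kw (k : ℕ) (z : Vl) : ℕ → ℕ :=
  if okk w k z then H715.RegR.k0 (w.cv k z).D (w.rt z 0) else fun _ => 0

open Classical in
/-- the same, functions of the level -/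
noncomputable def kaw (k : ℕ) (z : Vl) (a : ℕ) : ℕ := if okk w k z then (if a = 0 then 0 else w.rt z 0 (a - 1)) else 0

theorem kw_mono (k : ℕ) (z : Vl) : Monotone (kw w k z) := by
  unfold kw
  split_ifs with h
  · exact h.1
  · exact fun _ _ _ => le_rfl

theorem kw_le (k : ℕ) (z : Vl) (i : ℕ) : kw w k z i ≤ (w.cv k z).D.L.k ((w.cv k z).D.ix i) := by
  unfold kw
  split_ifs with h
  · exact h.2 i
  · exact Nat.zero_le _

theorem kw_eq (k : ℕ) (z : Vl) (i : ℕ) : kw w k z i = kaw w k z ((w.cv k z).D.li i) := by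
  unfold kw kaw
  split_ifs <;> simp_all [H715.RegR.k0]

theorem pfd_congr {C : C2 Ω} {h3 : 3 ≤ C.I.m} {k k' : ℕ → ℕ} {hk : Monotone k} {hk' : Monotone k'}
    {hl : ∀ i, k i ≤ C.D.L.k (C.D.ix i)} {hl' : ∀ i, k' i ≤ C.D.L.k (C.D.ix i)} {B : ℕ} (h : k = k') :
    C.pfd h3 k hk hl B = C.pfd h3 k' hk' hl' B := by
  subst h
  rfl

/-- **the prefix data of the window** -/
theorem F_eq (p : Par) (k : ℕ) (z : Vl) :
    w.F p k z = (w.cv k z).pfd (w.cv_m k z) (kw w k z) (kw_mono w k z) (kw_le w k z) p.B := by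
  classical
  show pfC (w.cv k z) (w.cv_m k z) (w.rt z 0) p.B = _
  unfold pfC
  by_cases h : okk w k z
  · exact (dif_pos h).trans (pfd_congr (if_pos h).symm)
  · exact (dif_neg h).trans (pfd_congr (if_neg h).symm)

variable {w}

/-- the second path of the data, from the point -/
theorem cv_RC {k : ℕ} {ω : Ω} (hω : 0 < w.Q1.w ω) {a : ℕ} (ha : a ≤ w.c.I.ha) :
    (w.cv k (w.Z k ω)).RC a = w.c.RT w.hm w.cc w.Q1 (w.b0 + k * w.s) a ω := by
  rw [w.cv_eq (w.Q1.pr_pos _ hω)]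
  exact (C1.rcx_eq (c := c1w w) (hm := w.hm) (cc := w.cc) (C0.zW_hw w.Q1 le_rfl) (w.Q1.pr_pos _ hω) ha hω rfl).symm

theorem cv_b1 {k : ℕ} {z : Vl} (hz : 0 < w.Q1.pr (w.Z k) z) : (w.cv k z).b1 = w.b0 + k * w.s := by
  rw [w.cv_eq hz]
  rfl

theorem cv_Q {k : ℕ} {z : Vl} (hz : 0 < w.Q1.pr (w.Z k) z) : (w.cv k z).Q = w.Q1.cond (w.Z k) z := by
  rw [w.cv_eq hz]
  rfl

/-- the second path of the value at the first cap -/
theorem rt_eq0 (k : ℕ) (ω : Ω) (a : ℕ) :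
    w.rt (w.Z k ω) 0 a = w.c.RT w.hm w.cc w.Q1 w.b0 (min a w.c.I.ha) ω := by
  have := rce (c := w.c) (hm := w.hm) (cc := w.cc) (Q := w.Q1) (s := w.s) (b0 := w.b0) (kk := k) (e := (w.Z k ω).2) (ω := ω)
    rfl (Nat.zero_le k) a
  rw [Nat.zero_mul, Nat.add_zero] at this
  exact this

/-- **the numbers are admissible at every value** -/
theorem okk_of {k : ℕ} {ω : Ω} (hω : 0 < w.Q1.w ω) : okk w k (w.Z k ω) := by
  refine ⟨H715.RegR.k0_mono _ ?_, H715.RegR.k0_le _ fun i _ => ?_⟩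
  · intro a a' h
    rw [rt_eq0, rt_eq0]
    exact rt_mono_a w.cn w.in0 w.hc w.b0 ω h
  · rw [rt_eq0]
    refine (C0.rt_mono w.cn (Nat.le_add_right w.b0 (k * w.s)) ω _).trans ?_
    rw [← cv_RC hω (min_le_right _ _)]
    exact (w.cv k (w.Z k ω)).w2.mono (min_le_left _ _)

theorem kaw_eq {k : ℕ} {ω : Ω} (hω : 0 < w.Q1.w ω) (a : ℕ) : kaw w k (w.Z k ω) a = if a = 0 then 0 else
    w.c.RT w.hm w.cc w.Q1 w.b0 (min (a - 1) w.c.I.ha) ω := by
  unfold kaw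
  rw [if_pos (okk_of hω), rt_eq0]

theorem cv_hx {k : ℕ} {z : Vl} (hz : 0 < w.Q1.pr (w.Z k) z) (h3 : 3 ≤ (w.cv k z).I.m) : (w.cv k z).HX h3 := by
  revert h3
  rw [w.cv_eq hz]
  intro h3
  exact C1.mk2_hx (C0.zW_hw w.Q1 le_rfl)

theorem cv_W0 {k : ℕ} {z : Vl} (hz : 0 < w.Q1.pr (w.Z k) z) :
    Fn (w.cv k z).Q ((w.cv k z).Fy (w.cv k z).b1) (w.cv k z).G := by
  rw [w.cv_eq hz]
  exact C1.mk2_W0

/-- **the record is a run** at good values -/
theorem cv_ok {K : ℝ} (hK : 648 ≤ K) {Rm : ℕ} (ho : w.Ho Rm) {k : ℕ} {z : Vl} (hz : 0 < w.Q1.pr (w.Z k) z) (hg : good k z) :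
    ∃ c' g' gU : ℝ, ((w.cv k z).erun (w.cv_m k z)).Ok (w.cv k z).num K c' g' gU := by
  obtain ⟨Ac, rc, H⟩ := ho.hyp k z hz hg
  refine ⟨w.cc, _, _, C2.erun_ok H (cv_hx hz _) hK w.hc (cv_W0 hz) (le_max_left _ _) le_rfl le_rfl (le_max_right _ _)⟩

/-- **the family of the data of a window** -/
theorem fam1 {K : ℝ} (hK : 648 ≤ K) {Rm : ℕ} (ho : w.Ho Rm) (T : ℕ) :
    Fam1 (c1w w) w.Z w.cv w.cv_m (fun k ω => good k (w.Z k ω)) (kaw w) (kw w) w.b0 w.s T K where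
  hC := cv_c1 w
  hW := fun x _ _ _ _ h => w.Z_nest (Nat.le_succ x) h
  hG := fun x ω ω' _ _ h => by
    show good x (w.Z x ω) = good x (w.Z x ω')
    rw [h]
  hGd := fun x x' ω h _ _ hg => w.Z_nest_iff h ω hg
  hQ := fun x _ ω hω => cv_Q (w.Q1.pr_pos _ hω)
  hb := fun x _ ω hω => cv_b1 (w.Q1.pr_pos _ hω)
  hR := fun x x' h _ ω hω a => by
    have hz := w.Q1.pr_pos (w.Z x) hω
    have hz' := w.Q1.pr_pos (w.Z x') hω
    rw [w.cv_eq hz, w.cv_eq hz']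
    exact C1.rcx_mono (c := c1w w) (hm := w.hm) (cc := w.cc) (Nat.add_le_add_left (Nat.mul_le_mul_right w.s h) w.b0)
      (C0.zW_hw w.Q1 le_rfl) (C0.zW_hw w.Q1 le_rfl) hz hz' (fun ω' _ he => w.Z_nest h he) a
  hk := kw_mono w
  hl := kw_le w
  hk0 := kw_eq w
  hκ := fun x x' _ _ ω hω => by
    funext a
    rw [kaw_eq hω, kaw_eq hω]
  hyp := fun x _ ω hω hg => by
    obtain ⟨Ac, rc, H⟩ := ho.hyp x _ (w.Q1.pr_pos _ hω) hg
    exact ⟨Rm, w.cc, Ac, rc, H⟩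
  ok := fun x _ ω hω hg => cv_ok hK ho (w.Q1.pr_pos _ hω) hg

/-- at the young levels the second path makes one step -/
theorem vs_one {p : Par} (hg : 1 ≤ p.g) (hD : 2 ≤ p.D0) {k : ℕ} {ω : Ω} (hω : 0 < w.Q1.w ω) {v : ℕ}
    (hv : v ∈ w.Vs p k (w.Z k ω)) : (w.cv k (w.Z k ω)).D.L.R v - (w.cv k (w.Z k ω)).D.L.Rm v ≤ 1 := by
  obtain ⟨h1, h2, -, -, -, -, h3⟩ := C0.yngA (c := w.c) (hm := w.hm) (cc := w.cc) (Q1 := w.Q1) (E1 := w.E1) (s := w.s)
    (b0 := w.b0) (kk := k) (ω := ω) (z := (w.Z k ω).2) w.cn w.in0 w.hc rfl hg hD hv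
  have e1 : (w.cv k (w.Z k ω)).D.L.R v = w.c.RT w.hm w.cc w.Q1 (w.b0 + k * w.s) v ω := cv_RC hω (by omega)
  have e2 : (w.cv k (w.Z k ω)).D.L.Rm v = w.c.RT w.hm w.cc w.Q1 (w.b0 + k * w.s) (v - 1) ω := by
    show (if v = 0 then 0 else (w.cv k (w.Z k ω)).RC (v - 1)) = _
    rw [if_neg (by omega), cv_RC hω (by omega)]
  rw [e1, e2, h3]
  omega

open Classical in
/-- **the row [P1] over a window** -/
theorem p1_win {K : ℝ} (hK : 648 ≤ K) {Rm : ℕ} (ho : w.Ho Rm) (p : Par) {β μ : ℕ} (hβ : p.βV = β * w.s) (hg : 1 ≤ p.g)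
    (hD : 2 ≤ p.D0) (hn : Nr (c1w w) K w.b0 w.s β p.B μ) {K' : ℝ} (hK' : 40 * (8 * (4 * K)) ^ 2 ≤ K') (d T : ℕ)
    (o : Fin 7 → ℝ) (o' : ℕ → ℝ) :
    w.av T (fun k z => if p.k1 ≤ k then H61.Ext2.sP1 (w.R k z) (w.nm k z) p.B (w.bV p k) (w.F p k z) (w.Vs p k z) (w.Xs p k z)
      μ o o' d else 0) ≤
      (4 * (w.c.I.ha + 1) * (p.B + 1) * β + T * (p.B + 1)) *
        Hd (w.c.I.m * d) (w.c.I.m * d + w.c.I.m * p.B + 3 * μ) ⌈43 * (8 * (4 * K)) ^ 5⌉₊ +
      2 * cDp (4 * K) * w.av T (fun k z => ∑ i ∈ S3.IdP (w.R k z) (w.F p k z) p.B (H101.Off.allV (w.R k z)) ∅,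
        Real.sqrt (S3.exc (w.R k z).Q ((S3.mt0 (w.R k z) (w.F p k z) μ o o').fz i i) K' i ((w.R k z).m * (w.R k z).b1))) := by
  have hc : 0 ≤ 2 * cDp (4 * K) := mul_nonneg (by norm_num) (cDp_nonneg _)
  have h := (fam1 hK ho T).p1_row (Bb := p.B) (B := p.B) (μ := μ) (β := β) (d := d) (o := o) (o' := o') hn
    (fun k ω => good k (w.Z k ω) ∧ p.k1 ≤ k) (fun _ _ _ _ h => h.1) (w.Vs p) (w.Xs p) (fun x hx ω hω hG k hk => ?_) hK'
  · refine (le_of_eq ?_).trans (h.trans (add_le_add (le_of_eq rfl) (mul_le_mul_of_nonneg_left (le_of_eq ?_) hc)))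
    · refine Finset.sum_congr rfl fun k _ => w.Q1.ex_congr fun ω _ => ?_
      by_cases h1 : good k (w.Z k ω)
      · by_cases h2 : p.k1 ≤ k
        · have e : w.bV p k = w.c.I.m * (w.b0 + (k + β) * w.s) := by
            unfold Win.bV
            rw [hβ]
            ring
          refine (if_pos h1).trans ((if_pos h2).trans (Eq.trans ?_ (if_pos (⟨h1, h2⟩ : good k (w.Z k ω) ∧ p.k1 ≤ k)).symm))
          rw [F_eq, e]
          rfl
        · exact (if_pos h1).trans ((if_neg h2).trans (if_neg fun h3 => h2 h3.2).symm)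
      · exact (if_neg h1).trans (if_neg fun h3 => h1 h3.1).symm
    · refine Finset.sum_congr rfl fun k _ => w.Q1.ex_congr fun ω _ => ?_
      by_cases h1 : good k (w.Z k ω)
      · refine (if_pos h1).trans (Eq.trans ?_ (if_pos h1).symm)
        beta_reduce
        rw [F_eq]
        rfl
      · exact (if_neg h1).trans (if_neg h1).symm
  · obtain ⟨Ac, rc, H⟩ := ho.hyp x _ (w.Q1.pr_pos _ hω) hG.1
    have hh := ehas (hm := w.cv_m x (w.Z x ω)) H
    obtain ⟨h1, h2, -⟩ := Finset.mem_filter.1 hk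
    have h3 : k ≤ (w.cv x (w.Z x ω)).D.N := by
      have h4 := (Finset.mem_Icc.1 h1).2
      rw [hh.n] at h4
      have : (w.cv x (w.Z x ω)).D.n ≤ (w.cv x (w.Z x ω)).D.N := Nat.le_add_right _ _
      omega
    refine vs_one hg hD hω ?_
    rw [← PN.li_eq _ h3, ← H715.RegR.lv_eq hh k]
    exact h2

end Vale.Agent.P106.U.H420.PW
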