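import Vale.Agent.P106.U.H420.CoreA

/-!
# P106 / U / H420 : block [CORE] of END7, Case A : `pCore_of : PSat d → PEnd d → PCore d`

The abstract composition `mic_abs` (helper833) with windows of `M K1` steps, `m K1 ≥ κ + c m`, cells of the
translated system of `PEnd`.
-/

set_option autoImplicit false

namespace Vale.Agent.P106.U.EndA.H420

open Finset Vale.Agent.P127 Vale.Agent.P127.Stk Vale.Agent.P127.U.CellD Vale.Agent.P127.U.Mic
open Vale.Agent.P106.U.H833 (Wins St mem_St sum_St sum_St_le mic_abs)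

variable {d : ℕ} {Ω α : Type}

/-- the end of the composition -/
theorem fin_le [Fintype Ω] (P : Law Ω) (S : Sy d Ω α) (o : Fin d → ℝ) (hwd : IsWd S.m S.p S.Q S.w)
    {n x j0 h : ℕ} (hx : x ≤ j0) {c2 : ℝ}
    (hc2 : hc P ((S.trn o).J n x) (fun ω => ((S.Zh h ω, S.A ω), S.w x ω)) ≤ c2) :
    mi P (fun ω => ((S.trn o).ray ω, S.A ω, S.w j0 ω)) ((S.trn o).J n x) ((S.trn o).J 0 x) ≤
      mi P S.ray (S.Zh h) (fun ω => (S.A ω, S.T 0 ω)) +
        hc P (S.w j0) (fun ω => (S.ray ω, (S.A ω, S.T 0 ω))) + c2 := by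
  set l : Ω → (((Fin d → ℝ) × (Fin d → ℝ)) × α × Sta d) :=
    fun ω => ((S.trn o).ray ω, S.A ω, S.w j0 ω) with hl
  set J0 := (S.trn o).J 0 x with hJ0
  set Jn := (S.trn o).J n x with hJn
  have hb : ∀ {ω ω' : Ω}, J0 ω = J0 ω' → S.A ω = S.A ω' ∧ S.T 0 ω = S.T 0 ω' ∧ S.w x ω = S.w x ω' := by
    intro ω ω' e
    have h1 := J_base (S := S.trn o) e le_rfl le_rfl
    exact ⟨base_A (S := S.trn o) h1, base_T (S := S.trn o) h1, base_w (S := S.trn o) h1⟩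
  have h1 : mi P l Jn J0 ≤ mi P l (fun ω => (S.Zh h ω, Jn ω)) J0 :=
    mi_mono_right P l fun ω ω' _ _ e => by
      simp only [Prod.mk.injEq] at e
      exact e.1.2
  rw [mi_pair] at h1
  have h2 : mi P l Jn (fun ω => (S.Zh h ω, J0 ω)) ≤ c2 := by
    refine (mi_le_hc' P l Jn _).trans (le_trans (hc_mono_right P Jn ?_) hc2)
    intro ω ω' _ _ e
    simp only [Prod.mk.injEq] at e ⊢
    obtain ⟨a1, -, a3⟩ := hb e.2
    exact ⟨⟨e.1, a1⟩, a3⟩
  have h3 : mi P l (S.Zh h) J0 ≤ mi P S.ray (S.Zh h) (fun ω => (S.A ω, S.T 0 ω)) +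
      hc P (S.w j0) (fun ω => (S.ray ω, (S.A ω, S.T 0 ω))) := by
    rw [mi_symm P l, mi_symm P S.ray]
    unfold mi
    have g1 : hc P (S.Zh h) J0 ≤ hc P (S.Zh h) (fun ω => (S.A ω, S.T 0 ω)) :=
      hc_mono_right P _ fun ω ω' _ _ e => by
        obtain ⟨a1, a2, -⟩ := hb e
        exact Prod.ext a1 a2
    have g2 : hc P (S.Zh h) (fun ω => (S.w j0 ω, (S.ray ω, (S.A ω, S.T 0 ω)))) ≤
        hc P (S.Zh h) (fun ω => (l ω, J0 ω)) :=
      hc_mono_right P _ fun ω ω' _ _ e => by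
        simp only [Prod.mk.injEq] at e
        obtain ⟨e1, e2, e3, e4⟩ := e
        have hr : (S.trn o).ray ω = (S.trn o).ray ω' := by
          have hX : S.X ω = S.X ω' := congrArg Prod.fst e2
          have hQ : S.Q ω = S.Q ω' := congrArg Prod.snd e2
          show ((fun k => S.X ω k + o k), S.Q ω) = ((fun k => S.X ω' k + o k), S.Q ω')
          rw [hX, hQ]
        refine Prod.ext ?_ ?_
        · rw [hl]
          simp only [hr, e3, e1]
        · exact J_of (S := S.trn o) hwd hx hr e3 e1 e4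
    have g3 := hc_le_add' P (S.Zh h) (S.w j0) (fun ω => (S.ray ω, (S.A ω, S.T 0 ω)))
    linarith
  linarith

/-! ### numbers -/

theorem num_root (c1 d m n N M p L1 b : ℕ) (hm : 1 ≤ m) (hp : 1 ≤ p) (hNn : N ≤ n)
    (hmK : m * L1 ≤ M * p) :
    (2 : ℝ) ^ (c1 * m) * (Real.sqrt (N * (L1 * (d * (p + 2) * Real.log 2))) +
      N * Real.sqrt (((1 : ℕ) : ℝ) * (((m * L1 : ℕ) : ℝ) * Real.log 2) / b)) ≤
      (2 : ℝ) ^ ((c1 + 3 * d) * m) * (Real.sqrt (n * (M * p * p)) +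
        n * Real.sqrt (M * p / b)) := by
  have hlog0 : 0 < Real.log 2 := Real.log_pos (by norm_num)
  have hlog1 : Real.log 2 ≤ 1 := by
    have := Real.log_two_lt_d9
    linarith
  have hNn' : (N : ℝ) ≤ n := by exact_mod_cast hNn
  have hpr : (1 : ℝ) ≤ p := by exact_mod_cast hp
  have hmK' : ((m * L1 : ℕ) : ℝ) ≤ M * p := by exact_mod_cast hmK
  have hLp : (L1 : ℝ) ≤ M * p := by
    refine le_trans ?_ hmK'
    have : L1 ≤ m * L1 := Nat.le_mul_of_pos_left _ hm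
    exact_mod_cast this
  have hd0 : (0 : ℝ) ≤ d := Nat.cast_nonneg _
  have hr1 : Real.sqrt (N * (L1 * (d * (p + 2) * Real.log 2))) ≤
      (2 : ℝ) ^ (3 * d * m) * Real.sqrt (n * (M * p * p)) := by
    have h1 : (N : ℝ) * (L1 * (d * (p + 2) * Real.log 2)) ≤ (3 * d) * (n * (M * p * p)) := by
      have h2 : (d : ℝ) * (p + 2) * Real.log 2 ≤ 3 * d * p := by
        have h3 : (d : ℝ) * (p + 2) ≤ 3 * d * p := by nlinarith
        have h4 : (0 : ℝ) ≤ d * (p + 2) := by positivity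
        nlinarith
      have h5 : (L1 : ℝ) * (d * (p + 2) * Real.log 2) ≤ (M * p) * (3 * d * p) :=
        mul_le_mul hLp h2 (by positivity) (by positivity)
      calc (N : ℝ) * (L1 * (d * (p + 2) * Real.log 2)) ≤ n * ((M * p) * (3 * d * p)) :=
            mul_le_mul hNn' h5 (by positivity) (Nat.cast_nonneg _)
        _ = _ := by ring
    refine (Real.sqrt_le_sqrt h1).trans ?_
    rw [Real.sqrt_mul (by positivity)]
    refine mul_le_mul_of_nonneg_right ?_ (Real.sqrt_nonneg _)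
    have h6 : Real.sqrt (3 * d) ≤ 3 * d := by
      rcases Nat.eq_zero_or_pos d with h0 | h0
      · subst h0
        simp
      · have h7 : (1 : ℝ) ≤ d := by exact_mod_cast h0
        rw [Real.sqrt_le_left (by positivity)]
        nlinarith
    refine h6.trans ?_
    have h8 : (3 * d : ℕ) ≤ 2 ^ (3 * d * m) := by
      calc 3 * d ≤ 3 * d * m := Nat.le_mul_of_pos_right _ hm
        _ ≤ 2 ^ (3 * d * m) := (Nat.lt_two_pow_self).le
    exact_mod_cast h8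
  have hr2 : (N : ℝ) * Real.sqrt (((1 : ℕ) : ℝ) * (((m * L1 : ℕ) : ℝ) * Real.log 2) / b) ≤
      n * Real.sqrt (M * p / b) := by
    refine mul_le_mul hNn' (Real.sqrt_le_sqrt ?_) (Real.sqrt_nonneg _) (Nat.cast_nonneg _)
    refine div_le_div_of_nonneg_right ?_ (Nat.cast_nonneg _)
    rw [Nat.cast_one, one_mul]
    have h1 : (0 : ℝ) ≤ ((m * L1 : ℕ) : ℝ) := Nat.cast_nonneg _
    nlinarith
  set r1 := Real.sqrt (n * (M * p * p)) with hr1d
  set r2 := (n : ℝ) * Real.sqrt (M * p / b) with hr2d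
  have h1 : 0 ≤ r1 := Real.sqrt_nonneg _
  have h2 : 0 ≤ r2 := mul_nonneg (Nat.cast_nonneg _) (Real.sqrt_nonneg _)
  have h3 : (1 : ℝ) ≤ 2 ^ (3 * d * m) := one_le_pow₀ (by norm_num)
  have h4 : Real.sqrt (N * (L1 * (d * (p + 2) * Real.log 2))) +
      N * Real.sqrt (((1 : ℕ) : ℝ) * (((m * L1 : ℕ) : ℝ) * Real.log 2) / b) ≤
        (2 : ℝ) ^ (3 * d * m) * (r1 + r2) := by
    have h5 : r2 ≤ (2 : ℝ) ^ (3 * d * m) * r2 := le_mul_of_one_le_left h2 h3
    have h6 : (2 : ℝ) ^ (3 * d * m) * (r1 + r2) =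
      (2 : ℝ) ^ (3 * d * m) * r1 + (2 : ℝ) ^ (3 * d * m) * r2 := mul_add _ _ _
    linarith
  calc _ ≤ (2 : ℝ) ^ (c1 * m) * ((2 : ℝ) ^ (3 * d * m) * (r1 + r2)) :=
        mul_le_mul_of_nonneg_left h4 (by positivity)
    _ = (2 : ℝ) ^ (c1 * m + 3 * d * m) * (r1 + r2) := by rw [pow_add]; ring
    _ = _ := by rw [← Nat.add_mul]

theorem num_sum {c1 c2 m n N M p ε e1 Cs : ℝ} (hc1 : 0 ≤ c1) (hc2 : 0 ≤ c2) (hm : 1 ≤ m)
    (hM : 1 ≤ M) (hmp : m ≤ p) (hNn : N ≤ n) (hε : 0 ≤ ε) (he1 : 0 ≤ e1)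
    (hen : n * e1 ≤ c2) (hCs : Cs ≤ N * c1 + c1 * m * (ε * n + N * (ε + e1))) :
    Cs ≤ c1 * n + c1 * (2 * (m * n * ε) + c2 * (M * p)) := by
  have h2 : N * (ε + e1) ≤ n * ε + c2 := by
    have : N * (ε + e1) ≤ n * (ε + e1) := mul_le_mul_of_nonneg_right hNn (by linarith)
    linarith
  have h4 : 0 ≤ c1 * m := mul_nonneg hc1 (by linarith)
  have h5 : c1 * m * (ε * n + N * (ε + e1)) ≤ c1 * m * (ε * n + (n * ε + c2)) :=
    mul_le_mul_of_nonneg_left (by linarith) h4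
  have h6 : m ≤ M * p := by nlinarith
  have h7 : c1 * c2 * m ≤ c1 * c2 * (M * p) :=
    mul_le_mul_of_nonneg_left h6 (mul_nonneg hc1 hc2)
  have h8 : N * c1 ≤ c1 * n := by
    rw [mul_comm]
    exact mul_le_mul_of_nonneg_left hNn hc1
  calc Cs ≤ c1 * n + c1 * m * (ε * n + (n * ε + c2)) := by linarith
    _ = c1 * n + c1 * (2 * (m * n * ε)) + c1 * c2 * m := by ring
    _ ≤ c1 * n + c1 * (2 * (m * n * ε)) + c1 * c2 * (M * p) := by linarith
    _ = _ := by ring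

theorem num_big {c1 c2 d A B C E : ℝ} (hc1 : 0 ≤ c1) (hc2 : 0 ≤ c2) (hd : 0 ≤ d) (hA : 0 ≤ A)
    (hB : 0 ≤ B) (hC : 0 ≤ C) (hE : 1 ≤ E) :
    d * (C + E) + (c1 * A + c1 * (2 * B + c2 * E)) + c2 ≤
      (2 * c1 + c1 * c2 + c2 + 3 * d + 3) * (A + B + C + E) := by
  have w1 : 0 ≤ c1 * c2 := mul_nonneg hc1 hc2
  have e1 : c2 ≤ c2 * E := le_mul_of_one_le_right hc2 hE
  have g1 := mul_nonneg hc1 hA
  have g2 := mul_nonneg hc1 hB
  have g3 := mul_nonneg hc1 hC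
  have g4 := mul_nonneg hc1 (by linarith : (0 : ℝ) ≤ E)
  have g5 := mul_nonneg w1 hA
  have g6 := mul_nonneg w1 hB
  have g7 := mul_nonneg w1 hC
  have g8 := mul_nonneg w1 (by linarith : (0 : ℝ) ≤ E)
  have g9 := mul_nonneg hc2 hA
  have g10 := mul_nonneg hc2 hB
  have g11 := mul_nonneg hc2 hC
  have g12 := mul_nonneg hd hA
  have g13 := mul_nonneg hd hB
  have g14 := mul_nonneg hd hC
  have g15 := mul_nonneg hd (by linarith : (0 : ℝ) ≤ E)
  have e2 : (2 * c1 + c1 * c2 + c2 + 3 * d + 3) * (A + B + C + E) =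
      2 * (c1 * A) + 2 * (c1 * B) + 2 * (c1 * C) + 2 * (c1 * E) +
      (c1 * c2 * A + c1 * c2 * B + c1 * c2 * C + c1 * c2 * E) +
      (c2 * A + c2 * B + c2 * C + c2 * E) + 3 * (d * A + d * B + d * C + d * E) +
      3 * (A + B + C + E) := by ring
  have e3 : d * (C + E) + (c1 * A + c1 * (2 * B + c2 * E)) + c2 =
      d * C + d * E + c1 * A + 2 * (c1 * B) + c1 * c2 * E + c2 := by ring
  rw [e2, e3]
  linarith

theorem num_fin (c1 c2 d m n N M p L1 b : ℕ) (ε e1 Cs R : ℝ) (hm : 1 ≤ m) (hM : 1 ≤ M)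
    (hmp : m ≤ p) (hNn : N ≤ n) (hmK : m * L1 ≤ M * p)
    (hfull : (m : ℝ) * n ≤ m * N + m * n / M + M * p) (hε : 0 ≤ ε) (he1 : 0 ≤ e1)
    (hen : (n : ℝ) * e1 ≤ c2) (hCs : Cs ≤ N * c1 + c1 * m * (ε * n + N * (ε + e1)))
    (h : N * (d * m * Real.log 2) - (Cs + (2 : ℝ) ^ (c1 * m) *
      (Real.sqrt (N * (L1 * (d * (p + 2) * Real.log 2))) +
      N * Real.sqrt (((1 : ℕ) : ℝ) * (((m * L1 : ℕ) : ℝ) * Real.log 2) / b))) ≤ R + c2) :
    d * (m * n) * Real.log 2 - ((2 * c1 + c1 * c2 + c2 + 3 * d + 3 : ℕ) : ℝ) *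
      (n + m * n * ε + m * n / M + M * p) -
      (2 : ℝ) ^ ((2 * c1 + c1 * c2 + c2 + 3 * d + 3) * m) *
      (Real.sqrt (n * (M * p * p)) + n * Real.sqrt (M * p / b)) ≤ R := by
  have hlog0 : 0 < Real.log 2 := Real.log_pos (by norm_num)
  have hlog1 : Real.log 2 ≤ 1 := by
    have := Real.log_two_lt_d9
    linarith
  have hmr : (1 : ℝ) ≤ m := by exact_mod_cast hm
  have hMr : (1 : ℝ) ≤ M := by exact_mod_cast hM
  have hmpr : (m : ℝ) ≤ p := by exact_mod_cast hmp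
  have hNr : (N : ℝ) ≤ n := by exact_mod_cast hNn
  have h1 := num_root c1 d m n N M p L1 b hm (hm.trans hmp) hNn hmK
  have h2 := num_sum (Nat.cast_nonneg c1) (Nat.cast_nonneg c2) hmr hMr hmpr hNr hε he1 hen hCs
  have hE : (1 : ℝ) ≤ M * p := by nlinarith
  have h3 := num_big (Nat.cast_nonneg c1) (Nat.cast_nonneg c2) (Nat.cast_nonneg d)
    (Nat.cast_nonneg n) (by positivity : (0 : ℝ) ≤ m * n * ε)
    (by positivity : (0 : ℝ) ≤ m * n / M) hE
  have hd0 : (0 : ℝ) ≤ d := Nat.cast_nonneg _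
  have h4 : (d : ℝ) * (m * n) * Real.log 2 ≤ N * (d * m * Real.log 2) +
      d * (m * n / M + M * p) := by
    have g1 : (d : ℝ) * Real.log 2 * (m * n) ≤
        d * Real.log 2 * (m * N + m * n / M + M * p) :=
      mul_le_mul_of_nonneg_left hfull (by positivity)
    have g2 : (0 : ℝ) ≤ m * n / M + M * p := by positivity
    have g3 : (d : ℝ) * Real.log 2 * (m * n / M + M * p) ≤ d * (m * n / M + M * p) := by
      have : (d : ℝ) * Real.log 2 ≤ d := by nlinarith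
      exact mul_le_mul_of_nonneg_right this g2
    have g4 : (d : ℝ) * (m * n) * Real.log 2 = d * Real.log 2 * (m * n) := by ring
    have g5 : (d : ℝ) * Real.log 2 * (m * N + m * n / M + M * p) =
      N * (d * m * Real.log 2) + d * Real.log 2 * (m * n / M + M * p) := by ring
    rw [g4]
    linarith
  have h5 : (2 : ℝ) ^ ((c1 + 3 * d) * m) * (Real.sqrt (n * (M * p * p)) +
        n * Real.sqrt (M * p / b)) ≤
      (2 : ℝ) ^ ((2 * c1 + c1 * c2 + c2 + 3 * d + 3) * m) *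
      (Real.sqrt (n * (M * p * p)) + n * Real.sqrt (M * p / b)) := by
    refine mul_le_mul_of_nonneg_right ?_ (by positivity)
    refine pow_le_pow_right₀ (by norm_num) (Nat.mul_le_mul_right _ ?_)
    have : 0 ≤ c1 * c2 := Nat.zero_le _
    omega
  push_cast at h3 ⊢
  linarith

/-! ### windows -/

theorem exK {m κ c1 p : ℕ} (hm : 1 ≤ m) (hp : (c1 + 1) * m + κ ≤ p) :
    ∃ K1 : ℕ, κ + c1 * m ≤ m * K1 ∧ m * K1 ≤ p ∧ 1 ≤ K1 := by
  refine ⟨κ / m + c1 + 1, ?_, ?_, Nat.le_add_left 1 _⟩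
  · have h1 := Nat.div_add_mod κ m
    have h2 := Nat.mod_lt κ hm
    have h3 : m * (κ / m + c1 + 1) = m * (κ / m) + c1 * m + m := by ring
    omega
  · have h1 := Nat.div_add_mod κ m
    have h3 : m * (κ / m + c1 + 1) = m * (κ / m) + c1 * m + m := by ring
    have h4 : (c1 + 1) * m = c1 * m + m := by ring
    omega

/-- beginning of a window -/
def sg (L1 : ℕ) (v : ℕ) : ℕ := L1 * v

/-- end of the counted steps of a window -/
def kk (L1 K1 : ℕ) (v : ℕ) : ℕ := L1 * (v + 1) - K1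

theorem sg_succ (L1 v : ℕ) : sg L1 (v + 1) = sg L1 v + L1 := by
  unfold sg
  ring

theorem wins {L1 K1 : ℕ} (h : K1 ≤ L1) : Wins (sg L1) (kk L1 K1) L1 := by
  refine ⟨fun v => ?_, fun v => ?_, fun v => ?_⟩
  · have := sg_succ L1 v
    unfold sg kk at *
    omega
  · unfold sg kk
    omega
  · exact (sg_succ L1 v).le

theorem sg_mono (L1 : ℕ) : Monotone (sg L1) := fun _ _ hab => Nat.mul_le_mul_left _ hab

theorem sg_V (L1 n : ℕ) : sg L1 (n / L1) ≤ n := Nat.mul_div_le n L1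

theorem kk_lt {L1 K1 n : ℕ} (hK : 1 ≤ K1) (h : K1 ≤ L1) {v : ℕ} (hv : v < n / L1) {j : ℕ}
    (hj : j ≤ kk L1 K1 v) :
    j < sg L1 (v + 1) ∧ sg L1 (v + 1) ≤ n ∧ j + K1 ≤ sg L1 (v + 1) := by
  have h1 : sg L1 (v + 1) ≤ sg L1 (n / L1) := sg_mono L1 hv
  have h2 := sg_V L1 n
  have h4 := sg_succ L1 v
  unfold kk at hj
  have h3 : sg L1 (v + 1) = L1 * (v + 1) := rfl
  omega

theorem card_St {L1 K1 V : ℕ} (h : K1 ≤ L1) :
    (St (sg L1) (kk L1 K1) V).card + V * K1 = V * L1 := by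
  have h1 : (St (sg L1) (kk L1 K1) V).card = V * (L1 - K1) := by
    rw [St, Finset.card_sigma]
    have h2 : ∀ v ∈ range V, (Ioc (sg L1 v) (kk L1 K1 v)).card = L1 - K1 := by
      intro v _
      rw [Nat.card_Ioc]
      have := sg_succ L1 v
      unfold kk sg at *
      omega
    rw [Finset.sum_congr rfl h2, Finset.sum_const, card_range, smul_eq_mul]
  rw [h1, Nat.mul_sub]
  have : V * K1 ≤ V * L1 := Nat.mul_le_mul_left _ h
  omega

theorem num_full {m n N M K1 p : ℕ} (hM : 1 ≤ M) (hK : 1 ≤ K1) (hmK : m * K1 ≤ p)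
    (hN : N + n / (M * K1) * K1 = n / (M * K1) * (M * K1)) :
    N ≤ n ∧ (m : ℝ) * n ≤ m * N + m * n / M + M * p := by
  have hL : 0 < M * K1 := Nat.mul_pos hM hK
  have hV : n / (M * K1) * (M * K1) ≤ n := Nat.div_mul_le_self n _
  have hV' : n < n / (M * K1) * (M * K1) + M * K1 := by
    have := Nat.lt_mul_div_succ n hL
    have h2 : M * K1 * (n / (M * K1) + 1) = n / (M * K1) * (M * K1) + M * K1 := by ring
    omega
  set V := n / (M * K1)
  have hMr : (1 : ℝ) ≤ M := by exact_mod_cast hM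
  have hMp : (0 : ℝ) < M := by linarith
  refine ⟨by omega, ?_⟩
  have h1 : n ≤ N + V * K1 + M * K1 := by omega
  have h2 : (V * K1 : ℝ) ≤ n / M := by
    rw [le_div_iff₀ hMp]
    have h3 : V * K1 * M = V * (M * K1) := by ring
    have : V * K1 * M ≤ n := by omega
    exact_mod_cast this
  have h3 : (n : ℝ) ≤ N + V * K1 + M * K1 := by exact_mod_cast h1
  have hm0 : (0 : ℝ) ≤ m := Nat.cast_nonneg _
  have h4 : (m : ℝ) * n ≤ m * (N + n / M + M * K1) :=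
    mul_le_mul_of_nonneg_left (by linarith) hm0
  have h5 : (m : ℝ) * K1 ≤ p := by exact_mod_cast hmK
  calc (m : ℝ) * n ≤ m * (N + n / M + M * K1) := h4
    _ = m * N + m * n / M + M * (m * K1) := by ring
    _ ≤ _ := by
      have := mul_le_mul_of_nonneg_left h5 hMp.le
      linarith

theorem num_e1 {n j0 κ c c2 : ℕ} (hc : 1 ≤ c)
    (hκ : (c : ℝ) * ((n + 1) * (j0 + 1)) ^ 2 ≤ 2 ^ κ) :
    (n : ℝ) * (c2 * ((n + 1) * (j0 + 1)) / 2 ^ κ) ≤ c2 := by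
  have hκ0 : (0 : ℝ) < 2 ^ κ := by positivity
  have h1 : (n : ℝ) * ((n + 1) * (j0 + 1)) ≤ ((n + 1) * (j0 + 1)) ^ 2 := by
    have ha : (0 : ℝ) ≤ n := Nat.cast_nonneg _
    have hb : (0 : ℝ) ≤ j0 := Nat.cast_nonneg _
    have h2 : (n : ℝ) ≤ (n + 1) * (j0 + 1) := by nlinarith
    have h3 : (0 : ℝ) ≤ (n + 1) * (j0 + 1) := by positivity
    rw [sq]
    exact mul_le_mul_of_nonneg_right h2 h3
  have h2 : (1 : ℝ) ≤ c := by exact_mod_cast hc
  have h3 : ((n + 1) * (j0 + 1) : ℝ) ^ 2 ≤ 2 ^ κ := by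
    have h4 : (0 : ℝ) ≤ ((n + 1) * (j0 + 1)) ^ 2 := by positivity
    exact (le_mul_of_one_le_left h4 h2).trans hκ
  rw [← mul_div_assoc, div_le_iff₀ hκ0]
  have h5 : (0 : ℝ) ≤ c2 := Nat.cast_nonneg _
  calc (n : ℝ) * (c2 * ((n + 1) * (j0 + 1))) = c2 * (n * ((n + 1) * (j0 + 1))) := by ring
    _ ≤ c2 * 2 ^ κ := mul_le_mul_of_nonneg_left (h1.trans h3) h5

theorem trn_ray (S : Sy d Ω α) (o : Fin d → ℝ) {ω ω' : Ω} (h : S.ray ω = S.ray ω') :
    (S.trn o).ray ω = (S.trn o).ray ω' := by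
  have hX : S.X ω = S.X ω' := congrArg Prod.fst h
  have hQ : S.Q ω = S.Q ω' := congrArg Prod.snd h
  show ((fun k => S.X ω k + o k), S.Q ω) = ((fun k => S.X ω' k + o k), S.Q ω')
  rw [hX, hQ]

/-- the collisions -/
theorem col_le [Fintype Ω] (P : Law Ω) (S : Sy d Ω α) (o : Fin d → ℝ)
    (hwd : IsWd S.m S.p S.Q S.w) {L1 K1 n x j0 : ℕ} (hK : 1 ≤ K1) (hKL : K1 ≤ L1) (hx : x ≤ j0) :
    ∑ y ∈ St (sg L1) (kk L1 K1) (n / L1),
      colp P (fun ω => fl1 ((S.trn o).lt y.2 + (S.trn o).m) ((S.trn o).t ω)) ((S.trn o).J y.2 x) ≤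
    ∑ i ∈ range n, colp P (S.T (i + 1)) (fun ω => (S.ray ω, (S.A ω, S.w j0 ω), S.T i ω)) := by
  set f : ℕ → ℝ := fun j => if j < n then
    colp P (S.T (j + 1)) (fun ω => (S.ray ω, (S.A ω, S.w j0 ω), S.T j ω)) else 0 with hf
  have hf0 : ∀ j, 0 ≤ f j := by
    intro j
    simp only [hf]
    split_ifs
    · exact colp_nonneg P _ _
    · exact le_rfl
  have h1 : ∀ y ∈ St (sg L1) (kk L1 K1) (n / L1),
      colp P (fun ω => fl1 ((S.trn o).lt y.2 + (S.trn o).m) ((S.trn o).t ω))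
        ((S.trn o).J y.2 x) ≤ f y.2 := by
    intro y hy
    obtain ⟨a1, a2, a3⟩ := mem_St.1 hy
    have h2 := kk_lt hK hKL a1 a3
    have h3 : y.2 < n := by omega
    simp only [hf, if_pos h3]
    have h4 : (fun ω => fl1 ((S.trn o).lt y.2 + (S.trn o).m) ((S.trn o).t ω)) =
        S.T (y.2 + 1) := by
      funext ω
      show fl1 (S.lt y.2 + S.m) (S.t ω) = fl1 (S.lt (y.2 + 1)) (S.t ω)
      rw [lt_succ]
    rw [h4]
    refine colp_mono_cond P _ ?_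
    intro ω ω' _ _ e
    simp only [Prod.mk.injEq] at e
    obtain ⟨b1, ⟨b2, b3⟩, b4⟩ := e
    exact J_of (S := S.trn o) hwd hx (trn_ray S o b1) b2 b3 b4
  refine (Finset.sum_le_sum h1).trans ((sum_St_le (wins hKL) f hf0 (n / L1)).trans ?_)
  have h2 : ∑ j ∈ Ioc (sg L1 0) (sg L1 (n / L1)), f j ≤ ∑ j ∈ range (n + 1), f j := by
    refine Finset.sum_le_sum_of_subset_of_nonneg ?_ fun j _ _ => hf0 j
    intro j hj
    have := sg_V L1 n
    rw [Finset.mem_Ioc] at hj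
    rw [Finset.mem_range]
    omega
  refine h2.trans ?_
  rw [Finset.sum_range_succ]
  have h3 : f n = 0 := by simp [hf]
  rw [h3, add_zero]
  refine le_of_eq (Finset.sum_congr rfl fun j hj => ?_)
  simp only [hf, if_pos (Finset.mem_range.1 hj)]

/-- the composition, before the numbers -/
theorem comp [Fintype Ω] {c1 : ℕ} (P : Law Ω) (S : Sy d Ω α) (o : Fin d → ℝ) (hN : S.Nrm P)
    (hS : ∀ (i i' j : ℕ) (e ι₁ ι₂ : ℝ), (S.trn o).Nrm P → 1 ≤ S.m → c1 * S.m + S.κ ≤ S.p →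
      (S.trn o).lt i + S.κ + c1 * S.m ≤ (S.trn o).lt i' → (∀ ω, 0 < P.w ω → iso S.w j ω) →
      PlB P S.m ((S.trn o).F j) S.Q ((S.trn o).J i j) e →
      mi P (S.w (j + 1)) ((S.trn o).J i' j) ((S.trn o).J i j) ≤ ι₁ →
      mi P ((S.trn o).T i') ((S.trn o).J i (j + 1)) ((S.trn o).J i j) ≤ ι₂ →
      d * S.m * Real.log 2 - (c1 + c1 * S.m *
          (colp P (fun ω => fl1 ((S.trn o).lt i + (S.trn o).m) ((S.trn o).t ω))
            ((S.trn o).J i j) + e) +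
        (2 : ℝ) ^ (c1 * S.m) * (Real.sqrt ι₁ + Real.sqrt ι₂)) ≤
      hc P (fun ω k => ⌊(S.trn o).ps i' i j ω k⌋)
        (fun ω => ((fun k => ⌊(S.trn o).ps i' i j ω k / 2 ^ (S.trn o).m⌋), (S.trn o).J i j ω,
          (S.trn o).T i' ω)))
    {n j0 K1 L1 : ℕ} {B : Finset ℕ} (hm : 1 ≤ S.m) (hpm : c1 * S.m + S.κ ≤ S.p)
    (hma : S.m ≤ S.a0) (hB : B.Nonempty) (hBj : ∀ j ∈ B, j < j0)
    (hiso : ∀ j ∈ B, ∀ ω, 0 < P.w ω → iso S.w j ω) (hK : 1 ≤ K1) (hKL : K1 ≤ L1)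
    (hKm : S.κ + c1 * S.m ≤ S.m * K1) (e : ℝ)
    (hPl : ∀ j ≤ n, ∀ x ∈ B, PlB P S.m ((S.trn o).F x) S.Q ((S.trn o).J j x) e) :
    ∃ x ∈ B, (St (sg L1) (kk L1 K1) (n / L1)).card * (d * S.m * Real.log 2) -
      (∑ y ∈ St (sg L1) (kk L1 K1) (n / L1), (c1 + c1 * S.m *
          (colp P (fun ω => fl1 ((S.trn o).lt y.2 + (S.trn o).m) ((S.trn o).t ω))
            ((S.trn o).J y.2 x) + e)) +
        (2 : ℝ) ^ (c1 * S.m) * (Real.sqrt ((St (sg L1) (kk L1 K1) (n / L1)).card *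
          (L1 * (d * (S.p + 2) * Real.log 2))) +
          (St (sg L1) (kk L1 K1) (n / L1)).card *
            Real.sqrt (((1 : ℕ) : ℝ) * (((S.m * L1 : ℕ) : ℝ) * Real.log 2) / B.card))) ≤
      mi P (fun ω => ((S.trn o).ray ω, S.A ω, S.w j0 ω)) ((S.trn o).J (sg L1 (n / L1)) x)
        ((S.trn o).J 0 x) := by
  classical
  have hN1 : (S.trn o).Nrm P := ⟨hN.Q1, hN.t0, hN.t1, hN.wd⟩
  set J : ℕ → ℕ → Ω → Jt d α := fun j x => (S.trn o).J j (min x j0) with hJ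
  have hJx : ∀ x ∈ B, ∀ j, J j x = (S.trn o).J j x := by
    intro x hx j
    simp only [hJ, min_eq_left (hBj x hx).le]
  have hJx1 : ∀ x ∈ B, ∀ j, J j (x + 1) = (S.trn o).J j (x + 1) := by
    intro x hx j
    have : min (x + 1) j0 = x + 1 := min_eq_left (hBj x hx)
    simp only [hJ, this]
  have hlev : ∀ v < n / L1, ∀ j, j ≤ kk L1 K1 v →
      S.lt j + S.κ + c1 * S.m ≤ S.lt (sg L1 (v + 1)) := by
    intro v hv j hj
    obtain ⟨-, -, h3⟩ := kk_lt hK hKL hv hj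
    have h4 : S.m * (j + K1) ≤ S.m * sg L1 (v + 1) := Nat.mul_le_mul_left _ h3
    have h5 : S.m * (j + K1) = S.m * j + S.m * K1 := by ring
    unfold Sy.lt
    omega
  have hmic := mic_abs P (fun ω => ((S.trn o).ray ω, S.A ω, S.w j0 ω)) (S.trn o).T J
    (fun x => dat (S := S.trn o) P hN.wd j0 x)
    (fun j x y hxy => fun ω ω' _ _ e => J_mono le_rfl (min_le_min_right _ hxy) e)
    (wins hKL) (n / L1) B hB 1
    (fun x => S.w (x + 1)) (Hη := d * (S.p + 2) * Real.log 2)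
    (fun x hx => hc_block hN (hiso x hx) _ fun ω ω' _ _ e => by
      rw [hJx x hx] at e
      exact base_w (S := S.trn o) (J_base e le_rfl le_rfl))
    (fun v _ => S.T (sg L1 (v + 1))) (HΘ := ((S.m * L1 : ℕ) : ℝ) * Real.log 2)
    (fun v hv j h1 h2 => by
      have h3 : S.lt j ≤ S.lt (sg L1 (v + 1)) := lt_le S (kk_lt hK hKL hv h2).1.le
      have h4 := hc_fl1_digits_le P h3 S.t (J j 0)
      have h5 : hc P (S.T (sg L1 (v + 1))) (J j 0) ≤
          hc P (fun ω => fl1 (S.lt (sg L1 (v + 1))) (S.t ω))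
            (fun ω => (fl1 (S.lt j) (S.t ω), J j 0 ω)) :=
        hc_mono_right P _ fun ω ω' _ _ e =>
          Prod.ext (base_T (S := S.trn o) (J_base e le_rfl (Nat.zero_le _))) e
      refine h5.trans (h4.trans ?_)
      have h6 : S.lt (sg L1 (v + 1)) - S.lt j ≤ S.m * L1 := by
        have h7 : S.m * sg L1 (v + 1) ≤ S.m * (j + L1) := Nat.mul_le_mul_left _ (by
          have := (wins hKL).len v
          omega)
        have h8 : S.m * (j + L1) = S.m * j + S.m * L1 := by ring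
        unfold Sy.lt
        omega
      have h9 : ((S.lt (sg L1 (v + 1)) - S.lt j : ℕ) : ℝ) ≤ ((S.m * L1 : ℕ) : ℝ) := by
        exact_mod_cast h6
      exact mul_le_mul_of_nonneg_right h9 (Real.log_nonneg (by norm_num)))
    (G := (2 : ℝ) ^ (c1 * S.m)) (by positivity) (fun _ _ => d * S.m * Real.log 2)
    (fun _ j x => c1 + c1 * S.m *
      (colp P (fun ω => fl1 ((S.trn o).lt j + (S.trn o).m) ((S.trn o).t ω)) ((S.trn o).J j x) + e))
    (fun v j x => hc P (fun ω k => ⌊(S.trn o).ps (sg L1 (v + 1)) j x ω k⌋)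
        (fun ω => ((fun k => ⌊(S.trn o).ps (sg L1 (v + 1)) j x ω k / 2 ^ (S.trn o).m⌋),
          (S.trn o).J j x ω, (S.trn o).T (sg L1 (v + 1)) ω)))
    (fun v hv j h1 h2 x hx => by
      obtain ⟨g1, g2, -⟩ := kk_lt hK hKL hv h2
      rw [hJx x hx, hJx x hx, hJx1 x hx]
      exact hS j (sg L1 (v + 1)) x e _ _ hN1 hm hpm (hlev v hv j h2) (hiso x hx)
        (hPl j (by omega) x hx) le_rfl le_rfl)
    (fun v hv x hx => by
      rw [hJx x hx, hJx x hx]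
      have h1 := (wins hKL).lo v
      have h2 := kk_lt hK hKL hv (le_refl (kk L1 K1 v))
      have h3 := hlev v hv (kk L1 K1 v) le_rfl
      refine count P hN.wd (S := S.trn o) (hBj x hx).le h1 h2.1 ?_ ?_
      · show S.m ≤ S.a0 + S.m * 0
        omega
      · show S.lt (kk L1 K1 v) + S.κ ≤ S.lt (sg L1 (v + 1))
        omega)
  obtain ⟨x, hx, hmic⟩ := hmic
  refine ⟨x, hx, ?_⟩
  have h0 : sg L1 0 = 0 := by simp [sg]
  rw [hJx x hx, hJx x hx, h0, Finset.sum_const, nsmul_eq_mul] at hmic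
  exact hmic

/-- **[CORE]** -/
theorem pCore_of (hS : PSat d) (hE : PEnd d) : PCore d := by
  classical
  obtain ⟨c1, hS⟩ := hS
  obtain ⟨c2, hE⟩ := hE
  refine ⟨2 * c1 + c1 * c2 + c2 + 3 * d + 3, ?_⟩
  intro Ω _ α P S n j0 h M B ε hN hm hp hmκ hM ha0 hh hB hBj hiso hPl hact hε hκ
  have w0 : 0 ≤ c1 * c2 := Nat.zero_le _
  have hcN1 : c1 + 1 ≤ 2 * c1 + c1 * c2 + c2 + 3 * d + 3 := by omega
  have hcN2 : c2 ≤ 2 * c1 + c1 * c2 + c2 + 3 * d + 3 := by omega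
  have hcN0 : 1 ≤ 2 * c1 + c1 * c2 + c2 + 3 * d + 3 := by omega
  have hpm : (c1 + 1) * S.m + S.κ ≤ S.p := by
    have := Nat.mul_le_mul_right S.m hcN1
    omega
  have hpm' : c1 * S.m + S.κ ≤ S.p := by
    have : (c1 + 1) * S.m = c1 * S.m + S.m := by ring
    omega
  have hmp : S.m ≤ S.p := by
    have : (c1 + 1) * S.m = c1 * S.m + S.m := by ring
    omega
  obtain ⟨K1, hK1a, hK1b, hK1⟩ := exK hm hpm
  have hKL : K1 ≤ M * K1 := Nat.le_mul_of_pos_left _ hM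
  obtain ⟨o, -, ho⟩ := hE P S n j0 h hN hm hmp (by
      have := Nat.mul_le_mul_right j0 hcN2
      omega) (by
      have : (j0 + 1) * (S.p + c2) ≤ (j0 + 1) * (S.p + (2 * c1 + c1 * c2 + c2 + 3 * d + 3)) :=
        Nat.mul_le_mul_left _ (Nat.add_le_add_left hcN2 _)
      exact (Nat.add_le_add_left this _).trans hh)
  set e1 : ℝ := c2 * ((n + 1) * (j0 + 1)) / 2 ^ S.κ with he1
  have he10 : 0 ≤ e1 := by
    rw [he1]
    positivity
  have hPl1 : ∀ j ≤ n, ∀ x ∈ B, PlB P S.m ((S.trn o).F x) S.Q ((S.trn o).J j x) (ε + e1) := by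
    intro j hj x hx
    obtain ⟨Φ, hΦ⟩ := (ho j hj x (hBj x hx).le).1
    exact plB_off Φ (hPl x hx) hΦ
  obtain ⟨x, hx, hmic⟩ := comp P S o hN
    (fun i i' j e ι₁ ι₂ a1 a2 a3 a4 a5 a6 a7 a8 => hS P (S.trn o) i i' j e ι₁ ι₂ a1 a2 a3 a4 a5
      a6 a7 a8) (n := n) (L1 := M * K1) hm hpm' (by omega) hB hBj hiso hK1 hKL hK1a (ε + e1) hPl1
  have hend := fin_le P S o hN.wd (n := sg (M * K1) (n / (M * K1))) (hBj x hx).le (h := h)
    (c2 := (c2 : ℝ)) ((ho _ (sg_V _ _) x (hBj x hx).le).2 (le_trans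
      (mul_le_mul_of_nonneg_right (by exact_mod_cast hcN2) (by positivity)) hκ))
  obtain ⟨hNn, hfull⟩ := num_full (m := S.m) (p := S.p) hM hK1 hK1b
    (card_St (V := n / (M * K1)) hKL)
  refine num_fin c1 c2 d S.m n _ M S.p (M * K1) B.card ε e1 _ _ hm hM hmp hNn ?_ hfull hε he10
    (num_e1 hcN0 hκ) ?_ (hmic.trans hend)
  · calc S.m * (M * K1) = M * (S.m * K1) := by ring
      _ ≤ M * S.p := Nat.mul_le_mul_left _ hK1b
  · rw [Finset.sum_add_distrib, Finset.sum_const, ← Finset.mul_sum, Finset.sum_add_distrib,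
      Finset.sum_const, nsmul_eq_mul, nsmul_eq_mul]
    have h1 := (col_le P S o hN.wd (n := n) hK1 hKL (hBj x hx).le).trans hact
    have h2 : (0 : ℝ) ≤ c1 * S.m := by positivity
    have h3 := mul_le_mul_of_nonneg_left (add_le_add_left h1
      ((St (sg (M * K1)) (kk (M * K1) K1) (n / (M * K1))).card * (ε + e1))) h2
    linarith

end Vale.Agent.P106.U.EndA.H420
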