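import Vale.Agent.P106.U.H611.Geo
import Vale.Agent.P106.U.H996.EndA
import Vale.Agent.P106.U.H833.MicAbs

/-!
# P106 / U / H420 : block [CORE] of END7, Case A — preparations

* `J_mono`, `J_of`, `ps_fl` : the cells of `Sy` are nested, functions of the line, of the side variable, of the
  state and of the time; the positions are digits of one vector.
* `dat` : the data of the abstract composition.
* `hc_block` : entropy of an isotropic step; `plB_off` : slabs and events.
-/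

set_option autoImplicit false

namespace Vale.Agent.P106.U.EndA.H420

open Finset Vale.Agent.P127 Vale.Agent.P127.Stk Vale.Agent.P127.U.CellD Vale.Agent.P127.U.Mic
open Vale.Agent.P106.U.EndA.H996 (wd_pred)

variable {d : ℕ} {Ω α : Type}

section cells

variable {S : Sy d Ω α}

theorem lt_le (S : Sy d Ω α) {i j : ℕ} (h : i ≤ j) : S.lt i ≤ S.lt j := by
  unfold Sy.lt
  gcongr

theorem lt_succ (S : Sy d Ω α) (i : ℕ) : S.lt (i + 1) = S.lt i + S.m := by
  unfold Sy.lt
  ring

theorem T_mono {i j : ℕ} (h : i ≤ j) {ω ω' : Ω} (e : S.T j ω = S.T j ω') : S.T i ω = S.T i ω' :=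
  fl1_fl1 (lt_le S h) e

theorem J_mono {i j i' j' : ℕ} (hi : i' ≤ i) (hj : j' ≤ j) {ω ω' : Ω}
    (e : S.J i j ω = S.J i j ω') : S.J i' j' ω = S.J i' j' ω' := by
  funext a b
  by_cases h : a ≤ i' ∧ b ≤ j'
  · have h1 := J_base e (h.1.trans hi) (h.2.trans hj)
    simp only [Sy.J, if_pos h, h1]
  · simp only [Sy.J, if_neg h]

theorem J_of (hwd : IsWd S.m S.p S.Q S.w) {i j j0 : ℕ} (hj : j ≤ j0) {ω ω' : Ω}
    (hr : S.ray ω = S.ray ω') (hA : S.A ω = S.A ω') (hw : S.w j0 ω = S.w j0 ω')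
    (hT : S.T i ω = S.T i ω') : S.J i j ω = S.J i j ω' := by
  funext a b
  by_cases h : a ≤ i ∧ b ≤ j
  · simp only [Sy.J, if_pos h]
    congr 1
    have hTa := T_mono h.1 hT
    have hwb : S.w b ω = S.w b ω' := wd_pred hwd (h.2.trans hj) hw
    have hX : S.X ω = S.X ω' := congrArg Prod.fst hr
    have hQ : S.Q ω = S.Q ω' := congrArg Prod.snd hr
    have hps : ∀ k, S.ps a a b ω k = S.ps a a b ω' k := by
      intro k
      have h2 : rd (S.lt a) (S.t ω) = rd (S.lt a) (S.t ω') := by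
        unfold Sy.T at hTa
        unfold rd
        rw [hTa]
      rw [ps_eq, ps_eq, h2]
      unfold Sy.F
      rw [hwb, hX, hQ]
    unfold Sy.base
    rw [hA, hTa, hwb]
    simp only [hps]
  · simp only [Sy.J, if_neg h]

/-- the positions are digits of one vector -/
theorem ps_fl (S : Sy d Ω α) (i' j x r : ℕ) (hr : r ≤ S.lt j) (ω : Ω) (k : Fin d) :
    ⌊S.ps i' j x ω k / 2 ^ r⌋ =
      fl1 (S.lt j - r) (ap (S.F x ω) (S.pos (S.lt i') ω) k) := by
  unfold Sy.ps fl1
  congr 1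
  rw [← pow_sub_mul_pow (2 : ℝ) hr]
  field_simp

theorem ps_fl0 (S : Sy d Ω α) (i' j x : ℕ) (ω : Ω) (k : Fin d) :
    ⌊S.ps i' j x ω k⌋ = fl1 (S.lt j) (ap (S.F x ω) (S.pos (S.lt i') ω) k) := rfl

/-- the data of the abstract composition -/
theorem dat [Fintype Ω] (P : Law Ω) (hwd : IsWd S.m S.p S.Q S.w) (j0 x : ℕ) :
    Dat P (fun ω => (S.ray ω, S.A ω, S.w j0 ω)) S.T (fun j => S.J j (min x j0)) where
  TT := fun h _ _ _ _ e => T_mono h e
  CC := fun h _ _ _ _ e => J_mono h le_rfl e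
  TC := fun _ _ _ _ _ e => base_T (J_base e le_rfl (Nat.zero_le _))
  Cl := fun _ _ _ _ _ e => by
    simp only [Prod.mk.injEq] at e
    exact J_of hwd (min_le_right _ _) e.1.1 e.1.2.1 e.1.2.2 e.2

/-- COUNT for the system -/
theorem count [Fintype Ω] (P : Law Ω) (hwd : IsWd S.m S.p S.Q S.w) {j0 x i k i' : ℕ} (hx : x ≤ j0)
    (hik : i ≤ k) (hki : k < i') (hm : S.m ≤ S.lt 0) (hκ : S.lt k + S.κ ≤ S.lt i') :
    ∑ j ∈ Ioc i k, hc P (fun ω k => ⌊S.ps i' j x ω k⌋)
        (fun ω => ((fun k => ⌊S.ps i' j x ω k / 2 ^ S.m⌋), S.J j x ω, S.T i' ω)) ≤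
      mi P (fun ω => (S.ray ω, S.A ω, S.w j0 ω)) (S.J i' x) (S.J i x) := by
  have hmin : min x j0 = x := min_eq_left hx
  have hD := dat (S := S) P hwd j0 x
  rw [hmin] at hD
  set W : ℕ → Ω → Fin d → ℤ := fun j ω l =>
    fl1 (S.lt j - S.m) (ap (S.F x ω) (S.pos (S.lt i') ω) l) with hW
  have h1 := hD.count (i := i) (e := k + 1) (k := i') (by omega) (by omega) W
    (fun j _ _ ω ω' _ _ e => by
      funext l
      refine fl1_fl1 ?_ (congrFun e l)
      have := lt_succ S j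
      omega)
    (fun ω ω' _ _ e => by
      simp only [Prod.mk.injEq] at e
      have hb := J_base e.2 le_rfl le_rfl
      funext l
      have h3 := base_fl hb l
      rw [ps_fl S i' i' x S.κ (by omega), ps_fl S i' i' x S.κ (by omega)] at h3
      refine fl1_fl1 ?_ h3
      have := lt_succ S k
      omega)
  refine le_trans ?_ h1
  have h2 : ∀ j, hc P (fun ω k => ⌊S.ps i' j x ω k⌋)
        (fun ω => ((fun k => ⌊S.ps i' j x ω k / 2 ^ S.m⌋), S.J j x ω, S.T i' ω)) =
      hc P (W (j + 1)) (fun ω => (W j ω, S.J j x ω, S.T i' ω)) := by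
    intro j
    have e1 : (fun (ω : Ω) (k : Fin d) => ⌊S.ps i' j x ω k⌋) = W (j + 1) := by
      funext ω l
      have e3 : S.lt (j + 1) - S.m = S.lt j := by
        have := lt_succ S j
        omega
      rw [hW, ps_fl0]
      simp only [e3]
    have e2 : (fun ω => ((fun k => ⌊S.ps i' j x ω k / 2 ^ S.m⌋), S.J j x ω, S.T i' ω)) =
        fun ω => (W j ω, S.J j x ω, S.T i' ω) := by
      funext ω
      have : (fun k => ⌊S.ps i' j x ω k / 2 ^ S.m⌋) = W j ω := by
        funext l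
        exact ps_fl S i' j x S.m (hm.trans (lt_le S (Nat.zero_le j))) ω l
      rw [this]
    rw [e1, e2]
  simp only [h2]
  refine Finset.sum_le_sum_of_subset_of_nonneg ?_ fun j _ _ => hc_nonneg P _ _
  intro j hj
  rw [Finset.mem_Ioc] at hj
  rw [Finset.mem_Ico]
  omega

/-- entropy of an isotropic step -/
theorem hc_block [Fintype Ω] {P : Law Ω} (hN : S.Nrm P) {j : ℕ}
    (hi : ∀ ω, 0 < P.w ω → iso S.w j ω) {ζ : Type} (Z : Ω → ζ) (hZ : Fn P (S.w j) Z) :
    hc P (S.w (j + 1)) Z ≤ d * (S.p + 2) * Real.log 2 := by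
  classical
  have h1 : hc P (S.w (j + 1)) Z ≤ Real.log (((2 ^ (S.p + 2)) ^ d : ℕ) : ℝ) := by
    refine hc_le_log P _ Z _ fun ω hω => ?_
    refine ⟨(Fintype.piFinset fun k => Finset.Icc ((2 : ℤ) ^ S.p * (hd (S.w j ω) k - 1))
      ((2 : ℤ) ^ S.p * (hd (S.w j ω) k + 1))).image
        (fun g => ((none : Cd d), g) :: S.w j ω), ?_, ?_⟩
    · refine Finset.card_image_le.trans ?_
      rw [Fintype.card_piFinset]
      have h2 : ∀ k : Fin d, (Finset.Icc ((2 : ℤ) ^ S.p * (hd (S.w j ω) k - 1))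
          ((2 : ℤ) ^ S.p * (hd (S.w j ω) k + 1))).card ≤ 2 ^ (S.p + 2) := by
        intro k
        rw [Int.card_Icc]
        have h3 : (2 : ℤ) ^ S.p * (hd (S.w j ω) k + 1) + 1 - 2 ^ S.p * (hd (S.w j ω) k - 1) =
            2 * 2 ^ S.p + 1 := by ring
        rw [h3]
        have h4 : (2 * 2 ^ S.p + 1 : ℤ).toNat = 2 * 2 ^ S.p + 1 := by
          have : (2 * 2 ^ S.p + 1 : ℤ) = ((2 * 2 ^ S.p + 1 : ℕ) : ℤ) := by push_cast; ring
          rw [this, Int.toNat_natCast]
        rw [h4, pow_add]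
        have : 1 ≤ 2 ^ S.p := Nat.one_le_two_pow
        omega
      refine (Finset.prod_le_prod' fun k _ => h2 k).trans ?_
      rw [Finset.prod_const, Finset.card_univ, Fintype.card_fin]
    · intro ω' hω' e
      have hw := hZ ω' ω hω' hω e
      rw [Finset.mem_image]
      refine ⟨dg (fun i l => 2 ^ S.p * fr S.m S.p (S.w j ω') i l) (S.Q ω'), ?_, ?_⟩
      · rw [Fintype.mem_piFinset]
        intro k
        rw [Finset.mem_Icc]
        have h5 := abs_le.1 (wd_near hN.wd j (hN.Q1 ω' hω') k)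
        unfold dg
        rw [ap_mul_left]
        rw [hw] at h5 ⊢
        set u := ap (fr S.m S.p (S.w j ω)) (S.Q ω') k
        have hp : (0 : ℝ) < 2 ^ S.p := by positivity
        constructor
        · rw [Int.le_floor]
          push_cast
          have : (hd (S.w j ω) k : ℝ) - 1 ≤ u := by linarith [h5.1]
          exact mul_le_mul_of_nonneg_left this hp.le
        · have h6 := Int.floor_le ((2 : ℝ) ^ S.p * u)
          have h7 : (2 : ℝ) ^ S.p * u ≤ 2 ^ S.p * (hd (S.w j ω) k + 1) :=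
            mul_le_mul_of_nonneg_left (by linarith [h5.2]) hp.le
          have h8 : ((⌊(2 : ℝ) ^ S.p * u⌋ : ℤ) : ℝ) ≤
              (((2 : ℤ) ^ S.p * (hd (S.w j ω) k + 1) : ℤ) : ℝ) := by
            push_cast
            exact h6.trans h7
          exact_mod_cast h8
      · rw [iso_succ hN.wd (hi ω' hω'), ← hw]
  refine h1.trans (le_of_eq ?_)
  push_cast
  rw [Real.log_pow, Real.log_pow]
  push_cast
  ring

end cells

/-- slabs and events -/
theorem plB_off [Fintype Ω] {P : Law Ω} {m : ℕ} {A : Ω → Fr d} {Q : Ω → Fin d → ℝ} {γ γ' : Type*}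
    {C : Ω → γ} {C' : Ω → γ'} {e e' : ℝ} (Φ : γ → γ') (h : PlB P m A Q C e)
    (h' : prE P (fun ω => C' ω ≠ Φ (C ω)) ≤ e') : PlB P m A Q C' (e + e') := by
  classical
  intro π hπ
  have h1 := h (fun z => π (Φ z)) fun z => hπ _
  have h2 : prE P (fun ω => sl m (A ω) (Q ω) (π (C' ω))) ≤
      prE P (fun ω => sl m (A ω) (Q ω) (π (Φ (C ω)))) + prE P (fun ω => C' ω ≠ Φ (C ω)) := by
    unfold prE
    rw [Finset.sum_filter, Finset.sum_filter, Finset.sum_filter, ← Finset.sum_add_distrib]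
    refine Finset.sum_le_sum fun ω _ => ?_
    have h0 := P.nn ω
    by_cases e3 : sl m (A ω) (Q ω) (π (C' ω))
    · rw [if_pos e3]
      by_cases e1 : C' ω = Φ (C ω)
      · have e2 : sl m (A ω) (Q ω) (π (Φ (C ω))) := by
          rw [← e1]
          exact e3
        rw [if_pos e2]
        split_ifs <;> linarith
      · rw [if_pos (show C' ω ≠ Φ (C ω) from e1)]
        split_ifs <;> linarith
    · rw [if_neg e3]
      split_ifs <;> linarith
  linarith

end Vale.Agent.P106.U.EndA.H420
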