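import Vale.Agent.P106.U.H420.Core
import Vale.Agent.P106.U.H611.Sat
import Vale.Agent.P106.U.H996.End

/-! # P106 / U / H420 : `pCore d : PCore d`, unconditional -/

set_option autoImplicit false

namespace Vale.Agent.P106.U.EndA.H420

/-- **[CORE]**, unconditional -/
theorem pCore (d : ℕ) : PCore d := pCore_of (pSat d) (H996.pEnd d)

end Vale.Agent.P106.U.EndA.H420
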