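import Vale.Agent.P106.U.H459.C1Props

/-!
# P106 / U / H420 : block [PQ3] of END7 : three slopes, lifted points on two transversal planes
-/

set_option autoImplicit false

namespace Vale.Agent.P106.U.End7.H420

open Finset Vale.Agent.P106.U.End7

/-- a quadratic polynomial which is small at three points -/
theorem three_aux {x y E b e0 D : ℝ} (hE : 0 ≤ E) (hD : 0 < D) (hxy : |y| ≤ |x|)
    (h2 : D ≤ E * y ^ 2) (h1 : D ≤ E * x ^ 2) (h3 : D ≤ E * (x - y) ^ 2)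
    (f1 : |x ^ 2 * E / 2 + b * x| ≤ e0) (f2 : |y ^ 2 * E / 2 + b * y| ≤ e0) : D ≤ 4 * e0 := by
  have hx0 : 0 < |x| := by
    rw [abs_pos]
    intro h0
    rw [h0] at h1
    simp at h1
    linarith
  have he0 : 0 ≤ e0 := (abs_nonneg _).trans f1
  have h4 : E * y * (x - y) * x / 2 =
      y * (x ^ 2 * E / 2 + b * x) - x * (y ^ 2 * E / 2 + b * y) := by ring
  have h5 : |E * y * (x - y) * x / 2| ≤ 2 * e0 * |x| := by
    rw [h4]
    have g1 : |y * (x ^ 2 * E / 2 + b * x)| ≤ |x| * e0 := by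
      rw [abs_mul]
      exact mul_le_mul hxy f1 (abs_nonneg _) (abs_nonneg _)
    have g2 : |x * (y ^ 2 * E / 2 + b * y)| ≤ |x| * e0 := by
      rw [abs_mul]
      exact mul_le_mul le_rfl f2 (abs_nonneg _) (abs_nonneg _)
    calc _ ≤ |y * (x ^ 2 * E / 2 + b * x)| + |x * (y ^ 2 * E / 2 + b * y)| := abs_sub _ _
      _ ≤ 2 * e0 * |x| := by linarith
  have h6 : |E * y * (x - y)| ≤ 4 * e0 := by
    have h7 : |E * y * (x - y) * x / 2| = |E * y * (x - y)| * |x| / 2 := by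
      rw [abs_div, abs_mul, abs_of_pos (by norm_num : (0 : ℝ) < 2)]
    rw [h7] at h5
    have h8 : |E * y * (x - y)| * |x| ≤ (4 * e0) * |x| := by linarith
    exact le_of_mul_le_mul_right h8 hx0
  have h9 : D ^ 2 ≤ (4 * e0) ^ 2 := by
    have g1 : D * D ≤ (E * y ^ 2) * (E * (x - y) ^ 2) :=
      mul_le_mul h2 h3 hD.le (hD.le.trans h2)
    have g2 : (E * y ^ 2) * (E * (x - y) ^ 2) = (E * y * (x - y)) ^ 2 := by ring
    have g3 : (E * y * (x - y)) ^ 2 ≤ (4 * e0) ^ 2 :=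
      sq_le_sq' (by linarith [(abs_le.1 h6).1]) (abs_le.1 h6).2
    nlinarith
  exact le_of_sq_le_sq h9 (by linarith)
where
  le_of_sq_le_sq {a b : ℝ} (h : a ^ 2 ≤ b ^ 2) (hb : 0 ≤ b) : a ≤ b :=
    (le_abs_self a).trans (abs_le_of_sq_le_sq h hb)

theorem three {x y E b e0 D : ℝ} (hE : 0 ≤ E) (hD : 0 < D)
    (h1 : D ≤ E * x ^ 2) (h2 : D ≤ E * y ^ 2) (h3 : D ≤ E * (x - y) ^ 2)
    (f1 : |x ^ 2 * E / 2 + b * x| ≤ e0) (f2 : |y ^ 2 * E / 2 + b * y| ≤ e0) : D ≤ 4 * e0 := by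
  rcases le_total |y| |x| with h | h
  · exact three_aux hE hD h h2 h1 h3 f1 f2
  · refine three_aux hE hD h h1 h2 ?_ f2 f1
    have : (y - x) ^ 2 = (x - y) ^ 2 := by ring
    rw [this]
    exact h3

theorem sum3 (f : Fin 3 → ℝ) {k0 k1 k2 : Fin 3} (h01 : k0 ≠ k1) (h02 : k0 ≠ k2) (h12 : k1 ≠ k2) :
    ∑ k, f k = f k0 + f k1 + f k2 := by
  rw [Fin.sum_univ_three]
  fin_cases k0 <;> fin_cases k1 <;> fin_cases k2 <;> simp at * <;> ring

theorem idx3 : ∀ k0 k1 k2 k : Fin 3, k0 ≠ k1 → k0 ≠ k2 → k1 ≠ k2 → k = k0 ∨ k = k1 ∨ k = k2 := by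
  decide

theorem ex3 : ∀ k0 k1 : Fin 3, k0 ≠ k1 → ∃ k2, k0 ≠ k2 ∧ k1 ≠ k2 := by
  decide

/-- two transversal planes: the line -/
theorem line3 (π π' : Fin 3 → ℝ) {k0 k1 k2 : Fin 3} (h01 : k0 ≠ k1) (h02 : k0 ≠ k2) (h12 : k1 ≠ k2)
    (h1 : ∀ k, |π k| ≤ 1) (h2 : ∀ k, |π' k| ≤ 1) (h3 : 1 / 2 ≤ |π k0|) (h4 : π' k0 = 0)
    (h5 : 1 / 2 ≤ |π' k1|) :
    ∃ d : Fin 3 → ℝ, (∀ k, |d k| ≤ 6) ∧ ∀ (a : Fin 3 → ℝ) (ε : ℝ), |∑ k, π k * a k| ≤ ε →
      |∑ k, π' k * a k| ≤ ε → ∀ k, |a k - a k2 * d k| ≤ 6 * ε := by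
  have hp0 : 0 < |π k0| := by linarith
  have hp1 : 0 < |π' k1| := by linarith
  have hne0 : π k0 ≠ 0 := abs_pos.1 hp0
  have hne1 : π' k1 ≠ 0 := abs_pos.1 hp1
  set d1 := -(π' k2) / π' k1 with hd1
  set d0 := -(π k1 * d1 + π k2) / π k0 with hd0
  have hd1' : |d1| ≤ 2 := by
    rw [hd1, abs_div, abs_neg, div_le_iff₀ hp1]
    linarith [h2 k2]
  have hd0' : |d0| ≤ 6 := by
    rw [hd0, abs_div, abs_neg, div_le_iff₀ hp0]
    have g1 : |π k1 * d1| ≤ 2 := by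
      rw [abs_mul]
      calc |π k1| * |d1| ≤ 1 * 2 := mul_le_mul (h1 k1) hd1' (abs_nonneg _) (by norm_num)
        _ = 2 := by norm_num
    calc |π k1 * d1 + π k2| ≤ |π k1 * d1| + |π k2| := abs_add_le _ _
      _ ≤ 3 := by linarith [h1 k2]
      _ ≤ 6 * |π k0| := by linarith
  refine ⟨fun k => if k = k2 then 1 else if k = k1 then d1 else d0, ?_, ?_⟩
  · intro k
    dsimp only
    split_ifs
    · norm_num
    · linarith
    · exact hd0'
  · intro a ε ha ha' k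
    rw [sum3 _ h01 h02 h12] at ha ha'
    rw [h4, zero_mul, zero_add] at ha'
    have hε : 0 ≤ ε := (abs_nonneg _).trans ha
    have g1 : |a k1 - a k2 * d1| ≤ 2 * ε := by
      have e1 : a k1 - a k2 * d1 = (π' k1 * a k1 + π' k2 * a k2) / π' k1 := by
        rw [hd1]
        field_simp
        ring
      rw [e1, abs_div, div_le_iff₀ hp1]
      nlinarith
    have g0 : |a k0 - a k2 * d0| ≤ 6 * ε := by
      have e1 : a k0 - a k2 * d0 = ((π k0 * a k0 + π k1 * a k1 + π k2 * a k2) -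
          π k1 * (a k1 - a k2 * d1)) / π k0 := by
        rw [hd0]
        field_simp
        ring
      rw [e1, abs_div, div_le_iff₀ hp0]
      have e2 : |π k1 * (a k1 - a k2 * d1)| ≤ 2 * ε := by
        rw [abs_mul]
        calc |π k1| * |a k1 - a k2 * d1| ≤ 1 * (2 * ε) :=
              mul_le_mul (h1 k1) g1 (abs_nonneg _) (by norm_num)
          _ = 2 * ε := one_mul _
      calc _ ≤ |π k0 * a k0 + π k1 * a k1 + π k2 * a k2| + |π k1 * (a k1 - a k2 * d1)| :=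
            abs_sub _ _
        _ ≤ 3 * ε := by linarith
        _ ≤ 6 * ε * |π k0| := by nlinarith
    dsimp only
    rcases idx3 k0 k1 k2 k h01 h02 h12 with rfl | rfl | rfl
    · rw [if_neg h02, if_neg h01]
      exact g0
    · rw [if_neg h12, if_pos rfl]
      linarith
    · rw [if_pos rfl]
      simp only [mul_one, sub_self, abs_zero]
      linarith

theorem sq_near {S x R : ℝ} (hS : |S| ≤ 2) (h : |S - x| ≤ R) : |S ^ 2 - x ^ 2| ≤ 4 * R + R ^ 2 := by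
  have h1 : S ^ 2 - x ^ 2 = (S - x) * (2 * S - (S - x)) := by ring
  have hR : 0 ≤ R := (abs_nonneg _).trans h
  have h2 : |2 * S - (S - x)| ≤ 4 + R := by
    calc _ ≤ |2 * S| + |S - x| := abs_sub _ _
      _ ≤ 4 + R := by
        rw [abs_mul, abs_of_pos (by norm_num : (0 : ℝ) < 2)]
        linarith
  rw [h1, abs_mul]
  calc |S - x| * |2 * S - (S - x)| ≤ R * (4 + R) := mul_le_mul h h2 (abs_nonneg _) hR
    _ = _ := by ring

/-- the quadratic polynomial at one point -/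
theorem quad {S0 S1 x0 x1 p0 p1 U v R A B : ℝ} (h0 : |S0| ≤ 2) (h1 : |S1| ≤ 2) (hp0 : |p0| ≤ 1)
    (hp1 : |p1| ≤ 1) (g0 : |S0 - x0| ≤ R) (g1 : |S1 - x1| ≤ R)
    (hU : |U - (S0 * (2 * p0 + S0) + S1 * (2 * p1 + S1)) / 2| ≤ A) (hv : |U - v| ≤ B) :
    |(x0 ^ 2 + x1 ^ 2) / 2 + (x0 * p0 + x1 * p1 - v)| ≤ A + B + 6 * R + R ^ 2 := by
  have a0 := sq_near h0 g0
  have a1 := sq_near h1 g1
  have b0 : |(S0 - x0) * p0| ≤ R := by
    rw [abs_mul]
    calc _ ≤ R * 1 := mul_le_mul g0 hp0 (abs_nonneg _) ((abs_nonneg _).trans g0)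
      _ = R := mul_one _
  have b1 : |(S1 - x1) * p1| ≤ R := by
    rw [abs_mul]
    calc _ ≤ R * 1 := mul_le_mul g1 hp1 (abs_nonneg _) ((abs_nonneg _).trans g1)
      _ = R := mul_one _
  have e : (x0 ^ 2 + x1 ^ 2) / 2 + (x0 * p0 + x1 * p1 - v) =
      -(U - (S0 * (2 * p0 + S0) + S1 * (2 * p1 + S1)) / 2) + (U - v) - (S0 ^ 2 - x0 ^ 2) / 2 -
        (S1 ^ 2 - x1 ^ 2) / 2 - (S0 - x0) * p0 - (S1 - x1) * p1 := by ring
  rw [e]
  rw [abs_le] at hU hv a0 a1 b0 b1 ⊢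
  constructor <;> linarith [hU.1, hU.2, hv.1, hv.2, a0.1, a0.2, a1.1, a1.2, b0.1, b0.2, b1.1, b1.2]

/-- **[PQ3]** -/
theorem pQ3 : PQ3 := by
  intro K hK
  refine ⟨165 * K ^ 2, by nlinarith, ?_⟩
  intro s u T T0 π π' o o' ρ δ k0 hρ0 hρ1 hδ hs hu hT hsu hq hπ hπ' hk0 hk0' hk1 hp hp' hsep
  obtain ⟨k1, hk1⟩ := hk1
  have h01 : k0 ≠ k1 := by
    rintro rfl
    rw [hk0', abs_zero] at hk1
    linarith
  obtain ⟨k2, h02, h12⟩ := ex3 k0 k1 h01
  obtain ⟨d, hd, hline⟩ := line3 π π' h01 h02 h12 hπ hπ' hk0 hk0' hk1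
  have hKρ : 0 ≤ K * ρ := by positivity
  have hK2 : K ≤ K ^ 2 := by nlinarith
  have hKK : K * ρ ≤ K ^ 2 * ρ := mul_le_mul_of_nonneg_right hK2 hρ0
  -- differences
  set a : Fin 3 → Fin 3 → ℝ := fun i k => u i k - u 0 k with ha
  have hplane : ∀ i k, |a i k - a i k2 * d k| ≤ 12 * (K * ρ) := by
    intro i k
    have g1 : |∑ k, π k * a i k| ≤ 2 * (K * ρ) := by
      have e : ∑ k, π k * a i k = (∑ k, π k * u i k - o) - (∑ k, π k * u 0 k - o) := by
        simp only [ha, mul_sub, Finset.sum_sub_distrib]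
        ring
      rw [e]
      calc _ ≤ |∑ k, π k * u i k - o| + |∑ k, π k * u 0 k - o| := abs_sub _ _
        _ ≤ 2 * (K * ρ) := by linarith [hp i, hp 0]
    have g2 : |∑ k, π' k * a i k| ≤ 2 * (K * ρ) := by
      have e : ∑ k, π' k * a i k = (∑ k, π' k * u i k - o') - (∑ k, π' k * u 0 k - o') := by
        simp only [ha, mul_sub, Finset.sum_sub_distrib]
        ring
      rw [e]
      calc _ ≤ |∑ k, π' k * u i k - o'| + |∑ k, π' k * u 0 k - o'| := abs_sub _ _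
        _ ≤ 2 * (K * ρ) := by linarith [hp' i, hp' 0]
    have := hline (a i) _ g1 g2 k
    linarith
  set e : Fin 2 → ℝ := fun j => ∑ k, T j k * d k with he
  set R := 38 * (K ^ 2 * ρ) with hR
  have hRdef : R = 38 * (K ^ 2 * ρ) := hR
  have hR0 : 0 ≤ R := by
    rw [hR]
    positivity
  have hlin : ∀ i j, |(s i j - s 0 j) - a i k2 * e j| ≤ R := by
    intro i j
    have g1 : |(s i j - s 0 j) - ∑ k, T j k * a i k| ≤ 2 * (K * ρ) := by
      have e1 : (s i j - s 0 j) - ∑ k, T j k * a i k =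
          (s i j - (∑ k, T j k * u i k + T0 j)) - (s 0 j - (∑ k, T j k * u 0 k + T0 j)) := by
        simp only [ha, mul_sub, Finset.sum_sub_distrib]
        ring
      rw [e1]
      calc _ ≤ _ := abs_sub _ _
        _ ≤ 2 * (K * ρ) := by linarith [hsu i j, hsu 0 j]
    have g2 : |∑ k, T j k * a i k - a i k2 * e j| ≤ 36 * (K ^ 2 * ρ) := by
      have e1 : ∑ k, T j k * a i k - a i k2 * e j = ∑ k, T j k * (a i k - a i k2 * d k) := by
        simp only [he, Finset.mul_sum, mul_sub, Finset.sum_sub_distrib]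
        congr 1
        exact Finset.sum_congr rfl fun k _ => by ring
      rw [e1]
      refine (Finset.abs_sum_le_sum_abs _ _).trans ?_
      have g3 : ∀ k ∈ (univ : Finset (Fin 3)), |T j k * (a i k - a i k2 * d k)| ≤
          12 * (K ^ 2 * ρ) := by
        intro k _
        rw [abs_mul]
        calc _ ≤ K * (12 * (K * ρ)) :=
              mul_le_mul (hT j k) (hplane i k) (abs_nonneg _) (by linarith)
          _ = 12 * (K ^ 2 * ρ) := by ring
      refine (Finset.sum_le_card_nsmul _ _ _ g3).trans (le_of_eq ?_)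
      rw [Finset.card_univ, Fintype.card_fin, nsmul_eq_mul]
      push_cast
      ring
    have e2 : (s i j - s 0 j) - a i k2 * e j = ((s i j - s 0 j) - ∑ k, T j k * a i k) +
        (∑ k, T j k * a i k - a i k2 * e j) := by ring
    rw [e2]
    calc _ ≤ _ := abs_add_le _ _
      _ ≤ R := by rw [hRdef]; linarith
  -- the quadratic polynomial
  set E := e 0 ^ 2 + e 1 ^ 2 with hE
  set b := e 0 * s 0 0 + e 1 * s 0 1 - d 1 with hb
  set e0 := 1700 * K ^ 4 * ρ with he0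
  have hK4 : K ^ 2 ≤ K ^ 4 := by nlinarith
  have hquad : ∀ i, |a i k2 ^ 2 * E / 2 + b * a i k2| ≤ e0 := by
    intro i
    have hS : ∀ j, |s i j - s 0 j| ≤ 2 := by
      intro j
      calc _ ≤ |s i j| + |s 0 j| := abs_sub _ _
        _ ≤ 2 := by linarith [hs i j, hs 0 j]
    have hU : |a i 1 - ((s i 0 - s 0 0) * (2 * s 0 0 + (s i 0 - s 0 0)) +
        (s i 1 - s 0 1) * (2 * s 0 1 + (s i 1 - s 0 1))) / 2| ≤ 2 * (K * ρ) := by
      have e1 : a i 1 - ((s i 0 - s 0 0) * (2 * s 0 0 + (s i 0 - s 0 0)) +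
        (s i 1 - s 0 1) * (2 * s 0 1 + (s i 1 - s 0 1))) / 2 =
        (u i 1 - (s i 0 ^ 2 + s i 1 ^ 2) / 2) - (u 0 1 - (s 0 0 ^ 2 + s 0 1 ^ 2) / 2) := by
        simp only [ha]
        ring
      rw [e1]
      calc _ ≤ _ := abs_sub _ _
        _ ≤ 2 * (K * ρ) := by linarith [hq i, hq 0]
    have h := quad (hS 0) (hS 1) (hs 0 0) (hs 0 1) (hlin i 0) (hlin i 1) hU (hplane i 1)
    have e1 : a i k2 ^ 2 * E / 2 + b * a i k2 = ((a i k2 * e 0) ^ 2 + (a i k2 * e 1) ^ 2) / 2 +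
        (a i k2 * e 0 * s 0 0 + a i k2 * e 1 * s 0 1 - a i k2 * d 1) := by
      rw [hE, hb]
      ring
    rw [e1]
    refine h.trans ?_
    have g1 : R ^ 2 ≤ 1444 * (K ^ 4 * ρ) := by
      have : R ^ 2 = 1444 * (K ^ 4 * ρ) * ρ := by
        rw [hRdef]
        ring
      rw [this]
      have h0 : 0 ≤ 1444 * (K ^ 4 * ρ) := by positivity
      calc _ ≤ 1444 * (K ^ 4 * ρ) * 1 := mul_le_mul_of_nonneg_left hρ1 h0
        _ = _ := mul_one _
    have g2 : K ^ 2 * ρ ≤ K ^ 4 * ρ := mul_le_mul_of_nonneg_right hK4 hρ0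
    rw [he0]
    have g3 : 0 ≤ K ^ 4 * ρ := by positivity
    have g4 : 6 * R ≤ 228 * (K ^ 4 * ρ) := by
      rw [hRdef]
      linarith
    have g5 : 2 * (K * ρ) + 12 * (K * ρ) ≤ 14 * (K ^ 4 * ρ) := by linarith
    linarith
  have hE0 : 0 ≤ E := by
    rw [hE]
    positivity
  have ha00 : a 0 k2 = 0 := by
    simp [ha]
  have hsq : Real.sqrt ρ ^ 2 = ρ := Real.sq_sqrt hρ0
  have hsq0 := Real.sqrt_nonneg ρ
  have hsq1 : Real.sqrt ρ ≤ 1 := by
    have := Real.sqrt_le_sqrt hρ1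
    rwa [Real.sqrt_one] at this
  have hρs : ρ ≤ Real.sqrt ρ := by nlinarith
  rcases le_or_gt δ (4 * R) with hcase | hcase
  · have g1 : K ^ 2 * ρ ≤ K ^ 2 * Real.sqrt ρ := mul_le_mul_of_nonneg_left hρs (by positivity)
    have g2 : 0 ≤ K ^ 2 * Real.sqrt ρ := by positivity
    rw [hRdef] at hcase
    linarith
  · have hδ0 : 0 < δ := by linarith
    have hpair : ∀ i j : Fin 3, i ≠ j → δ ^ 2 / 4 ≤ E * (a i k2 - a j k2) ^ 2 := by
      intro i j hij
      obtain ⟨k, hk⟩ := hsep i j hij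
      have g1 : |(s i k - s j k) - (a i k2 - a j k2) * e k| ≤ 2 * R := by
        have e1 : (s i k - s j k) - (a i k2 - a j k2) * e k =
            ((s i k - s 0 k) - a i k2 * e k) - ((s j k - s 0 k) - a j k2 * e k) := by ring
        rw [e1]
        calc _ ≤ _ := abs_sub _ _
          _ ≤ 2 * R := by linarith [hlin i k, hlin j k]
      have g2 : δ / 2 ≤ |(a i k2 - a j k2) * e k| := by
        have := abs_sub_abs_le_abs_sub (s i k - s j k) ((a i k2 - a j k2) * e k)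
        linarith
      have g3 : (δ / 2) ^ 2 ≤ ((a i k2 - a j k2) * e k) ^ 2 := by
        rw [← sq_abs ((a i k2 - a j k2) * e k)]
        exact pow_le_pow_left₀ (by linarith) g2 2
      have g4 : e k ^ 2 ≤ E := by
        rw [hE]
        have q0 := sq_nonneg (e 0)
        have q1 := sq_nonneg (e 1)
        fin_cases k
        · show e 0 ^ 2 ≤ _
          linarith
        · show e 1 ^ 2 ≤ _
          linarith
      have g5 : ((a i k2 - a j k2) * e k) ^ 2 ≤ E * (a i k2 - a j k2) ^ 2 := by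
        rw [mul_pow, mul_comm]
        exact mul_le_mul_of_nonneg_right g4 (sq_nonneg _)
      calc δ ^ 2 / 4 = (δ / 2) ^ 2 := by ring
        _ ≤ _ := g3.trans g5
    have p1 := hpair 1 0 (by decide)
    have p2 := hpair 2 0 (by decide)
    have p3 := hpair 1 2 (by decide)
    rw [ha00, sub_zero] at p1 p2
    have h3 := three hE0 (by positivity : 0 < δ ^ 2 / 4) p1 p2 p3 (hquad 1) (hquad 2)
    have h4 : δ ^ 2 ≤ (165 * K ^ 2 * Real.sqrt ρ) ^ 2 := by
      have e1 : (165 * K ^ 2 * Real.sqrt ρ) ^ 2 = 27225 * (K ^ 4 * ρ) := by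
        rw [mul_pow, mul_pow, hsq]
        ring
      rw [e1]
      rw [he0] at h3
      have : 0 ≤ K ^ 4 * ρ := by positivity
      linarith
    exact (le_abs_self δ).trans (abs_le_of_sq_le_sq h4 (by positivity))

end Vale.Agent.P106.U.End7.H420
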