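import Vale.Agent.P106.U.H420.Ty
import Vale.Agent.P106.U.H420.Q3

/-!
# P106 / U / H420 : blocks [PFew2], [PFew1] of END7

* `hc_two` : no three separated slopes given `Y` ⇒ few values of the digits.
* `pFew2`, `pFew1`.
-/

set_option autoImplicit false

namespace Vale.Agent.P106.U.End7.H420

open Finset Vale.Agent.P127 Vale.Agent.P127.Stk Vale.Agent.P127.U.CellD Vale.Agent.P106.W
open Vale.Agent.P106.U Vale.Agent.P106.U.End7
open Vale.Agent.P106.K (Ry RyOk bl Bin)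
open Vale.Agent.P122.C2 (fw fn)

/-- no three separated values given `Y` ⇒ few values of the digits -/
theorem hc_two {Ω : Type} [Fintype Ω] {ζ : Type} (P : Law Ω) (s : Ω → Fin 2 → ℝ) (Y : Ω → ζ) (b : ℕ)
    (h : ∀ ω : Fin 3 → Ω, (∀ i, 0 < P.w (ω i)) → (∀ i j, Y (ω i) = Y (ω j)) →
      ¬ ∀ i j, i ≠ j → ∃ k, (1 / 2 : ℝ) ^ b ≤ |s (ω i) k - s (ω j) k|) :
    hc P (fun ω => fl b (s ω)) Y ≤ 5 := by
  classical
  have h1 : hc P (fun ω => fl b (s ω)) Y ≤ Real.log ((50 : ℕ) : ℝ) := by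
    refine hc_le_log P _ Y 50 fun o ho => ?_
    -- a second centre
    set F : Ω → Finset (Fin 2 → ℤ) := fun a =>
      Fintype.piFinset fun k => Finset.Icc (fl b (s a) k - 2) (fl b (s a) k + 2) with hF
    have hFc : ∀ a, (F a).card = 25 := by
      intro a
      rw [hF, Fintype.card_piFinset]
      simp only [Fin.prod_univ_two, Int.card_Icc]
      have : ∀ x : ℤ, (x + 2 + 1 - (x - 2)).toNat = 5 := by
        intro x
        have : x + 2 + 1 - (x - 2) = 5 := by ring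
        rw [this]
        rfl
      simp only [this]
      norm_num
    have hFm : ∀ a x, (∀ k, |s x k - s a k| < (1 / 2 : ℝ) ^ b) → fl b (s x) ∈ F a := by
      intro a x hx
      rw [hF, Fintype.mem_piFinset]
      intro k
      have g := fl1_near (n := b) (x := s x k) (y := s a k) (hx k).le
      rw [Finset.mem_Icc]
      have g1 : fl b (s x) k = fl1 b (s x k) := rfl
      have g2 : fl b (s a) k = fl1 b (s a k) := rfl
      rw [g1, g2]
      rw [abs_le] at g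
      constructor <;> linarith [g.1, g.2]
    by_cases hex : ∃ a, 0 < P.w a ∧ Y a = Y o ∧ ∃ k, (1 / 2 : ℝ) ^ b ≤ |s a k - s o k|
    · obtain ⟨a, ha, hYa, k, hk⟩ := hex
      refine ⟨F o ∪ F a, ?_, ?_⟩
      · refine (Finset.card_union_le _ _).trans ?_
        rw [hFc, hFc]
      · intro x hx hYx
        rw [Finset.mem_union]
        by_contra hcon
        push Not at hcon
        have c1 : ∃ k, (1 / 2 : ℝ) ^ b ≤ |s x k - s o k| := by
          by_contra hc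
          push Not at hc
          exact hcon.1 (hFm o x hc)
        have c2 : ∃ k, (1 / 2 : ℝ) ^ b ≤ |s x k - s a k| := by
          by_contra hc
          push Not at hc
          exact hcon.2 (hFm a x hc)
        have c3 : ∃ k, (1 / 2 : ℝ) ^ b ≤ |s a k - s o k| := ⟨k, hk⟩
        have sym : ∀ u v, (∃ k, (1 / 2 : ℝ) ^ b ≤ |s u k - s v k|) →
            ∃ k, (1 / 2 : ℝ) ^ b ≤ |s v k - s u k| := by
          rintro u v ⟨k, hk⟩
          exact ⟨k, by rwa [abs_sub_comm]⟩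
        refine h ![o, a, x] ?_ ?_ ?_
        · intro i
          fin_cases i
          · exact ho
          · exact ha
          · exact hx
        · have e : ∀ i, Y ((![o, a, x] : Fin 3 → Ω) i) = Y o := by
            intro i
            fin_cases i
            · rfl
            · exact hYa
            · exact hYx
          intro i j
          rw [e i, e j]
        · intro i j hij
          fin_cases i <;> fin_cases j
          · exact absurd rfl hij
          · exact sym _ _ c3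
          · exact sym _ _ c1
          · exact c3
          · exact absurd rfl hij
          · exact sym _ _ c2
          · exact c1
          · exact c2
          · exact absurd rfl hij
    · push Not at hex
      refine ⟨F o, ?_, ?_⟩
      · rw [hFc]
        norm_num
      · intro x hx hYx
        exact hFm o x (hex x hx hYx)
  refine h1.trans ?_
  have h2 : Real.log ((50 : ℕ) : ℝ) ≤ Real.log (2 ^ (6 : ℕ) : ℝ) :=
    Real.log_le_log (by norm_num) (by norm_num)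
  have h3 : Real.log (2 ^ (6 : ℕ) : ℝ) = 6 * Real.log 2 := by
    rw [Real.log_pow]
    norm_num
  have := Real.log_two_lt_d9
  rw [h3] at h2
  linarith

theorem Q_le {Ω : Type} [Fintype Ω] {E : Env Ω} {P : Law Ω} (hS : E.Supp P) {ω : Ω}
    (hω : 0 < P.w ω) (k : Fin 3) : |E.Q ω k| ≤ 1 := by
  obtain ⟨hok, -, -⟩ := hS.ok ω hω
  have i1 := hS.inn ω hω
  rw [Cbx.in_iff] at i1
  rw [hS.u1] at i1
  obtain ⟨-, -, -, -, j5⟩ := i1
  have s0 := hok.2.1 0
  have s1 := hok.2.1 1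
  fin_cases k
  · show |fw E.B0.θ (E.l ω).s / 2| ≤ 1
    have hc0 := Real.abs_cos_le_one E.B0.θ
    have hs0 := Real.abs_sin_le_one E.B0.θ
    have g : |fw E.B0.θ (E.l ω).s| ≤ 2 := by
      unfold fw
      have e1 : |Real.cos E.B0.θ * (E.l ω).s 0| ≤ 1 := by
        rw [abs_mul]
        calc _ ≤ 1 * 1 := mul_le_mul hc0 s0 (abs_nonneg _) (by norm_num)
          _ = 1 := by norm_num
      have e2 : |Real.sin E.B0.θ * (E.l ω).s 1| ≤ 1 := by
        rw [abs_mul]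
        calc _ ≤ 1 * 1 := mul_le_mul hs0 s1 (abs_nonneg _) (by norm_num)
          _ = 1 := by norm_num
      exact (abs_add_le _ _).trans (by linarith)
    rw [abs_div, abs_of_pos (by norm_num : (0 : ℝ) < 2)]
    linarith
  · show |(∑ k, (E.l ω).s k ^ 2) / 2| ≤ 1
    have g1 := (sq_le_one_iff_abs_le_one _).2 s0
    have g2 := (sq_le_one_iff_abs_le_one _).2 s1
    rw [Fin.sum_univ_two, abs_of_nonneg (by positivity)]
    linarith
  · show |2 ^ E.q * E.B0.g1 (E.l ω).y (E.l ω).s (E.l ω).z| ≤ 1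
    rw [abs_mul, abs_of_pos (by positivity)]
    calc (2 : ℝ) ^ E.q * |E.B0.g1 (E.l ω).y (E.l ω).s (E.l ω).z| ≤ 2 ^ E.q * (1 / 2) ^ E.q :=
          mul_le_mul_of_nonneg_left j5 (by positivity)
      _ = 1 := by
        rw [← mul_pow]
        norm_num

theorem sq_small {C x : ℝ} {b : ℕ} (hC : 1 ≤ C) (hx : 0 ≤ x)
    (h : C * Real.sqrt x ≤ (1 / 2 : ℝ) ^ b) : x ≤ 1 ∧ (C * Real.sqrt x ≤ 1) := by
  have h1 : (1 / 2 : ℝ) ^ b ≤ 1 := pow_le_one₀ (by norm_num) (by norm_num)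
  have h2 := Real.sqrt_nonneg x
  have h3 : Real.sqrt x ≤ 1 := by nlinarith
  have h4 := Real.sq_sqrt hx
  exact ⟨by nlinarith, h.trans h1⟩

/-- **[PFew2]** -/
theorem pFew2 : PFew2 := by
  obtain ⟨C1, hC1, hTY⟩ := pTY
  obtain ⟨C, hC, hQ⟩ := pQ3 C1 hC1
  refine ⟨2 * C + 4, by linarith, ?_⟩
  intro Ω _ ζ E P Y π π' o o' k0 ρ b hS hYZ hρ hpl hb
  have hh0 : (0 : ℝ) < (1 / 2) ^ E.h := by positivity
  obtain ⟨hx1, -⟩ := sq_small (by linarith) (by linarith) hb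
  have hq1 : (1 / 2 : ℝ) ^ E.q ≤ 1 := pow_le_one₀ (by norm_num) (by norm_num)
  refine (hc_two P (fun ω => (E.l ω).s) Y b ?_).trans (by linarith)
  intro ω hω hY hsep
  have hZ : ∀ i, E.Zh E.h (ω i) = E.Zh E.h (ω 0) := fun i => hYZ _ _ (hω i) (hω 0) (hY i 0)
  obtain ⟨T, T0, hT, -, hT2⟩ := hTY E P hS (E.Zh E.h (ω 0))
  have hYi : ∀ i, Y (ω i) = Y (ω 0) := fun i => hY i 0
  have h0 := hpl (ω 0) (hω 0)
  set ρ' := ρ + (1 / 2 : ℝ) ^ E.h with hρ'
  have hρ'0 : 0 ≤ ρ' := by linarith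
  have hCρ : ρ' ≤ C1 * ρ' := le_mul_of_one_le_left hρ'0 hC1
  have hres := hQ (fun i => (E.l (ω i)).s) (fun i => E.Q (ω i))
    (fun i j => if j = 2 then T i 2 * (1 / 2 : ℝ) ^ E.q else T i j) T0 (π (Y (ω 0)))
    (π' (Y (ω 0))) (o (Y (ω 0))) (o' (Y (ω 0))) ρ' ((1 / 2 : ℝ) ^ b) (k0 (Y (ω 0)))
    hρ'0 hx1 (by positivity)
    (fun i j => (hS.ok _ (hω i)).1.2.1 j) (fun i j => Q_le hS (hω i) j)
    (fun i j => by
      split_ifs with hj
      · rw [abs_mul, abs_of_pos (by positivity : (0 : ℝ) < (1 / 2) ^ E.q)]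
        calc |T i 2| * (1 / 2 : ℝ) ^ E.q ≤ C1 * 1 :=
              mul_le_mul (hT i 2) hq1 (by positivity) (by linarith)
          _ = C1 := mul_one _
      · exact hT i j)
    (fun i k => by
      have g := hT2 (ω i) (hω i) (hZ i) k
      rw [Fin.sum_univ_three]
      have e1 : (if (0 : Fin 3) = 2 then T k 2 * (1 / 2 : ℝ) ^ E.q else T k 0) = T k 0 := by
        simp
      have e2 : (if (1 : Fin 3) = 2 then T k 2 * (1 / 2 : ℝ) ^ E.q else T k 1) = T k 1 := by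
        simp
      have e3 : (if (2 : Fin 3) = 2 then T k 2 * (1 / 2 : ℝ) ^ E.q else T k 2) =
          T k 2 * (1 / 2 : ℝ) ^ E.q := by simp
      rw [e1, e2, e3]
      have e4 : (E.l (ω i)).s k - (T k 0 * E.Q (ω i) 0 + T k 1 * E.Q (ω i) 1 +
          T k 2 * (1 / 2 : ℝ) ^ E.q * E.Q (ω i) 2 + T0 k) =
          (E.l (ω i)).s k - (T k 0 * E.Q (ω i) 0 + T k 1 * E.Q (ω i) 1 +
            T k 2 * ((1 / 2 : ℝ) ^ E.q * E.Q (ω i) 2) + T0 k) := by ring
      rw [e4]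
      refine g.trans ?_
      exact mul_le_mul_of_nonneg_left (by linarith) (by linarith))
    (fun i => by
      have e : E.Q (ω i) 1 - ((E.l (ω i)).s 0 ^ 2 + (E.l (ω i)).s 1 ^ 2) / 2 = 0 := by
        show (∑ k, (E.l (ω i)).s k ^ 2) / 2 - _ = 0
        rw [Fin.sum_univ_two]
        ring
      rw [e, abs_zero]
      linarith)
    h0.1 h0.2.1 (by rw [h0.2.2.1]; norm_num) h0.2.2.2.1 h0.2.2.2.2.1
    (fun i => by
      have g := (hpl (ω i) (hω i)).2.2.2.2.2.1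
      rw [hYi i] at g
      linarith)
    (fun i => by
      have g := (hpl (ω i) (hω i)).2.2.2.2.2.2
      rw [hYi i] at g
      linarith)
    hsep
  have h4 := Real.sqrt_nonneg ρ'
  have hbp : (0 : ℝ) < (1 / 2) ^ b := by positivity
  nlinarith

/-- **[PFew1]** -/
theorem pFew1 : PFew1 := by
  obtain ⟨C1, hC1, hTY⟩ := pTY
  obtain ⟨C, hC, hQ⟩ := pQ3 (2 * C1) (by linarith)
  refine ⟨2 * C + 4, by linarith, ?_⟩
  intro Ω _ ζ E P Y π o ρ b hS hYZ hρ hpl hb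
  have hh0 : (0 : ℝ) < (1 / 2) ^ E.h := by positivity
  have hq0 : (0 : ℝ) < (1 / 2) ^ E.q := by positivity
  set ρ' := ρ + (1 / 2 : ℝ) ^ E.h + (1 / 2 : ℝ) ^ E.q with hρ'
  obtain ⟨hx1, hx2⟩ := sq_small (x := ρ') (by linarith) (by linarith) hb
  have hρ'0 : 0 ≤ ρ' := by linarith
  have hsq := Real.sq_sqrt hρ'0
  have hsq0 := Real.sqrt_nonneg ρ'
  have hρ4 : ρ ≤ 1 / 4 := by
    have : Real.sqrt ρ' ≤ 1 / 4 := by nlinarith
    nlinarith
  refine (hc_two P (fun ω => (E.l ω).s) Y b ?_).trans (by linarith)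
  intro ω hω hY hsep
  have hZ : ∀ i, E.Zh E.h (ω i) = E.Zh E.h (ω 0) := fun i => hYZ _ _ (hω i) (hω 0) (hY i 0)
  obtain ⟨T, T0, hT, -, hT2⟩ := hTY E P hS (E.Zh E.h (ω 0))
  have hYi : ∀ i, Y (ω i) = Y (ω 0) := fun i => hY i 0
  have h0 := hpl (ω 0) (hω 0)
  have hCρ : ρ' ≤ C1 * ρ' := le_mul_of_one_le_left hρ'0 hC1
  obtain ⟨j0, hj0⟩ := h0.2.1
  have hj2 : j0 ≠ 2 := by
    rintro rfl
    have := h0.2.2.1
    rw [hj0] at this
    linarith
  have hq1 : (1 / 2 : ℝ) ^ E.q ≤ 1 := pow_le_one₀ (by norm_num) (by norm_num)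
  -- the lifted points
  have hu2 : ∀ i, |(1 / 2 : ℝ) ^ E.q * E.Q (ω i) 2| ≤ (1 / 2 : ℝ) ^ E.q := by
    intro i
    rw [abs_mul, abs_of_pos hq0]
    calc _ ≤ (1 / 2 : ℝ) ^ E.q * 1 := mul_le_mul_of_nonneg_left (Q_le hS (hω i) 2) hq0.le
      _ = _ := mul_one _
  have hres := hQ (fun i => (E.l (ω i)).s)
    (fun i => ![E.Q (ω i) 0, E.Q (ω i) 1, (1 / 2 : ℝ) ^ E.q * E.Q (ω i) 2]) T T0
    ![0, 0, 1] ![π (Y (ω 0)) 0, π (Y (ω 0)) 1, 0] 0 (o (Y (ω 0))) ρ' ((1 / 2 : ℝ) ^ b) 2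
    hρ'0 hx1 (by positivity)
    (fun i j => (hS.ok _ (hω i)).1.2.1 j)
    (fun i j => by
      fin_cases j
      · exact Q_le hS (hω i) 0
      · exact Q_le hS (hω i) 1
      · exact (hu2 i).trans hq1)
    (fun i j => (hT i j).trans (by linarith))
    (fun i k => by
      have g := hT2 (ω i) (hω i) (hZ i) k
      rw [Fin.sum_univ_three]
      refine g.trans ?_
      calc C1 * (1 / 2 : ℝ) ^ E.h ≤ C1 * ρ' := mul_le_mul_of_nonneg_left (by linarith) (by linarith)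
        _ ≤ 2 * C1 * ρ' := by linarith)
    (fun i => by
      have e : (![E.Q (ω i) 0, E.Q (ω i) 1, (1 / 2 : ℝ) ^ E.q * E.Q (ω i) 2] : Fin 3 → ℝ) 1 -
          ((E.l (ω i)).s 0 ^ 2 + (E.l (ω i)).s 1 ^ 2) / 2 = 0 := by
        show (∑ k, (E.l (ω i)).s k ^ 2) / 2 - _ = 0
        rw [Fin.sum_univ_two]
        ring
      rw [e, abs_zero]
      linarith)
    (fun k => by fin_cases k <;> simp)
    (fun k => by
      fin_cases k
      · exact h0.1 0
      · exact h0.1 1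
      · simp)
    (by simp; norm_num) rfl
    (by
      have hj01 : ∀ j : Fin 3, j ≠ 2 → j = 0 ∨ j = 1 := by decide
      rcases hj01 j0 hj2 with rfl | rfl
      · refine ⟨0, ?_⟩
        show 1 / 2 ≤ |π (Y (ω 0)) 0|
        rw [hj0]
        norm_num
      · refine ⟨1, ?_⟩
        show 1 / 2 ≤ |π (Y (ω 0)) 1|
        rw [hj0]
        norm_num)
    (fun i => by
      rw [Fin.sum_univ_three]
      show |0 * E.Q (ω i) 0 + 0 * E.Q (ω i) 1 + 1 * ((1 / 2 : ℝ) ^ E.q * E.Q (ω i) 2) - 0| ≤ _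
      have e : 0 * E.Q (ω i) 0 + 0 * E.Q (ω i) 1 + 1 * ((1 / 2 : ℝ) ^ E.q * E.Q (ω i) 2) - 0 =
        (1 / 2 : ℝ) ^ E.q * E.Q (ω i) 2 := by ring
      rw [e]
      have := hu2 i
      linarith)
    (fun i => by
      have g := (hpl (ω i) (hω i)).2.2.2
      have g2 := (hpl (ω i) (hω i)).2.2.1
      rw [hYi i] at g g2
      rw [Fin.sum_univ_three] at g ⊢
      show |π (Y (ω 0)) 0 * E.Q (ω i) 0 + π (Y (ω 0)) 1 * E.Q (ω i) 1 +
        0 * ((1 / 2 : ℝ) ^ E.q * E.Q (ω i) 2) - o (Y (ω 0))| ≤ _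
      have e : π (Y (ω 0)) 0 * E.Q (ω i) 0 + π (Y (ω 0)) 1 * E.Q (ω i) 1 +
        0 * ((1 / 2 : ℝ) ^ E.q * E.Q (ω i) 2) - o (Y (ω 0)) =
        (π (Y (ω 0)) 0 * E.Q (ω i) 0 + π (Y (ω 0)) 1 * E.Q (ω i) 1 +
          π (Y (ω 0)) 2 * E.Q (ω i) 2 - o (Y (ω 0))) - π (Y (ω 0)) 2 * E.Q (ω i) 2 := by ring
      rw [e]
      have g3 : |π (Y (ω 0)) 2 * E.Q (ω i) 2| ≤ ρ := by
        rw [abs_mul]
        calc _ ≤ ρ * 1 := mul_le_mul g2 (Q_le hS (hω i) 2) (abs_nonneg _) hρ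
          _ = ρ := mul_one _
      calc _ ≤ _ := abs_sub _ _
        _ ≤ 2 * C1 * ρ' := by linarith)
    hsep
  have hbp : (0 : ℝ) < (1 / 2) ^ b := by positivity
  nlinarith

end Vale.Agent.P106.U.End7.H420
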