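import Vale.Agent.P106.U.H420.NonA
import Mathlib.Data.Fin.Tuple.Basic

/-!
# P106 / U / H420 : `d + 1` copies are not near a hyperplane (helper420)

`pNon d : PNon d`.
-/

set_option autoImplicit false

namespace Vale.Agent.P106.U.EndA.Non

open Finset Vale.Agent.P127 Vale.Agent.P127.Stk Vale.Agent.P127.U.CellD Vale.Agent.P127.U.Mic

variable {d : ℕ}

/-! ### copies -/

section copies

variable {Ω : Type} [Fintype Ω] (R : Law Ω)

omit [Fintype Ω] in
theorem insertNth_upd {n : ℕ} (k : Fin (n + 1)) (x x' : Ω) (ρ : Fin n → Ω) :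
    Function.update (Fin.insertNth (α := fun _ => Ω) k x' ρ) k x =
      Fin.insertNth (α := fun _ => Ω) k x ρ := by
  funext i
  by_cases h : i = k
  · subst h
    rw [Function.update_self, Fin.insertNth_apply_same]
  · rw [Function.update_of_ne h]
    obtain ⟨j, rfl⟩ := Fin.exists_succAbove_eq h
    rw [Fin.insertNth_apply_succAbove, Fin.insertNth_apply_succAbove]

/-- one copy is integrated first -/
theorem pil_split {n : ℕ} (k : Fin (n + 1)) (f : (Fin (n + 1) → Ω) → ℝ) :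
    (TV.cop R (Fin (n + 1))).ex f =
      (TV.cop R (Fin n)).ex fun ρ => R.ex fun x => f (Fin.insertNth (α := fun _ => Ω) k x ρ) := by
  unfold Law.ex
  rw [← (Fin.insertNthEquiv (fun _ => Ω) k).sum_comp, Fintype.sum_prod_type, Finset.sum_comm]
  refine Finset.sum_congr rfl fun ρ _ => ?_
  rw [Finset.mul_sum]
  refine Finset.sum_congr rfl fun x _ => ?_
  have h1 : (TV.cop R (Fin (n + 1))).w (Fin.insertNth (α := fun _ => Ω) k x ρ) =
      R.w x * (TV.cop R (Fin n)).w ρ := by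
    show ∏ i, R.w (Fin.insertNth (α := fun _ => Ω) k x ρ i) = _
    rw [Fin.prod_univ_succAbove _ k, Fin.insertNth_apply_same]
    congr 1
    refine Finset.prod_congr rfl fun i _ => ?_
    rw [Fin.insertNth_apply_succAbove]
  show (TV.cop R (Fin (n + 1))).w (Fin.insertNth (α := fun _ => Ω) k x ρ) *
      f (Fin.insertNth (α := fun _ => Ω) k x ρ) = _
  rw [h1]
  ring

/-- an event whose probability is at most `s` when all copies but one are fixed -/
theorem pil_slice [Nonempty Ω] {n : ℕ} (k : Fin (n + 1)) (E : (Fin (n + 1) → Ω) → Prop) {s : ℝ}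
    (h : ∀ ω', R.ex (fun x => Law.ind (E (Function.update ω' k x))) ≤ s) :
    (TV.cop R (Fin (n + 1))).ex (fun ω' => Law.ind (E ω')) ≤ s := by
  rw [pil_split R k]
  obtain ⟨x'⟩ := ‹Nonempty Ω›
  have h1 : ∀ ρ : Fin n → Ω,
      R.ex (fun x => Law.ind (E (Fin.insertNth (α := fun _ => Ω) k x ρ))) ≤ s := fun ρ => by
    have h2 := h (Fin.insertNth (α := fun _ => Ω) k x' ρ)
    simp only [insertNth_upd] at h2
    exact h2
  calc _ ≤ (TV.cop R (Fin n)).ex fun _ => s := (TV.cop R (Fin n)).ex_mono fun ρ _ => h1 ρ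
    _ = s := (TV.cop R (Fin n)).ex_const s

end copies

/-! ### slabs -/

/-- rounded covector -/
noncomputable def rq (m : ℕ) (p : Fin d → ℝ) : Fin d → ℤ := fun l => ⌊2 ^ m * p l⌋

theorem okc_rq (m : ℕ) {p : Fin d → ℝ} (hp : ∀ i, |p i| ≤ 1) : okc m (rq m p) := by
  intro l
  have h1 := abs_le.1 (hp l)
  have h2 : (0 : ℝ) < 2 ^ m := by positivity
  rw [abs_le]
  constructor
  · refine Int.le_floor.2 ?_
    push_cast
    nlinarith
  · have h3 : ((rq m p l : ℤ) : ℝ) ≤ 2 ^ m := (Int.floor_le _).trans (by nlinarith)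
    exact_mod_cast h3

/-- the thin slab `|p . (y - y0)| < 2^-m` is covered by `2 d + 3` slabs -/
theorem cover (m : ℕ) (A : Fr d) (z x : Fin d → ℝ) (p y0 : Fin d → ℝ) (l : Fin d)
    (hl : p l = 1) (hz : ∀ k, |ap A x k - z k| ≤ 1)
    (h : |∑ i, (ap A x i - y0 i) * p i| < (1 / 2 : ℝ) ^ m) :
    ∃ r : Fin (2 * d + 3), sl m A x (l, rq m p,
      ⌊2 ^ m * ∑ i, cv m l (rq m p) i * z i + 2 ^ m * ∑ i, p i * (y0 i - z i) - (d + 1)⌋ +
        (r : ℕ)) := by
  have hm : (0 : ℝ) < 2 ^ m := by positivity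
  have hm1 : (2 : ℝ) ^ m * (1 / 2) ^ m = 1 := by rw [← mul_pow]; norm_num
  set c1 : ℝ := 2 ^ m * ∑ i, cv m l (rq m p) i * z i + 2 ^ m * ∑ i, p i * (y0 i - z i) with hc1
  -- the rounding error of the covector
  have h1 : ∀ i, |2 ^ m * (cv m l (rq m p) i - p i)| ≤ 1 := by
    intro i
    unfold cv
    by_cases hi : i = l
    · rw [if_pos hi, hi, hl, sub_self, mul_zero, abs_zero]
      exact zero_le_one
    · rw [if_neg hi, mul_sub, mul_div_cancel₀ _ hm.ne', abs_le]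
      unfold rq
      have h2 := Int.floor_le ((2 : ℝ) ^ m * p i)
      have h3 := Int.lt_floor_add_one ((2 : ℝ) ^ m * p i)
      constructor <;> linarith
  have h2 : nc m A l (rq m p) x - c1 =
      ∑ i, 2 ^ m * (cv m l (rq m p) i - p i) * (ap A x i - z i) +
        2 ^ m * ∑ i, (ap A x i - y0 i) * p i := by
    unfold nc
    rw [hc1, Finset.mul_sum, Finset.mul_sum, Finset.mul_sum, Finset.mul_sum,
      ← Finset.sum_add_distrib, ← Finset.sum_sub_distrib, ← Finset.sum_add_distrib]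
    exact Finset.sum_congr rfl fun i _ => by ring
  have h3 : |nc m A l (rq m p) x - c1| ≤ d + 1 := by
    rw [h2]
    refine (abs_add_le _ _).trans (add_le_add ?_ ?_)
    · refine (Finset.abs_sum_le_sum_abs _ _).trans ?_
      calc ∑ i : Fin d, |2 ^ m * (cv m l (rq m p) i - p i) * (ap A x i - z i)| ≤ ∑ _i : Fin d, (1 : ℝ) := by
            refine Finset.sum_le_sum fun i _ => ?_
            rw [abs_mul]
            exact mul_le_one₀ (h1 i) (abs_nonneg _) (hz i)
        _ = d := by simp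
    · rw [abs_mul, abs_of_pos hm]
      calc 2 ^ m * |∑ i, (ap A x i - y0 i) * p i| ≤ 2 ^ m * (1 / 2 : ℝ) ^ m :=
            mul_le_mul_of_nonneg_left h.le hm.le
        _ = 1 := hm1
  obtain ⟨h4, h5⟩ := abs_le.1 h3
  set r0 : ℤ := ⌊c1 - (d + 1)⌋ with hr0
  have h6 : r0 ≤ ⌊nc m A l (rq m p) x⌋ := Int.floor_le_floor (by linarith)
  have h7 : ⌊nc m A l (rq m p) x⌋ ≤ r0 + (2 * (d + 1) : ℕ) := by
    have h8 : c1 - (d + 1) + ((2 * (d + 1) : ℕ) : ℝ) = c1 + (d + 1) := by push_cast; ring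
    rw [hr0, ← Int.floor_add_natCast, h8]
    exact Int.floor_le_floor (by linarith)
  refine ⟨⟨(⌊nc m A l (rq m p) x⌋ - r0).toNat, by omega⟩, ?_⟩
  show ⌊nc m A l (rq m p) x⌋ = r0 + ((⌊nc m A l (rq m p) x⌋ - r0).toNat : ℤ)
  omega

/-! ### the hyperplanes -/

section planes

variable {Ω : Type} (A : Fr d) (Q : Ω → Fin d → ℝ)

/-- difference of two points -/
noncomputable def df (ω' : Fin (d + 1) → Ω) (j : Fin d) : Fin d → ℝ :=
  fun i => ap A (Q (ω' j.succ)) i - ap A (Q (ω' 0)) i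

/-- covector orthogonal to the first differences -/
noncomputable def pv (k : Fin d) (V : {j : Fin d // j < k} → Fin d → ℝ) : Fin d → ℝ :=
  (exists_orth k V).choose

theorem pv_le (k : Fin d) (V : {j : Fin d // j < k} → Fin d → ℝ) (i : Fin d) : |pv k V i| ≤ 1 :=
  (exists_orth k V).choose_spec.1 i

/-- index of the coordinate `1` -/
noncomputable def li (k : Fin d) (V : {j : Fin d // j < k} → Fin d → ℝ) : Fin d :=
  (exists_orth k V).choose_spec.2.1.choose

theorem pv_li (k : Fin d) (V : {j : Fin d // j < k} → Fin d → ℝ) : pv k V (li k V) = 1 :=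
  (exists_orth k V).choose_spec.2.1.choose_spec

theorem pv_orth (k : Fin d) (V : {j : Fin d // j < k} → Fin d → ℝ) (j : {j : Fin d // j < k}) :
    ∑ i, V j i * pv k V i = 0 := (exists_orth k V).choose_spec.2.2 j

/-- the first differences -/
noncomputable def Vk (ω' : Fin (d + 1) → Ω) (k : Fin d) : {j : Fin d // j < k} → Fin d → ℝ :=
  fun j => df A Q ω' j.1

/-- the copy `k + 1` is near the hyperplane of the previous ones -/
def Ek (m : ℕ) (k : Fin d) (ω' : Fin (d + 1) → Ω) : Prop :=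
  |∑ i, df A Q ω' k i * pv k (Vk A Q ω' k) i| < (1 / 2 : ℝ) ^ m

theorem Vk_upd (ω' : Fin (d + 1) → Ω) (k : Fin d) (x : Ω) :
    Vk A Q (Function.update ω' k.succ x) k = Vk A Q ω' k := by
  funext j i
  have h1 : j.1.succ ≠ k.succ := fun h => (Fin.succ_injective _ h ▸ j.2).false
  have h2 : (0 : Fin (d + 1)) ≠ k.succ := (Fin.succ_ne_zero k).symm
  unfold Vk df
  rw [Function.update_of_ne h1, Function.update_of_ne h2]

theorem df_upd (ω' : Fin (d + 1) → Ω) (k : Fin d) (x : Ω) (i : Fin d) :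
    df A Q (Function.update ω' k.succ x) k i = ap A (Q x) i - ap A (Q (ω' 0)) i := by
  have h2 : (0 : Fin (d + 1)) ≠ k.succ := (Fin.succ_ne_zero k).symm
  unfold df
  rw [Function.update_self, Function.update_of_ne h2]

/-- small determinant : one copy is near the hyperplane of the previous ones -/
theorem bad_sub {m c : ℕ} (hm : 1 ≤ m) (hc : d + d.factorial ≤ c) (ω' : Fin (d + 1) → Ω)
    (h : |(Matrix.of fun k i : Fin d => ap A (Q (ω' k.succ)) i - ap A (Q (ω' 0)) i).det| <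
      (1 / 2 : ℝ) ^ (c * m)) : ∃ k, Ek A Q m k ω' := by
  by_contra hcon
  push Not at hcon
  have h1 : ∀ k, (1 / 2 : ℝ) ^ m ≤ |∑ i, df A Q ω' k i * pv k (Vk A Q ω' k) i| := fun k =>
    not_lt.1 (hcon k)
  have h2 := prod_le_det (df A Q ω') (fun k => pv k (Vk A Q ω' k)) (fun j i => pv_le _ _ i)
    (fun i j hij => pv_orth j (Vk A Q ω' j) ⟨i, hij⟩)
  have h3 : ((1 / 2 : ℝ) ^ m) ^ d ≤ ∏ k, |∑ l, df A Q ω' k l * pv k (Vk A Q ω' k) l| := by
    calc ((1 / 2 : ℝ) ^ m) ^ d = ∏ _k : Fin d, (1 / 2 : ℝ) ^ m := by simp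
      _ ≤ _ := Finset.prod_le_prod (fun _ _ => by positivity) fun k _ => h1 k
  have h4 : |(Matrix.of (df A Q ω')).det| < (1 / 2 : ℝ) ^ (c * m) := h
  have h5 : (0 : ℝ) < d.factorial := by exact_mod_cast Nat.factorial_pos d
  have h6 : ((1 / 2 : ℝ) ^ m) ^ d < (1 / 2 : ℝ) ^ (c * m) * d.factorial :=
    (h3.trans h2).trans_lt (mul_lt_mul_of_pos_right h4 h5)
  have h7 : (1 / 2 : ℝ) ^ (c * m) ≤ (1 / 2 : ℝ) ^ ((d + d.factorial) * m) :=
    pow_le_pow_of_le_one (by norm_num) (by norm_num) (Nat.mul_le_mul_right m hc)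
  have h8 : (1 / 2 : ℝ) ^ ((d + d.factorial) * m) =
      ((1 / 2 : ℝ) ^ m) ^ d * (1 / 2 : ℝ) ^ (d.factorial * m) := by
    rw [← pow_mul, ← pow_add]
    congr 1
    ring
  have h9 : (1 / 2 : ℝ) ^ (d.factorial * m) * d.factorial ≤ 1 := by
    have k1 : (1 / 2 : ℝ) ^ (d.factorial * m) ≤ (1 / 2 : ℝ) ^ d.factorial :=
      pow_le_pow_of_le_one (by norm_num) (by norm_num) (Nat.le_mul_of_pos_right _ hm)
    have k2 : (d.factorial : ℝ) ≤ 2 ^ d.factorial := by
      exact_mod_cast Nat.lt_two_pow_self.le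
    calc (1 / 2 : ℝ) ^ (d.factorial * m) * d.factorial ≤
          (1 / 2 : ℝ) ^ d.factorial * 2 ^ d.factorial := by gcongr
      _ = 1 := by rw [← mul_pow]; norm_num
  have h10 : (0 : ℝ) < ((1 / 2 : ℝ) ^ m) ^ d := by positivity
  have h11 : (1 / 2 : ℝ) ^ (c * m) * d.factorial ≤ ((1 / 2 : ℝ) ^ m) ^ d := by
    calc (1 / 2 : ℝ) ^ (c * m) * d.factorial ≤
          (((1 / 2 : ℝ) ^ m) ^ d * (1 / 2 : ℝ) ^ (d.factorial * m)) * d.factorial := by
          rw [← h8]; gcongr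
      _ = ((1 / 2 : ℝ) ^ m) ^ d * ((1 / 2 : ℝ) ^ (d.factorial * m) * d.factorial) := by ring
      _ ≤ ((1 / 2 : ℝ) ^ m) ^ d * 1 := by gcongr
      _ = _ := mul_one _
  linarith

/-- the slabs of the covers -/
noncomputable def fam (m : ℕ) (z : Fin d → ℝ)
    (I : Fin d × (Fin (d + 1) → Ω) × Fin (2 * d + 3)) : Fin d × (Fin d → ℤ) × ℤ :=
  (li I.1 (Vk A Q I.2.1 I.1), rq m (pv I.1 (Vk A Q I.2.1 I.1)),
    ⌊2 ^ m * ∑ i, cv m (li I.1 (Vk A Q I.2.1 I.1)) (rq m (pv I.1 (Vk A Q I.2.1 I.1))) i * z i +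
      2 ^ m * ∑ i, pv I.1 (Vk A Q I.2.1 I.1) i * (ap A (Q (I.2.1 0)) i - z i) - (d + 1)⌋ +
      (I.2.2 : ℕ))

/-- one copy near the hyperplane of the previous ones -/
theorem slice_le [Fintype Ω] (R : Law Ω) (m : ℕ) (z : Fin d → ℝ)
    (hz : ∀ ω, 0 < R.w ω → ∀ k, |ap A (Q ω) k - z k| ≤ 1) {s : ℝ}
    (hs : ∀ I, R.ex (fun x => Law.ind (sl m A (Q x) (fam A Q m z I))) ≤ s) (k : Fin d)
    (ω' : Fin (d + 1) → Ω) :
    R.ex (fun x => Law.ind (Ek A Q m k (Function.update ω' k.succ x))) ≤ (2 * d + 3) * s := by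
  have h1 : ∀ x, 0 < R.w x → Law.ind (Ek A Q m k (Function.update ω' k.succ x)) ≤
      ∑ r : Fin (2 * d + 3), Law.ind (sl m A (Q x) (fam A Q m z (k, ω', r))) := by
    intro x hx
    by_cases hE : Ek A Q m k (Function.update ω' k.succ x)
    · rw [Law.ind_of hE]
      unfold Ek at hE
      rw [Vk_upd] at hE
      simp only [df_upd] at hE
      obtain ⟨r, hr⟩ := cover m A z (Q x) (pv k (Vk A Q ω' k)) (ap A (Q (ω' 0)))
        (li k (Vk A Q ω' k)) (pv_li _ _) (hz x hx) hE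
      have h2 : Law.ind (sl m A (Q x) (fam A Q m z (k, ω', r))) = 1 := Law.ind_of hr
      rw [← h2]
      exact Finset.single_le_sum (f := fun r => Law.ind (sl m A (Q x) (fam A Q m z (k, ω', r))))
        (fun _ _ => ind_nonneg _) (Finset.mem_univ r)
    · rw [Law.ind_not hE]
      exact Finset.sum_nonneg fun _ _ => ind_nonneg _
  refine (R.ex_mono h1).trans ?_
  have h3 : R.ex (fun x => ∑ r : Fin (2 * d + 3), Law.ind (sl m A (Q x) (fam A Q m z (k, ω', r)))) =
      ∑ r : Fin (2 * d + 3), R.ex (fun x => Law.ind (sl m A (Q x) (fam A Q m z (k, ω', r)))) := by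
    unfold Law.ex
    rw [Finset.sum_comm]
    exact Finset.sum_congr rfl fun _ _ => Finset.mul_sum _ _ _
  rw [h3]
  calc ∑ r : Fin (2 * d + 3), R.ex (fun x => Law.ind (sl m A (Q x) (fam A Q m z (k, ω', r)))) ≤
        ∑ _r : Fin (2 * d + 3), s := Finset.sum_le_sum fun r _ => hs _
    _ = (2 * d + 3) * s := by
        rw [Finset.sum_const, Finset.card_univ, Fintype.card_fin, nsmul_eq_mul]
        push_cast
        ring

/-- the bad event, one law -/
theorem bad_le [Fintype Ω] [Nonempty Ω] (R : Law Ω) {m c : ℕ} (hm : 1 ≤ m)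
    (hc : d + d.factorial ≤ c) (z : Fin d → ℝ)
    (hz : ∀ ω, 0 < R.w ω → ∀ k, |ap A (Q ω) k - z k| ≤ 1) {s : ℝ}
    (hs : ∀ I, R.ex (fun x => Law.ind (sl m A (Q x) (fam A Q m z I))) ≤ s) :
    (TV.cop R (Fin (d + 1))).ex (fun ω' =>
      Law.ind (|(Matrix.of fun k i : Fin d => ap A (Q (ω' k.succ)) i -
        ap A (Q (ω' 0)) i).det| < (1 / 2) ^ (c * m))) ≤ d * ((2 * d + 3) * s) := by
  have h1 : ∀ ω' : Fin (d + 1) → Ω, Law.ind (|(Matrix.of fun k i : Fin d => ap A (Q (ω' k.succ)) i -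
        ap A (Q (ω' 0)) i).det| < (1 / 2) ^ (c * m)) ≤ ∑ k, Law.ind (Ek A Q m k ω') := by
    intro ω'
    by_cases hE : |(Matrix.of fun k i : Fin d => ap A (Q (ω' k.succ)) i -
        ap A (Q (ω' 0)) i).det| < (1 / 2 : ℝ) ^ (c * m)
    · rw [Law.ind_of hE]
      obtain ⟨k, hk⟩ := bad_sub A Q hm hc ω' hE
      rw [← Law.ind_of hk]
      exact Finset.single_le_sum (f := fun k => Law.ind (Ek A Q m k ω'))
        (fun _ _ => ind_nonneg _) (Finset.mem_univ k)
    · rw [Law.ind_not hE]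
      exact Finset.sum_nonneg fun _ _ => ind_nonneg _
  refine ((TV.cop R (Fin (d + 1))).ex_mono fun ω' _ => h1 ω').trans ?_
  have h3 : (TV.cop R (Fin (d + 1))).ex (fun ω' => ∑ k, Law.ind (Ek A Q m k ω')) =
      ∑ k, (TV.cop R (Fin (d + 1))).ex (fun ω' => Law.ind (Ek A Q m k ω')) := by
    unfold Law.ex
    rw [Finset.sum_comm]
    exact Finset.sum_congr rfl fun _ _ => Finset.mul_sum _ _ _
  rw [h3]
  calc ∑ k, (TV.cop R (Fin (d + 1))).ex (fun ω' => Law.ind (Ek A Q m k ω')) ≤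
        ∑ _k : Fin d, (2 * d + 3) * s := Finset.sum_le_sum fun k _ =>
          pil_slice R k.succ _ fun ω' => slice_le A Q R m z hz hs k ω'
    _ = d * ((2 * d + 3) * s) := by
        rw [Finset.sum_const, Finset.card_univ, Fintype.card_fin, nsmul_eq_mul]

end planes

/-! ### the theorem -/

theorem prE_eq_ex {Ω : Type} [Fintype Ω] (P : Law Ω) (E : Ω → Prop) :
    prE P E = P.ex fun ω => Law.ind (E ω) := by
  classical
  unfold prE Law.ex
  rw [Finset.sum_filter]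
  refine Finset.sum_congr rfl fun ω _ => ?_
  show (if E ω then P.w ω else 0) = P.w ω * Law.ind (E ω)
  by_cases h : E ω
  · rw [if_pos h, Law.ind_of h, mul_one]
  · rw [if_neg h, Law.ind_not h, mul_zero]

theorem pNon_zero : PNon 0 := by
  refine ⟨0, ?_⟩
  intro Ω _ γ P D m A z Q e _ _ _
  have h2 : P.ex (fun ω => (TV.cop (P.cond D (D ω)) (Fin (0 + 1))).ex (fun ω' =>
      Law.ind (|(Matrix.of fun k i : Fin 0 => ap (A (D ω)) (Q (ω' k.succ)) i -
        ap (A (D ω)) (Q (ω' 0)) i).det| < (1 / 2) ^ (0 * m)))) = P.ex (fun _ => (0 : ℝ)) := by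
    refine P.ex_congr fun ω _ => ?_
    have h3 : ∀ ω' : Fin (0 + 1) → Ω, Law.ind (|(Matrix.of fun k i : Fin 0 =>
        ap (A (D ω)) (Q (ω' k.succ)) i - ap (A (D ω)) (Q (ω' 0)) i).det| < (1 / 2) ^ (0 * m)) =
        (0 : ℝ) := by
      intro ω'
      apply Law.ind_not
      rw [Matrix.det_isEmpty, abs_one, zero_mul, pow_zero]
      exact lt_irrefl 1
    simp only [h3]
    exact Law.ex_const _ 0
  rw [h2, P.ex_const]
  simp

theorem pNon (d : ℕ) : PNon d := by
  classical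
  rcases Nat.eq_zero_or_pos d with rfl | hd
  · exact pNon_zero
  refine ⟨d * (2 * d + 3) + (d + d.factorial), ?_⟩
  intro Ω _ γ P D m A z Q e hm hz hPl
  set c : ℕ := d * (2 * d + 3) + (d + d.factorial) with hc
  have hΩ : Nonempty Ω := by
    by_contra hcon
    rw [not_nonempty_iff] at hcon
    have h1 := P.sum_one
    rw [Finset.univ_eq_empty, Finset.sum_empty] at h1
    exact zero_ne_one h1
  have hd' : Nonempty (Fin d) := ⟨⟨0, hd⟩⟩
  -- the heaviest slab of the family, for each value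
  have hmax : ∀ g : γ, ∃ I : Fin d × (Fin (d + 1) → Ω) × Fin (2 * d + 3), ∀ I',
      (P.cond D g).ex (fun x => Law.ind (sl m (A g) (Q x) (fam (A g) Q m (z g) I'))) ≤
        (P.cond D g).ex (fun x => Law.ind (sl m (A g) (Q x) (fam (A g) Q m (z g) I))) := fun g =>
    Finite.exists_max _
  choose I hI using hmax
  set π : γ → Fin d × (Fin d → ℤ) × ℤ := fun g => fam (A g) Q m (z g) (I g) with hπ
  have hokc : ∀ g, okc m (π g).2.1 := fun g => okc_rq m (pv_le _ _)
  have h1 := hPl π hokc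
  -- the mass of the heaviest slabs
  have h2 : P.ex (fun ω => (P.cond D (D ω)).ex (fun x => Law.ind (sl m (A (D ω)) (Q x) (π (D ω))))) =
      prE P (fun ω => sl m (A (D ω)) (Q ω) (π (D ω))) := by
    rw [prE_eq_ex, ← ex_cond_ind P D]
    refine P.ex_congr fun ω hω => ?_
    refine Law.ex_congr _ fun x hx => ?_
    have h3 : D x = D ω := (Vale.Agent.P127.U.Pin.cond_supp P D (P.pr_pos D hω) hx).1
    rw [h3]
  have h0 : 0 ≤ prE P (fun ω => sl m (A (D ω)) (Q ω) (π (D ω))) := prE_nonneg _ _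
  have h4 : P.ex (fun ω => (TV.cop (P.cond D (D ω)) (Fin (d + 1))).ex (fun ω' =>
      Law.ind (|(Matrix.of fun k i : Fin d => ap (A (D ω)) (Q (ω' k.succ)) i -
        ap (A (D ω)) (Q (ω' 0)) i).det| < (1 / 2) ^ (c * m)))) ≤
      P.ex (fun ω => d * (2 * d + 3) *
        (P.cond D (D ω)).ex (fun x => Law.ind (sl m (A (D ω)) (Q x) (π (D ω))))) := by
    refine P.ex_mono fun ω hω => ?_
    have h5 := bad_le (A (D ω)) Q (P.cond D (D ω)) hm (show d + d.factorial ≤ c by omega)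
      (z (D ω)) (fun x hx k => ?_) (hI (D ω))
    · refine h5.trans (le_of_eq ?_)
      ring
    · obtain ⟨h3, h5⟩ := Vale.Agent.P127.U.Pin.cond_supp P D (P.pr_pos D hω) hx
      have h6 := hz x h5 k
      rw [h3] at h6
      exact h6
  refine h4.trans ?_
  rw [P.ex_const_mul, h2]
  have h7 : (d * (2 * d + 3) : ℝ) ≤ c := by
    rw [hc]
    push_cast
    have : (0 : ℝ) ≤ d.factorial := Nat.cast_nonneg _
    have h8 : (0 : ℝ) ≤ d := Nat.cast_nonneg _
    linarith
  exact mul_le_mul h7 h1 h0 (Nat.cast_nonneg _)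

end Vale.Agent.P106.U.EndA.Non
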