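import Vale.Agent.P106.U.H611.Props
import Mathlib.LinearAlgebra.Matrix.Block
import Mathlib.LinearAlgebra.Matrix.AbsoluteValue
import Mathlib.LinearAlgebra.Matrix.ToLin

/-!
# P106 / U / H420 : copies are not near a hyperplane, linear algebra (helper420)

* `exists_orth` : a normalised vector orthogonal to fewer than `d` vectors of `R^d`;
* `prod_le_det` : triangular determinant.
-/

set_option autoImplicit false

namespace Vale.Agent.P106.U.EndA.Non

open Finset

variable {d : ℕ}

/-- a normalised vector orthogonal to the given vectors of index `< k` -/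
theorem exists_orth (k : Fin d) (V : {j : Fin d // j < k} → Fin d → ℝ) :
    ∃ p : Fin d → ℝ, (∀ i, |p i| ≤ 1) ∧ (∃ l, p l = 1) ∧ ∀ j, ∑ i, V j i * p i = 0 := by
  classical
  have hlt : Module.finrank ℝ ({j : Fin d // j < k} → ℝ) < Module.finrank ℝ (Fin d → ℝ) := by
    rw [Module.finrank_fintype_fun_eq_card, Module.finrank_fintype_fun_eq_card]
    exact Fintype.card_subtype_lt (x := k) (lt_irrefl k)
  have h1 := LinearMap.ker_ne_bot_of_finrank_lt (f := (Matrix.of V).mulVecLin) hlt
  obtain ⟨x, hx, hx0⟩ := Submodule.exists_mem_ne_zero_of_ne_bot h1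
  have hV : ∀ j, ∑ i, V j i * x i = 0 := fun j => congrFun (LinearMap.mem_ker.1 hx) j
  have : Nonempty (Fin d) := ⟨k⟩
  obtain ⟨l, hl⟩ := Finite.exists_max (fun i => |x i|)
  have hl0 : 0 < |x l| := by
    by_contra hcon
    apply hx0
    funext i
    have h2 := hl i
    have h3 : |x i| ≤ 0 := h2.trans (not_lt.1 hcon)
    exact abs_eq_zero.1 (le_antisymm h3 (abs_nonneg _))
  have hl1 : x l ≠ 0 := abs_pos.1 hl0
  refine ⟨fun i => x i / x l, fun i => ?_, ⟨l, div_self hl1⟩, fun j => ?_⟩
  · rw [abs_div, div_le_one hl0]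
    exact hl i
  · have h2 : ∑ i, V j i * (x i / x l) = (∑ i, V j i * x i) / x l := by
      rw [Finset.sum_div]
      exact Finset.sum_congr rfl fun i _ => by ring
    rw [h2, hV j, zero_div]

/-- **triangular determinant** -/
theorem prod_le_det (v p : Fin d → Fin d → ℝ) (h1 : ∀ j i, |p j i| ≤ 1)
    (h0 : ∀ i j, i < j → ∑ l, v i l * p j l = 0) :
    ∏ k, |∑ l, v k l * p k l| ≤ |(Matrix.of v).det| * d.factorial := by
  classical
  set N : Matrix (Fin d) (Fin d) ℝ := Matrix.of fun l j => p j l with hN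
  have e1 : ((Matrix.of v) * N).det = ∏ k, ((Matrix.of v) * N) k k := by
    refine Matrix.det_of_isLowerTriangular _ ?_
    intro i j hij
    have hij' : i < j := hij
    rw [Matrix.mul_apply]
    exact h0 i j hij'
  have e2 : ∀ k, ((Matrix.of v) * N) k k = ∑ l, v k l * p k l := fun k => by
    rw [Matrix.mul_apply]
    rfl
  have e3 : |N.det| ≤ d.factorial := by
    have := Matrix.det_le (A := N) (abv := AbsoluteValue.abs) (x := (1 : ℝ)) (fun i j => h1 j i)
    simpa using this
  have e4 : ∏ k, |∑ l, v k l * p k l| = |(Matrix.of v).det| * |N.det| := by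
    rw [← abs_mul, ← Matrix.det_mul, e1, Finset.abs_prod]
    exact Finset.prod_congr rfl fun k _ => by rw [e2]
  rw [e4]
  exact mul_le_mul_of_nonneg_left e3 (abs_nonneg _)

end Vale.Agent.P106.U.EndA.Non
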