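import Vale.Agent.P106.U.H420.PhiI
import Vale.Agent.P106.U.H785.MtrF2
import Vale.Agent.P106.U.H61.Reg

/-!
# P106 / U / H420 : labels of the row [P1] (helper420)

* `hy_one` : `Mtd.Hy (4 K) {k}` for the data of a run, WITHOUT the deep lag (one index only).
* `kx L a t r` : the index of the label `(a, t, r)`: level `a`, own slope `F a - t`; `t = 0`: `r` line steps before the end.
  `lev_kx`, `f_kx`, `k_kx`, `k_kx_mono`.
* `Lb3`, `la3`; `pair_lab` : a sum over the pairs `(k, i)` is at most a sum over labels; `cnt_lab` : every index has at most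
  `B + 1` labels.
-/

set_option autoImplicit false

namespace Vale.Agent.P106.U.H420

open Finset Vale.Agent.P127 Vale.Agent.P127.Stk
open Vale.Agent.P127.U.CellD (q2 rd q2_pos q2_add q2_le q2_mul_pow)
open Vale.Agent.P106.U Vale.Agent.P106.U.Cell
open Vale.Agent.P106.U.H785.Mtr (Mtd OfR)
open Vale.Agent.P106.U.H823.PathP Vale.Agent.P106.U.H823.PathNum
open Vale.Agent.P106.U.H61.Reg (beg lev_sub k_sub f_sub J_sub_beg beg_le_J at_iff sum_pair)

/-! ### one index -/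

section one

variable {Ω : Type} [Fintype Ω] {τ υ π : Type} {R : S3.Run Ω τ υ} {D : Mtd Ω π} {p : S3.Run.Num} {K c' g' gU : ℝ}
  {ω : Ω} {k : ℕ}

/-- **the hypotheses of the true letters at one index** (no lag) -/
theorem hy_one (hD : OfR R D) (hok : R.Ok p K c' g' gU) (h1 : 1 ≤ K) (hω : 0 < R.Q.w ω)
    (hr0 : 4 * K ^ 2 * q2 (R.C.rk 0) ≤ 1) (hk : k ≤ R.n + p.J)
    (hpf : |R.al k ω - D.g k ω| * q2 (R.C.a k) ≤ K * q2 (D.rk k))
    (hrr : 192 * K ^ 2 * q2 (D.rr k) ≤ 1) : D.Hy (4 * K) {k} ω := by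
  have K0 : 0 < K := by linarith
  have e0 := OfR.hy_run (I := ∅) hD hok h1 hω hr0 (fun i hi => absurd hi (by simp)) (fun i hi => absurd hi (by simp))
    (fun i hi => absurd hi (by simp)) (fun i hi => absurd hi (by simp))
  have ok := hok.ok ω hω
  have agW := hok.agW ω hω 0 (Nat.zero_le _)
  have s0 := OfR.tW_near hok (Nat.zero_le (R.n + p.J)) ω
  have q0 := q2_pos (R.C.rk 0)
  have hal : |R.al k ω| * q2 (R.C.a k) ≤ K := hok.alB k hk ω hω
  have kap : |R.κ ω| ≤ 3 * K := by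
    have e := agW.ka
    have e1 := ok.k1 0
    have e2 := ok.a1 0
    have e3 : |(R.tW ω - R.C.s 0 ω) * (R.C.F 0 ω).al| ≤ K := by
      rw [abs_mul, mul_comm]
      exact (mul_le_mul_of_nonneg_left s0 (abs_nonneg _)).trans e2
    have e4 : K * q2 (R.C.rk 0) ≤ K := by nlinarith
    have e5 : ((R.C.F 0 ω).sh (R.tW ω - R.C.s 0 ω)).ka =
        (R.C.F 0 ω).ka - (R.tW ω - R.C.s 0 ω) * (R.C.F 0 ω).al := rfl
    rw [e5] at e
    show |(R.FW ω).ka| ≤ 3 * K
    rw [abs_le] at e e1 e3 ⊢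
    constructor <;> linarith [e.1, e.2, e1.1, e1.2, e3.1, e3.2]
  refine ⟨e0.v1, e0.w1, e0.p1, e0.n1, e0.n2, ?_, ?_, ?_, ?_, ?_, ?_⟩
  · rintro i rfl
    rw [hD.κ]
    unfold S3.kaL
    have e := OfR.tW_near hok hk ω
    have e3 : |R.al i ω * (R.tW ω - R.C.s i ω)| ≤ K := by
      rw [abs_mul]
      exact (mul_le_mul_of_nonneg_left e (abs_nonneg _)).trans hal
    refine (abs_add_le _ _).trans ?_
    linarith
  · rintro i rfl
    rw [hD.al, hD.a]
    linarith
  · rintro i rfl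
    rw [hD.al, hD.a]
    have := q2_pos (D.rk i)
    nlinarith
  · rintro i rfl j rfl _
    rw [sub_self, sub_self, zero_mul, sub_zero, abs_zero]
    have := q2_pos (D.rk j)
    positivity
  · rintro i rfl j rfl _
    rw [sub_self, abs_zero, zero_mul]
    have := q2_pos (D.rk j)
    positivity
  · rintro i rfl
    nlinarith

end one

/-! ### labels -/

section lab

variable (L : Lv)

/-- the index of the label `(a, t, r)` -/
def kx (a t r : ℕ) : ℕ := L.J a - (if t = 0 then min r (L.R a - L.Rm a) else (L.R a - L.Rm a) + t)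

theorem kx_le (a t r : ℕ) : kx L a t r ≤ L.J a := Nat.sub_le _ _

variable {L} {a t r : ℕ}

theorem sub_ok (ht : t ≤ L.F a - L.Fm a) :
    beg L a + (if t = 0 then min r (L.R a - L.Rm a) else (L.R a - L.Rm a) + t) ≤ L.J a := by
  have h1 := J_sub_beg L a
  have h2 := beg_le_J L a
  split_ifs <;> omega

theorem lev_kx (ht : t ≤ L.F a - L.Fm a) : L.lev (kx L a t r) = a := lev_sub L (sub_ok ht)

theorem f_kx (ht : t ≤ L.F a - L.Fm a) : L.f (kx L a t r) = L.F a - t := by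
  have h := f_sub L (sub_ok (r := r) ht)
  unfold kx
  rw [h]
  split_ifs with h0
  · subst h0; omega
  · omega

theorem k_kx (ht : t ≤ L.F a - L.Fm a) : L.k (kx L a t r) =
    if t = 0 then max (L.Rm a) (L.R a - r) else L.Rm a := by
  have h := k_sub L (sub_ok (r := r) ht)
  have h2 := L.Rm_le a
  unfold kx
  rw [h]
  split_ifs with h0
  · omega
  · omega

theorem le_kx (ht : t ≤ L.F a - L.Fm a) : beg L a ≤ kx L a t r := by
  have h := sub_ok (L := L) (r := r) ht
  unfold kx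
  omega

/-- the index is positive -/
theorem kx_pos (ht : t ≤ L.F a - L.Fm a) (h : 1 ≤ a ∨ t < L.F a) : 1 ≤ kx L a t r := by
  rcases h with h | h
  · have h1 := le_kx (L := L) (r := r) ht
    have h2 : a ≤ beg L a := by unfold beg; omega
    omega
  · have h3 := f_kx (L := L) (r := r) ht
    have h4 := L.sum_eq (kx L a t r)
    omega

/-- the line precision of the index grows with the line -/
theorem k_kx_mono {L' : Lv} (hF : L.F = L'.F) (hR : ∀ a, L.R a ≤ L'.R a) (ht : t ≤ L.F a - L.Fm a) :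
    L.k (kx L a t r) ≤ L'.k (kx L' a t r) := by
  have hFm : L'.Fm a = L.Fm a := by
    unfold Lv.Fm
    rw [hF]
  have hRm : L.Rm a ≤ L'.Rm a := by
    unfold Lv.Rm
    split_ifs
    · exact le_rfl
    · exact hR _
  rw [k_kx ht, k_kx (by rw [← hF, hFm]; exact ht)]
  have := hR a
  split_ifs <;> omega

end lab

/-! ### sums over labels -/

section sums

/-- the labels -/
def Lb3 (A B : ℕ) : Finset (ℕ × ℕ × ℕ) := range A ×ˢ range (B + 1) ×ˢ range (B + 1)

theorem card_Lb3 (A B : ℕ) : (Lb3 A B).card = A * ((B + 1) * (B + 1)) := by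
  unfold Lb3
  rw [card_product, card_product, card_range, card_range]

/-- the label of an index -/
def la3 (L : Lv) (k : ℕ) : ℕ × ℕ × ℕ :=
  (L.lev k, (L.J (L.lev k) - k) - (L.R (L.lev k) - L.Rm (L.lev k)),
    if L.J (L.lev k) - k ≤ L.R (L.lev k) - L.Rm (L.lev k) then L.J (L.lev k) - k else 0)

theorem la3_t (L : Lv) (k : ℕ) : (la3 L k).2.1 ≤ L.F (L.lev k) - L.Fm (L.lev k) := by
  have h1 := J_sub_beg L (L.lev k)
  have h2 := beg_le_J L (L.lev k)
  have h3 := H61.Reg.beg_le L k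
  show (L.J (L.lev k) - k) - (L.R (L.lev k) - L.Rm (L.lev k)) ≤ _
  omega

theorem kx_la3 (L : Lv) (k : ℕ) : kx L (la3 L k).1 (la3 L k).2.1 (la3 L k).2.2 = k := by
  have h1 := L.le_J_lev k
  show L.J (L.lev k) - (if (L.J (L.lev k) - k) - (L.R (L.lev k) - L.Rm (L.lev k)) = 0 then
      min (if L.J (L.lev k) - k ≤ L.R (L.lev k) - L.Rm (L.lev k) then L.J (L.lev k) - k else 0)
        (L.R (L.lev k) - L.Rm (L.lev k)) else
      (L.R (L.lev k) - L.Rm (L.lev k)) + ((L.J (L.lev k) - k) - (L.R (L.lev k) - L.Rm (L.lev k)))) = k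
  split_ifs <;> omega

open Classical in
/-- **a sum over the pairs is at most a sum over labels** -/
theorem pair_lab {Ω : Type} [Fintype Ω] {τ υ : Type} {D : PN} {R : S3.Run Ω τ υ} {p : S3.Run.Num} (H : Has D R p)
    {B d A : ℕ} (S : Finset ℕ) (hS : ∀ k ∈ S, k ≤ D.N) (hA : ∀ k ∈ S, D.L.lev k < A) (g : ℕ → ℕ → ℝ)
    (V : ℕ × ℕ × ℕ → Prop) (hg : ∀ k i, 0 ≤ g k i)
    (hV : ∀ k ∈ S, k < D.L.J (D.L.lev k + d) → D.L.J (D.L.lev k + d) ≤ k + B → D.L.J (D.L.lev k + d) < D.N →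
      V (la3 D.L k)) :
    ∑ k ∈ S, ∑ i ∈ S3.At' R p B d k, g k i ≤ ∑ y ∈ Lb3 A B,
      if V y then g (kx D.L y.1 y.2.1 y.2.2) (D.L.J (y.1 + d)) else 0 := by
  set h : ℕ × ℕ × ℕ → ℝ := fun y => if V y then g (kx D.L y.1 y.2.1 y.2.2) (D.L.J (y.1 + d)) else 0 with hh
  have h0 : ∀ y, 0 ≤ h y := by
    intro y
    simp only [hh]
    split_ifs
    · exact hg _ _
    · exact le_rfl
  set S' := S.filter fun k => k < D.L.J (D.L.lev k + d) ∧ D.L.J (D.L.lev k + d) ≤ k + B ∧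
    D.L.J (D.L.lev k + d) < D.N with hS'
  have e1 : ∑ k ∈ S, ∑ i ∈ S3.At' R p B d k, g k i = ∑ k ∈ S', h (la3 D.L k) := by
    rw [hS', Finset.sum_filter]
    refine Finset.sum_congr rfl fun k hk => ?_
    rw [H61.Reg.sum_at H (hS k hk)]
    by_cases hc : k < D.L.J (D.L.lev k + d) ∧ D.L.J (D.L.lev k + d) ≤ k + B ∧ D.L.J (D.L.lev k + d) < D.N
    · rw [if_pos hc, if_pos hc]
      simp only [hh]
      rw [if_pos (hV k hk hc.1 hc.2.1 hc.2.2), kx_la3]
      rfl
    · rw [if_neg hc, if_neg hc]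
  have inj : Set.InjOn (la3 D.L) (S' : Set ℕ) := by
    intro k _ k' _ e
    rw [← kx_la3 D.L k, e, kx_la3]
  rw [e1, ← Finset.sum_image (f := h) inj]
  refine Finset.sum_le_sum_of_subset_of_nonneg ?_ fun y _ _ => h0 y
  intro y hy
  obtain ⟨k, hk, rfl⟩ := Finset.mem_image.1 hy
  rw [hS', Finset.mem_filter] at hk
  have h3 : D.L.J (D.L.lev k) ≤ D.L.J (D.L.lev k + d) := D.L.J_mono.monotone (Nat.le_add_right _ _)
  have h4 := hA k hk.1
  have h5 := hk.2.2.1
  unfold Lb3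
  rw [Finset.mem_product, Finset.mem_product, Finset.mem_range, Finset.mem_range, Finset.mem_range]
  refine ⟨h4, ?_, ?_⟩
  · show (D.L.J (D.L.lev k) - k) - (D.L.R (D.L.lev k) - D.L.Rm (D.L.lev k)) < B + 1
    omega
  · show (if D.L.J (D.L.lev k) - k ≤ D.L.R (D.L.lev k) - D.L.Rm (D.L.lev k) then D.L.J (D.L.lev k) - k else 0) < B + 1
    split_ifs <;> omega

open Classical in
/-- every index has at most `B + 1` labels -/
theorem cnt_lab (L : Lv) {A B : ℕ} (V : ℕ × ℕ × ℕ → Prop) (hV : ∀ y, V y → y.2.1 ≤ L.F y.1 - L.Fm y.1)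
    (T : Finset ℕ) (hT : ∀ y, V y → kx L y.1 y.2.1 y.2.2 ∈ T) (e : ℕ → ℝ) (he : ∀ k, 0 ≤ e k) :
    ∑ y ∈ Lb3 A B, (if V y then e (kx L y.1 y.2.1 y.2.2) else 0) ≤ (B + 1 : ℝ) * ∑ k ∈ T, e k := by
  rw [← Finset.sum_filter]
  have hmap : ∀ y ∈ (Lb3 A B).filter V, kx L y.1 y.2.1 y.2.2 ∈ T := fun y hy => hT y (Finset.mem_filter.1 hy).2
  rw [← Finset.sum_fiberwise_of_maps_to hmap, Finset.mul_sum]
  refine Finset.sum_le_sum fun k _ => ?_
  have hc : (((Lb3 A B).filter V).filter fun y => kx L y.1 y.2.1 y.2.2 = k).card ≤ B + 1 := by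
    have hsub : ((Lb3 A B).filter V).filter (fun y => kx L y.1 y.2.1 y.2.2 = k) ⊆
        (range (B + 1)).image fun r => (L.lev k, L.F (L.lev k) - L.f k, r) := by
      intro y hy
      rw [Finset.mem_filter, Finset.mem_filter] at hy
      obtain ⟨⟨hy1, hy2⟩, hy3⟩ := hy
      have ht := hV y hy2
      have e1 := lev_kx (L := L) (r := y.2.2) ht
      have e2 := f_kx (L := L) (r := y.2.2) ht
      rw [hy3] at e1 e2
      rw [Finset.mem_image]
      unfold Lb3 at hy1
      rw [Finset.mem_product, Finset.mem_product] at hy1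
      refine ⟨y.2.2, hy1.2.2, ?_⟩
      refine Prod.ext e1 (Prod.ext ?_ rfl)
      show L.F (L.lev k) - L.f k = y.2.1
      rw [e1, e2]
      have := L.Fm_le y.1
      omega
    refine (Finset.card_le_card hsub).trans (Finset.card_image_le.trans ?_)
    rw [Finset.card_range]
  calc ∑ y ∈ ((Lb3 A B).filter V).filter (fun y => kx L y.1 y.2.1 y.2.2 = k), e (kx L y.1 y.2.1 y.2.2) =
      ∑ _y ∈ ((Lb3 A B).filter V).filter (fun y => kx L y.1 y.2.1 y.2.2 = k), e k :=
        Finset.sum_congr rfl fun y hy => by rw [(Finset.mem_filter.1 hy).2]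
    _ = ((((Lb3 A B).filter V).filter fun y => kx L y.1 y.2.1 y.2.2 = k).card : ℝ) * e k := by
        rw [Finset.sum_const, nsmul_eq_mul]
    _ ≤ (B + 1 : ℝ) * e k := mul_le_mul_of_nonneg_right (by exact_mod_cast hc) (he k)

end sums

end Vale.Agent.P106.U.H420
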