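import Vale.Agent.P106.U.H420.P1Lab
import Vale.Agent.P106.U.H122.SmC

/-!
# P106 / U / H420 : the row [P1] of `S3.F2o` over helper565's runs (helper420)

* `Fam1` : family of the data `C x e : C2 Ω` (cap `b0 + x s`, value `e` of the word `w x`), good words `G x` (decreasing),
  `k0` = function of the level, the same at all caps.
* `Ul` : the label `(a, t, r)` is alive at the cap `x` (interval of caps).
* `lab_sum` : the sum over the caps at one label; **`p1_row`** : the sum over the caps of the sum (P1), in the mean over the words.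
-/

set_option autoImplicit false

namespace Vale.Agent.P106.U.H420

open Finset Vale.Agent.P127 Vale.Agent.P127.Stk Vale.Agent.P127.U
open Vale.Agent.P127.U.CellD (q2 rd q2_pos q2_add q2_le q2_mul_pow)
open Vale.Agent.P106.U Vale.Agent.P106.U.Cell
open Vale.Agent.P106.U.H785.Mtr (Mtd OfR)
open Vale.Agent.P106.U.H823.PathP Vale.Agent.P106.U.H823.PathNum
open Vale.Agent.P106.U.S3 (LTh LDk)
open Vale.Agent.P106.U.H565 (C0 C1 C2)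
open Vale.Agent.P106.U.H470.Fib (cond_supp)
open Vale.Agent.P106.U.LinkR Vale.Agent.P106.U.H823.NumG Vale.Agent.P106.U.H449

/-- before the stop -/
theorem n_lt (D : PN) {i : ℕ} (h1 : D.m * D.L.lev i < D.Ad) (h2 : D.r0 + D.m * D.L.k i < D.QK) : i < D.n := by
  by_contra h
  have h' : D.n ≤ i := not_lt.1 h
  rcases D.n_spec with h3 | h3
  · have := Nat.mul_le_mul_left D.m (D.L.lev_mono h')
    omega
  · have := Nat.mul_le_mul_left D.m (D.L.k_mono h')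
    omega

section

variable {Ω : Type} [Fintype Ω] {W : Type}

/-- own slope of the path, blocks -/
noncomputable def Fo (c : C1 Ω) (a : ℕ) : ℕ := Rw c.I.pm.n c.E1 0 a + 2

/-- own slope at the level before -/
noncomputable def Fmo (c : C1 Ω) (a : ℕ) : ℕ := if a = 0 then 0 else Fo c (a - 1)

variable {c : C1 Ω} {X : C2 Ω}

theorem D_F (h : X.toC1 = c) : X.D.L.F = Fo c := by subst h; rfl

theorem D_Fm (h : X.toC1 = c) (a : ℕ) : X.D.L.Fm a = Fmo c a := by subst h; rfl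

theorem D_m (h : X.toC1 = c) : X.D.m = c.I.m := by subst h; rfl

theorem D_r0 (h : X.toC1 = c) : X.D.r0 = c.I.rs := by subst h; rfl

theorem D_Ad (h : X.toC1 = c) : X.D.Ad = c.I.num.A := by subst h; rfl

theorem D_QK (h : X.toC1 = c) : X.D.QK = c.I.num.QK := by subst h; rfl

theorem D_R : X.D.L.R = X.RC := rfl

/-- `Has` for the run with the prefix letter -/
theorem ehas {hm : 3 ≤ X.I.m} {Rm : ℕ} {cc : ℝ} {Ac rc : ℕ} (H : X.Hyp Rm cc Ac rc) : Has X.D (X.erun hm) X.num := by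
  have h := C2.has H
  exact { m := h.m, r0 := h.r0, n := h.n, a := h.a, rf := h.rf, rk := h.rk, rI := h.rI, J := h.J, A := h.A, QK := h.QK,
          QF := h.QF, B₁ := h.B₁, J1 := h.J1, J3 := h.J3, s := h.s, Aw := h.Aw, Ah := h.Ah, A' := h.A', QFq := h.QFq,
          rK := h.rK, QKr := h.QKr }

/-- **the family of the data** -/
structure Fam1 (c : C1 Ω) (w : ℕ → Ω → W) (C : ℕ → W → C2 Ω) (hm : ∀ x e, 3 ≤ (C x e).I.m) (G : ℕ → Ω → Prop)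
    (κ0 k0 : ℕ → W → ℕ → ℕ) (b0 s T : ℕ) (K : ℝ) : Prop where
  hC : ∀ x e, (C x e).toC1 = c
  hW : ∀ x, Fn c.Q1 (w x) (w (x + 1))
  hG : ∀ x, Fn c.Q1 (G x) (w x)
  hGd : ∀ x x' ω, x ≤ x' → x' < T → 0 < c.Q1.w ω → G x' ω → G x ω
  hQ : ∀ x < T, ∀ ω, 0 < c.Q1.w ω → (C x (w x ω)).Q = c.Q1.cond (w x) (w x ω)
  hb : ∀ x < T, ∀ ω, 0 < c.Q1.w ω → (C x (w x ω)).b1 = b0 + x * s
  hR : ∀ x x', x ≤ x' → x' < T → ∀ ω, 0 < c.Q1.w ω → ∀ a, (C x (w x ω)).RC a ≤ (C x' (w x' ω)).RC a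
  hk : ∀ x e, Monotone (k0 x e)
  hl : ∀ x e i, k0 x e i ≤ (C x e).D.L.k ((C x e).D.ix i)
  hk0 : ∀ x e i, k0 x e i = κ0 x e ((C x e).D.li i)
  hκ : ∀ x x', x ≤ x' → x' < T → ∀ ω, 0 < c.Q1.w ω → κ0 x (w x ω) = κ0 x' (w x' ω)
  hyp : ∀ x < T, ∀ ω, 0 < c.Q1.w ω → G x ω → ∃ (Rm : ℕ) (cc : ℝ) (Ac rc : ℕ), (C x (w x ω)).Hyp Rm cc Ac rc
  ok : ∀ x < T, ∀ ω, 0 < c.Q1.w ω → G x ω → ∃ c' g' gU : ℝ,
    ((C x (w x ω)).erun (hm x (w x ω))).Ok (C x (w x ω)).num K c' g' gU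

namespace Fam1

variable {w : ℕ → Ω → W} {C : ℕ → W → C2 Ω} {hm : ∀ x e, 3 ≤ (C x e).I.m} {G : ℕ → Ω → Prop}
  {κ0 k0 : ℕ → W → ℕ → ℕ} {b0 s T : ℕ} {K : ℝ}

/-- the data `mt0` of the cap `x` and the value `e` -/
noncomputable def M (Fm : Fam1 c w C hm G κ0 k0 b0 s T K) (Bb μ : ℕ) (o : Fin 7 → ℝ) (o' : ℕ → ℝ) (x : ℕ) (e : W) :
    Mtd Ω ((ℕ → ℤ → Option ℤ) × ℤ × ℤ) :=
  S3.mt0 ((C x e).erun (hm x e)) ((C x e).pfd (hm x e) (k0 x e) (Fm.hk x e) (Fm.hl x e) Bb) μ o o'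

variable (Fm : Fam1 c w C hm G κ0 k0 b0 s T K) {Bb B μ : ℕ} {o : Fin 7 → ℝ} {o' : ℕ → ℝ} {x : ℕ} {e : W} {ω : Ω}

theorem M_a (i : ℕ) : (Fm.M Bb μ o o' x e).a i = c.I.m * (C x e).D.li i := by
  have := D_m (Fm.hC x e)
  show (C x e).D.m * _ = _
  rw [this]

theorem M_rf (i : ℕ) : (Fm.M Bb μ o o' x e).rf i = (C x e).D.lf i := rfl

theorem M_rk (i : ℕ) : (Fm.M Bb μ o o' x e).rk i = c.I.rs + c.I.m * κ0 x e ((C x e).D.li i) := by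
  show (C x e).D.r0 + (C x e).D.m * k0 x e i = _
  rw [Fm.hk0, D_r0 (Fm.hC x e), D_m (Fm.hC x e)]

theorem M_rr (i : ℕ) : (Fm.M Bb μ o o' x e).rr i = c.I.rs + c.I.m * κ0 x e ((C x e).D.li i) - μ / 2 := by
  show (Fm.M Bb μ o o' x e).rk i - μ / 2 = _
  rw [Fm.M_rk]

theorem M_μ : (Fm.M Bb μ o o' x e).μ = μ := rfl

include Fm in
theorem lf_eq' {i : ℕ} (h : i ≤ (C x e).D.N) : (C x e).D.lf i = c.I.rs + c.I.m * (C x e).D.L.f i := by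
  rw [PN.lf_eq _ h, D_r0 (Fm.hC x e), D_m (Fm.hC x e)]

/-- `Hy` at every index of a good word -/
theorem M_hy (h1 : 1 ≤ K) (hB : (100 * K) ^ 20 ≤ (B : ℝ)) (hr : 100 * (c.I.m * B) ≤ c.I.rs) (hm1 : 1 ≤ c.I.m)
    (hμB : μ ≤ B) (hIB : B ≤ c.I.B) (hx : x < T) (hω : 0 < c.Q1.w ω) (hG : G x ω) {ω' : Ω} (hω' : 0 < c.Q1.w ω')
    (hw : w x ω' = w x ω) {k : ℕ} (hk : k ≤ (C x (w x ω)).D.N) : (Fm.M Bb μ o o' x (w x ω)).Hy (4 * K) {k} ω' := by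
  obtain ⟨Rm, cc, Ac, rc, H⟩ := Fm.hyp x hx ω hω hG
  obtain ⟨c', g', gU, hok⟩ := Fm.ok x hx ω hω hG
  have hh := ehas (hm := hm x (w x ω)) H
  have eI : (C x (w x ω)).I = c.I := by rw [← Fm.hC x (w x ω)]
  have ers : ((C x (w x ω)).erun (hm x (w x ω))).r0 = c.I.rs := by
    show (C x (w x ω)).I.rs = _
    rw [eI]
  have hp : 0 < ((C x (w x ω)).erun (hm x (w x ω))).Q.w ω' := by
    show 0 < (C x (w x ω)).Q.w ω'
    rw [Fm.hQ x hx ω hω, c.Q1.cond_w _ _ (c.Q1.pr_pos (w x) hω), if_pos hw]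
    exact div_pos hω' (c.Q1.pr_pos (w x) hω)
  have mB : B ≤ c.I.m * B := Nat.le_mul_of_pos_left B hm1
  have hμ : μ ≤ ((C x (w x ω)).erun (hm x (w x ω))).C.μ := by
    show μ ≤ (C x (w x ω)).I.m * (C x (w x ω)).I.B
    rw [eI]
    have := Nat.mul_le_mul_left c.I.m hIB
    omega
  have k00 := hok.pth.k0
  refine hy_one (H785.Mtr.ofR_mt0 hμ) hok h1 hp ?_ (by rw [hh.N]; exact hk) ?_ ?_
  · have := H785.Mtr.small h1 hB (n := ((C x (w x ω)).erun (hm x (w x ω))).C.rk 0) (by rw [k00, ers]; omega)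
    have := q2_pos (((C x (w x ω)).erun (hm x (w x ω))).C.rk 0)
    nlinarith [sq_nonneg K]
  · exact C2.gv0A (hm := hm x (w x ω)) (hk := Fm.hk x (w x ω)) (hl := Fm.hl x (w x ω)) (Bb := Bb) H h1 k ω' hp
  · refine H785.Mtr.small h1 hB ?_
    have e1 := Fm.M_rr (Bb := Bb) (μ := μ) (o := o) (o' := o') (x := x) (e := w x ω) k
    show B ≤ (Fm.M Bb μ o o' x (w x ω)).rr k
    rw [e1]
    omega

end Fam1

/-! ### the pairs -/

/-- a pair of indices of the sum (P1) -/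
structure Pr (c : C1 Ω) (X : C2 Ω) (κ : ℕ → ℕ) (b B d k i : ℕ) : Prop where
  ki : k ≤ i
  iN : i ≤ X.D.N
  li : X.D.L.lev i = X.D.L.lev k + d
  fi : X.D.L.f i ≤ X.D.L.f k + B
  dp : c.I.m * X.D.L.f k + 2 * (c.I.m * B) ≤ c.I.m * b + c.I.m * κ (X.D.L.lev k)

/-- the numbers -/
structure Nr (c : C1 Ω) (K : ℝ) (b0 s β B μ : ℕ) : Prop where
  h1 : 1 ≤ K
  hB : (100 * K) ^ 20 ≤ (B : ℝ)
  hr : 100 * (c.I.m * B) ≤ c.I.rs
  hm1 : 1 ≤ c.I.m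
  hμB : μ ≤ B
  hIB : B ≤ c.I.B
  hb0 : 8 * B ≤ c.I.m * b0
  hβ : 8 * μ ≤ c.I.m * (β * s)

namespace Fam1

variable {w : ℕ → Ω → W} {C : ℕ → W → C2 Ω} {hm : ∀ x e, 3 ≤ (C x e).I.m} {G : ℕ → Ω → Prop}
  {κ0 k0 : ℕ → W → ℕ → ℕ} {b0 s T : ℕ} {K : ℝ}

variable (Fm : Fam1 c w C hm G κ0 k0 b0 s T K) {Bb B μ β d k i : ℕ} {o : Fin 7 → ℝ} {o' : ℕ → ℝ} {x : ℕ} {e : W} {ω : Ω}

theorem nums (hn : Nr c K b0 s β B μ) (h : Pr c (C x e) (κ0 x e) (b0 + x * s) B d k i) :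
    8 * (Fm.M Bb μ o o' x e).μ ≤ c.I.m * (b0 + x * s) ∧
    8 * (Fm.M Bb μ o o' x e).μ ≤ (Fm.M Bb μ o o' x e).rf k ∧
    (Fm.M Bb μ o o' x e).rf i ≤ (Fm.M Bb μ o o' x e).rr k + c.I.m * (b0 + x * s) ∧
    c.I.m * (b0 + x * s) + 8 * (Fm.M Bb μ o o' x e).μ ≤ c.I.m * (b0 + (x + β) * s) ∧
    (Fm.M Bb μ o o' x e).a i - (Fm.M Bb μ o o' x e).a k ≤ c.I.m * d ∧
    (Fm.M Bb μ o o' x e).a i - (Fm.M Bb μ o o' x e).a k +
      ((Fm.M Bb μ o o' x e).rf i - (Fm.M Bb μ o o' x e).rf k) + 3 * (Fm.M Bb μ o o' x e).μ ≤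
      c.I.m * d + c.I.m * B + 3 * μ := by
  have hkN : k ≤ (C x e).D.N := h.ki.trans h.iN
  have e1 := Fm.M_a (Bb := Bb) (μ := μ) (o := o) (o' := o') (x := x) (e := e) i
  have e2 := Fm.M_a (Bb := Bb) (μ := μ) (o := o) (o' := o') (x := x) (e := e) k
  have e3 : (Fm.M Bb μ o o' x e).rf i = c.I.rs + c.I.m * (C x e).D.L.f i := Fm.lf_eq' h.iN
  have e4 : (Fm.M Bb μ o o' x e).rf k = c.I.rs + c.I.m * (C x e).D.L.f k := Fm.lf_eq' hkN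
  have e5 := Fm.M_rr (Bb := Bb) (μ := μ) (o := o) (o' := o') (x := x) (e := e) k
  rw [PN.li_eq _ h.iN] at e1
  rw [PN.li_eq _ hkN] at e2 e5
  rw [e1, e2, e3, e4, e5, Fm.M_μ, h.li]
  have f1 := Nat.mul_le_mul_left c.I.m h.fi
  rw [Nat.mul_add] at f1
  have f2 := h.dp
  have f3 : B ≤ c.I.m * B := Nat.le_mul_of_pos_left B hn.hm1
  have f4 := hn.hμB
  have f5 := hn.hr
  have f6 : c.I.m * b0 ≤ c.I.m * (b0 + x * s) := Nat.mul_le_mul_left _ (Nat.le_add_right _ _)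
  have f7 := hn.hb0
  have f8 : c.I.m * (b0 + (x + β) * s) = c.I.m * (b0 + x * s) + c.I.m * (β * s) := by ring
  have f9 := hn.hβ
  have f10 : c.I.m * ((C x e).D.L.lev k + d) = c.I.m * (C x e).D.L.lev k + c.I.m * d := Nat.mul_add _ _ _
  rw [f8, f10]
  refine ⟨?_, ?_, ?_, ?_, ?_, ?_⟩ <;> omega

/-- the term is bounded -/
theorem term_le (hn : Nr c K b0 s β B μ) (hx : x < T) (hω : 0 < c.Q1.w ω) (hG : G x ω)
    (h : Pr c (C x (w x ω)) (κ0 x (w x ω)) (b0 + x * s) B d k i) {V : Type} (Y : Ω → V) :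
    mi (c.Q1.cond (w x) (w x ω)) (LTh ((Fm.M Bb μ o o' x (w x ω)).fz k k) (c.I.m * (b0 + x * s)) i) Y
      (LDk ((Fm.M Bb μ o o' x (w x ω)).fz k k) (c.I.m * (b0 + x * s)) k) ≤
      Hd (c.I.m * d) (c.I.m * d + c.I.m * B + 3 * μ) ⌈43 * (8 * (4 * K)) ^ 5⌉₊ := by
  have hkN : k ≤ (C x (w x ω)).D.N := h.ki.trans h.iN
  obtain ⟨n1, n2, n3, n4, n5, n6⟩ := Fm.nums (Bb := Bb) (o := o) (o' := o') hn h
  have hff := (Fm.M Bb μ o o' x (w x ω)).hf h.ki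
  have hS := hc_Sz (c.Q1.cond (w x) (w x ω)) (Fm.M Bb μ o o' x (w x ω)) (K := 4 * K) (I := {k}) (k := k) (i := i)
    (by linarith [hn.h1]) (fun a ha => by
      obtain ⟨pa, ea⟩ := cond_supp c.Q1 hω ha
      exact Fm.M_hy hn.h1 hn.hB hn.hr hn.hm1 hn.hμB hn.hIB hx hω hG pa ea hkN) (Set.mem_singleton _) h.ki
    n1 n2 (by omega) (Nat.le_ceil _) n6
  refine (mi_LTh (c.Q1.cond (w x) (w x ω)) (Fm.M Bb μ o o' x (w x ω)) Y h.ki n3).trans ?_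
  have e0 := hc_nonneg (c.Q1.cond (w x) (w x ω)) (Sz (Fm.M Bb μ o o' x (w x ω)) k (c.I.m * (b0 + x * s)) i)
    (fun a => (Y a, LDk ((Fm.M Bb μ o o' x (w x ω)).fz k k) (c.I.m * (b0 + x * s)) k a))
  unfold mi
  have e2 : ((((Fm.M Bb μ o o' x (w x ω)).a i - (Fm.M Bb μ o o' x (w x ω)).a k : ℕ) : ℝ)) ≤ ((c.I.m * d : ℕ) : ℝ) := by
    exact_mod_cast n5
  have e3 : (0 : ℝ) ≤ Real.log 2 := Real.log_nonneg (by norm_num)
  have e4 := mul_le_mul_of_nonneg_right e2 e3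
  unfold Hd
  linarith

end Fam1

end

end Vale.Agent.P106.U.H420
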