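import Vale.Agent.P106.U.H420.P1Row
import Vale.Agent.P106.U.H420.PhiJ
import Vale.Agent.P106.U.H61.Ext2
import Vale.Agent.P106.U.H101.OffD

/-!
# P106 / U / H420 : the row [P1] of `S3.F2o`, sum over the labels (helper420)

* `Lb2`, `pair_lab2`, `cnt_lab2` : labels `(a, t, r)`, `r ≤ 1` (levels with at most one line step).
* `Ul` : the label `(a, t, r)` is alive at the cap `x` (interval of caps).
* `lab_sum` : the sum over the caps at one label.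
* `at_place` : one place: the sum (P1) is at most the sum over the alive labels and the pairs at the stop.
* **`p1_row`** : the sum over the caps of the sum (P1) at the good words, in the mean over the words.
-/

set_option autoImplicit false

namespace Vale.Agent.P106.U.H420

open Finset Vale.Agent.P127 Vale.Agent.P127.Stk Vale.Agent.P127.U
open Vale.Agent.P127.U.CellD (q2 rd q2_pos q2_add q2_le q2_mul_pow)
open Vale.Agent.P106.U Vale.Agent.P106.U.Cell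
open Vale.Agent.P106.U.H785.Mtr (Mtd OfR)
open Vale.Agent.P106.U.H823.PathP Vale.Agent.P106.U.H823.PathNum
open Vale.Agent.P106.U.S3 (LTh LDk)
open Vale.Agent.P106.U.H565 (C0 C1 C2)
open Vale.Agent.P106.U.H470.Fib (cond_supp)
open Vale.Agent.P106.U.LinkR Vale.Agent.P106.U.H823.NumG Vale.Agent.P106.U.H449

/-! ### sums over labels, at most one line step in a level -/

section sums

/-- the labels -/
def Lb2 (A B : ℕ) : Finset (ℕ × ℕ × ℕ) := range A ×ˢ range (B + 1) ×ˢ range 2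

theorem card_Lb2 (A B : ℕ) : (Lb2 A B).card = A * ((B + 1) * 2) := by
  unfold Lb2
  rw [card_product, card_product, card_range, card_range, card_range]

open Classical in
/-- **a sum over the pairs is at most a sum over labels** -/
theorem pair_lab2 {Ω : Type} [Fintype Ω] {τ υ : Type} {D : PN} {R : S3.Run Ω τ υ} {p : S3.Run.Num} (H : Has D R p)
    {B d A : ℕ} (S : Finset ℕ) (hS : ∀ k ∈ S, k ≤ D.N) (hA : ∀ k ∈ S, D.L.lev k < A) (g : ℕ → ℕ → ℝ)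
    (V : ℕ × ℕ × ℕ → Prop) (hg : ∀ k i, 0 ≤ g k i) (hD : ∀ k ∈ S, D.L.R (D.L.lev k) - D.L.Rm (D.L.lev k) ≤ 1)
    (hV : ∀ k ∈ S, k < D.L.J (D.L.lev k + d) → D.L.J (D.L.lev k + d) ≤ k + B → D.L.J (D.L.lev k + d) < D.N →
      V (la3 D.L k)) :
    ∑ k ∈ S, ∑ i ∈ S3.At' R p B d k, g k i ≤ ∑ y ∈ Lb2 A B,
      if V y then g (kx D.L y.1 y.2.1 y.2.2) (D.L.J (y.1 + d)) else 0 := by
  set h : ℕ × ℕ × ℕ → ℝ := fun y => if V y then g (kx D.L y.1 y.2.1 y.2.2) (D.L.J (y.1 + d)) else 0 with hh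
  have h0 : ∀ y, 0 ≤ h y := by
    intro y
    simp only [hh]
    split_ifs
    · exact hg _ _
    · exact le_rfl
  set S' := S.filter fun k => k < D.L.J (D.L.lev k + d) ∧ D.L.J (D.L.lev k + d) ≤ k + B ∧
    D.L.J (D.L.lev k + d) < D.N with hS'
  have e1 : ∑ k ∈ S, ∑ i ∈ S3.At' R p B d k, g k i = ∑ k ∈ S', h (la3 D.L k) := by
    rw [hS', Finset.sum_filter]
    refine Finset.sum_congr rfl fun k hk => ?_
    rw [H61.Reg.sum_at H (hS k hk)]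
    by_cases hc : k < D.L.J (D.L.lev k + d) ∧ D.L.J (D.L.lev k + d) ≤ k + B ∧ D.L.J (D.L.lev k + d) < D.N
    · rw [if_pos hc, if_pos hc]
      simp only [hh]
      rw [if_pos (hV k hk hc.1 hc.2.1 hc.2.2), kx_la3]
      rfl
    · rw [if_neg hc, if_neg hc]
  have inj : Set.InjOn (la3 D.L) (S' : Set ℕ) := by
    intro k _ k' _ e
    rw [← kx_la3 D.L k, e, kx_la3]
  rw [e1, ← Finset.sum_image (f := h) inj]
  refine Finset.sum_le_sum_of_subset_of_nonneg ?_ fun y _ _ => h0 y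
  intro y hy
  obtain ⟨k, hk, rfl⟩ := Finset.mem_image.1 hy
  rw [hS', Finset.mem_filter] at hk
  have h3 : D.L.J (D.L.lev k) ≤ D.L.J (D.L.lev k + d) := D.L.J_mono.monotone (Nat.le_add_right _ _)
  have h4 := hA k hk.1
  have h5 := hk.2.2.1
  have h6 := hD k hk.1
  unfold Lb2
  rw [Finset.mem_product, Finset.mem_product, Finset.mem_range, Finset.mem_range, Finset.mem_range]
  refine ⟨h4, ?_, ?_⟩
  · show (D.L.J (D.L.lev k) - k) - (D.L.R (D.L.lev k) - D.L.Rm (D.L.lev k)) < B + 1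
    omega
  · show (if D.L.J (D.L.lev k) - k ≤ D.L.R (D.L.lev k) - D.L.Rm (D.L.lev k) then D.L.J (D.L.lev k) - k else 0) < 2
    split_ifs <;> omega

open Classical in
/-- every index has at most two labels -/
theorem cnt_lab2 (L : Lv) {A B : ℕ} (V : ℕ × ℕ × ℕ → Prop) (hV : ∀ y, V y → y.2.1 ≤ L.F y.1 - L.Fm y.1)
    (T : Finset ℕ) (hT : ∀ y, V y → kx L y.1 y.2.1 y.2.2 ∈ T) (e : ℕ → ℝ) (he : ∀ k, 0 ≤ e k) :
    ∑ y ∈ Lb2 A B, (if V y then e (kx L y.1 y.2.1 y.2.2) else 0) ≤ 2 * ∑ k ∈ T, e k := by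
  rw [← Finset.sum_filter]
  have hmap : ∀ y ∈ (Lb2 A B).filter V, kx L y.1 y.2.1 y.2.2 ∈ T := fun y hy => hT y (Finset.mem_filter.1 hy).2
  rw [← Finset.sum_fiberwise_of_maps_to hmap, Finset.mul_sum]
  refine Finset.sum_le_sum fun k _ => ?_
  have hc : (((Lb2 A B).filter V).filter fun y => kx L y.1 y.2.1 y.2.2 = k).card ≤ 2 := by
    have hsub : ((Lb2 A B).filter V).filter (fun y => kx L y.1 y.2.1 y.2.2 = k) ⊆
        (range 2).image fun r => (L.lev k, L.F (L.lev k) - L.f k, r) := by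
      intro y hy
      rw [Finset.mem_filter, Finset.mem_filter] at hy
      obtain ⟨⟨hy1, hy2⟩, hy3⟩ := hy
      have ht := hV y hy2
      have e1 := lev_kx (L := L) (r := y.2.2) ht
      have e2 := f_kx (L := L) (r := y.2.2) ht
      rw [hy3] at e1 e2
      rw [Finset.mem_image]
      unfold Lb2 at hy1
      rw [Finset.mem_product, Finset.mem_product] at hy1
      refine ⟨y.2.2, hy1.2.2, ?_⟩
      refine Prod.ext e1 (Prod.ext ?_ rfl)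
      show L.F (L.lev k) - L.f k = y.2.1
      rw [e1, e2]
      have := L.Fm_le y.1
      omega
    refine (Finset.card_le_card hsub).trans (Finset.card_image_le.trans ?_)
    rw [Finset.card_range]
  calc ∑ y ∈ ((Lb2 A B).filter V).filter (fun y => kx L y.1 y.2.1 y.2.2 = k), e (kx L y.1 y.2.1 y.2.2) =
      ∑ _y ∈ ((Lb2 A B).filter V).filter (fun y => kx L y.1 y.2.1 y.2.2 = k), e k :=
        Finset.sum_congr rfl fun y hy => by rw [(Finset.mem_filter.1 hy).2]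
    _ = ((((Lb2 A B).filter V).filter fun y => kx L y.1 y.2.1 y.2.2 = k).card : ℝ) * e k := by
        rw [Finset.sum_const, nsmul_eq_mul]
    _ ≤ 2 * e k := mul_le_mul_of_nonneg_right (by exact_mod_cast hc) (he k)

end sums

section

variable {Ω : Type} [Fintype Ω] {W : Type} {c : C1 Ω}

/-- the label `y = (a, t, r)` is alive at the cap `x` -/
def Ul (c : C1 Ω) (w : ℕ → Ω → W) (C : ℕ → W → C2 Ω) (G : ℕ → Ω → Prop) (κ0 : ℕ → W → ℕ → ℕ) (b0 s B d : ℕ)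
    (y : ℕ × ℕ × ℕ) (x : ℕ) (ω : Ω) : Prop :=
  G x ω ∧ y.2.1 ≤ Fo c y.1 - Fmo c y.1 ∧ Fo c (y.1 + d) + y.2.1 ≤ Fo c y.1 + B ∧ (1 ≤ y.1 ∨ y.2.1 < Fo c y.1) ∧
    c.I.m * (y.1 + d) < c.I.num.A ∧ c.I.rs + c.I.m * (C x (w x ω)).RC (y.1 + d) < c.I.num.QK ∧
    c.I.m * (Fo c y.1 - y.2.1) + 2 * (c.I.m * B) ≤ c.I.m * (b0 + x * s) + c.I.m * κ0 x (w x ω) y.1

namespace Fam1

variable {w : ℕ → Ω → W} {C : ℕ → W → C2 Ω} {hm : ∀ x e, 3 ≤ (C x e).I.m} {G : ℕ → Ω → Prop}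
  {κ0 k0 : ℕ → W → ℕ → ℕ} {b0 s T : ℕ} {K : ℝ}

variable (Fm : Fam1 c w C hm G κ0 k0 b0 s T K) {Bb B μ β d k i : ℕ} {o : Fin 7 → ℝ} {o' : ℕ → ℝ} {x : ℕ} {e : W} {ω : Ω}
  {y : ℕ × ℕ × ℕ}

include Fm in
theorem ul_fn (y : ℕ × ℕ × ℕ) (x : ℕ) : Fn c.Q1 (Ul c w C G κ0 b0 s B d y x) (w x) := by
  intro ω ω' p p' h
  unfold Ul
  rw [Fm.hG x ω ω' p p' h, h]

include Fm in
theorem ul_cv (y : ℕ × ℕ × ℕ) (j k l : ℕ) (ω : Ω) (hω : 0 < c.Q1.w ω) (hjk : j ≤ k) (hkl : k ≤ l) (hl : l < T)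
    (hj : Ul c w C G κ0 b0 s B d y j ω) (hl' : Ul c w C G κ0 b0 s B d y l ω) : Ul c w C G κ0 b0 s B d y k ω := by
  obtain ⟨g1, g2, g3, g4, g5, g6, g7⟩ := hj
  obtain ⟨f1, f2, f3, f4, f5, f6, f7⟩ := hl'
  refine ⟨Fm.hGd k l ω hkl hl hω f1, g2, g3, g4, g5, ?_, ?_⟩
  · have h1 := Fm.hR k l hkl hl ω hω (y.1 + d)
    have h2 := Nat.mul_le_mul_left c.I.m h1
    omega
  · rw [← Fm.hκ j k hjk (by omega) ω hω]
    have h1 : c.I.m * (b0 + j * s) ≤ c.I.m * (b0 + k * s) :=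
      Nat.mul_le_mul_left _ (Nat.add_le_add_left (Nat.mul_le_mul_right _ hjk) _)
    omega

include Fm in
/-- an alive label is a pair of indices -/
theorem alive (h : Ul c w C G κ0 b0 s B d y x ω) :
    y.2.1 ≤ (C x (w x ω)).D.L.F y.1 - (C x (w x ω)).D.L.Fm y.1 ∧
    (C x (w x ω)).D.L.J (y.1 + d) < (C x (w x ω)).D.n ∧
    (C x (w x ω)).D.L.lev (kx (C x (w x ω)).D.L y.1 y.2.1 y.2.2) = y.1 ∧
    (C x (w x ω)).D.L.f (kx (C x (w x ω)).D.L y.1 y.2.1 y.2.2) = Fo c y.1 - y.2.1 ∧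
    (C x (w x ω)).D.L.f ((C x (w x ω)).D.L.J (y.1 + d)) = Fo c (y.1 + d) ∧
    1 ≤ kx (C x (w x ω)).D.L y.1 y.2.1 y.2.2 ∧
    Pr c (C x (w x ω)) (κ0 x (w x ω)) (b0 + x * s) B d (kx (C x (w x ω)).D.L y.1 y.2.1 y.2.2)
      ((C x (w x ω)).D.L.J (y.1 + d)) := by
  obtain ⟨g1, g2, g3, g4, g5, g6, g7⟩ := h
  have hC := Fm.hC x (w x ω)
  have eF := D_F hC
  have eFm := D_Fm hC y.1
  have ht : y.2.1 ≤ (C x (w x ω)).D.L.F y.1 - (C x (w x ω)).D.L.Fm y.1 := by rw [eF, eFm]; exact g2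
  have hJ : (C x (w x ω)).D.L.J (y.1 + d) < (C x (w x ω)).D.n := by
    refine n_lt _ ?_ ?_
    · rw [Lv.lev_J, D_m hC, D_Ad hC]; exact g5
    · rw [Lv.k_J, D_m hC, D_r0 hC, D_QK hC]; exact g6
  have e1 := lev_kx (L := (C x (w x ω)).D.L) (r := y.2.2) ht
  have e2 := f_kx (L := (C x (w x ω)).D.L) (r := y.2.2) ht
  have e3 := (C x (w x ω)).D.L.f_J (y.1 + d)
  rw [eF] at e2 e3
  have e4 := kx_le (C x (w x ω)).D.L y.1 y.2.1 y.2.2
  have e5 : (C x (w x ω)).D.L.J y.1 ≤ (C x (w x ω)).D.L.J (y.1 + d) :=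
    (C x (w x ω)).D.L.J_mono.monotone (Nat.le_add_right _ _)
  have e6 := (C x (w x ω)).D.n_le
  refine ⟨ht, hJ, e1, e2, e3, kx_pos ht (by rw [eF]; exact g4), ?_⟩
  refine ⟨e4.trans e5, (hJ.trans_le e6).le, ?_, ?_, ?_⟩
  · rw [Lv.lev_J, e1]
  · rw [e3, e2]
    have h7 : Fmo c y.1 ≤ Fo c y.1 := by rw [← eF, ← eFm]; exact Lv.Fm_le _ _
    omega
  · rw [e2, e1]
    exact g7

open Classical in
/-- **the sum over the caps at one label** -/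
theorem lab_sum (hn : Nr c K b0 s β B μ) (y : ℕ × ℕ × ℕ) :
    ∑ x ∈ range T, c.Q1.ex (fun ω => if Ul c w C G κ0 b0 s B d y x ω then mi (c.Q1.cond (w x) (w x ω))
        (LTh ((Fm.M Bb μ o o' x (w x ω)).fz (kx (C x (w x ω)).D.L y.1 y.2.1 y.2.2) (kx (C x (w x ω)).D.L y.1 y.2.1 y.2.2))
          (c.I.m * (b0 + x * s)) ((C x (w x ω)).D.L.J (y.1 + d)))
        (((Fm.M Bb μ o o' x (w x ω)).fz (kx (C x (w x ω)).D.L y.1 y.2.1 y.2.2)
          (kx (C x (w x ω)).D.L y.1 y.2.1 y.2.2)).cell (kx (C x (w x ω)).D.L y.1 y.2.1 y.2.2)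
            (c.I.m * (b0 + (x + β) * s)))
        (LDk ((Fm.M Bb μ o o' x (w x ω)).fz (kx (C x (w x ω)).D.L y.1 y.2.1 y.2.2) (kx (C x (w x ω)).D.L y.1 y.2.1 y.2.2))
          (c.I.m * (b0 + x * s)) (kx (C x (w x ω)).D.L y.1 y.2.1 y.2.2)) else 0) ≤
      2 * β * Hd (c.I.m * d) (c.I.m * d + c.I.m * B + 3 * μ) ⌈43 * (8 * (4 * K)) ^ 5⌉₊ +
        ∑ x ∈ range T, c.Q1.ex (fun ω => if Ul c w C G κ0 b0 s B d y x ω then cDp (4 * K) * Real.sqrt (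
          prE (c.Q1.cond (w x) (w x ω)) (((Fm.M Bb μ o o' x (w x ω)).fz (kx (C x (w x ω)).D.L y.1 y.2.1 y.2.2)
            (kx (C x (w x ω)).D.L y.1 y.2.1 y.2.2)).Bad (40 * (8 * (4 * K)) ^ 2)
            (kx (C x (w x ω)).D.L y.1 y.2.1 y.2.2) (c.I.m * (b0 + x * s)))) else 0) := by
  have hki : ∀ x e, kx (C x e).D.L y.1 y.2.1 y.2.2 ≤ (C x e).D.L.J (y.1 + d) := fun x e =>
    (kx_le _ _ _ _).trans ((C x e).D.L.J_mono.monotone (Nat.le_add_right _ _))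
  refine p1_ivx c.Q1 Fm.hW (Ul c w C G κ0 b0 s B d y) (Fm.ul_fn y) (β := β) (K := T) (Fm.ul_cv y)
    (Kc := 4 * K) (by linarith [hn.h1]) (fun x e => Fm.M Bb μ o o' x e) (fun x e => kx (C x e).D.L y.1 y.2.1 y.2.2)
    (fun x e => (C x e).D.L.J (y.1 + d)) hki (fun x => c.I.m * (b0 + x * s)) ?_
    (N0 := ⌈43 * (8 * (4 * K)) ^ 5⌉₊) (g := c.I.m * d + c.I.m * B + 3 * μ) (A := c.I.m * d) ?_ ?_ ?_ ?_ (Nat.le_ceil _) ?_
  · intro x x' h
    exact Nat.mul_le_mul_left _ (Nat.add_le_add_left (Nat.mul_le_mul_right _ h) _)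
  · -- Sn
    intro x x' hx hx' ω hω hu hu'
    obtain ⟨ht, hJ, e1, e2, e3, hp, pr⟩ := Fm.alive hu
    obtain ⟨ht', hJ', e1', e2', e3', hp', pr'⟩ := Fm.alive hu'
    have hkN := pr.ki.trans pr.iN
    have hkN' := pr'.ki.trans pr'.iN
    obtain ⟨Rm, cc, Ac, rc, H⟩ := Fm.hyp x (by omega) ω hω hu.1
    refine C2.sn_mt0 ((Fm.hC x _).trans (Fm.hC x' _).symm) (hki x _) (hki x' _) ?_ ?_ ?_ ?_ ?_ ?_ μ o o'
    · rw [PN.li_eq _ hkN, PN.li_eq _ hkN', e1, e1']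
    · rw [Fm.lf_eq' hkN, Fm.lf_eq' hkN', e2, e2']
    · rw [PN.li_eq _ pr.iN, PN.li_eq _ pr'.iN, Lv.lev_J, Lv.lev_J]
    · rw [Fm.lf_eq' pr.iN, Fm.lf_eq' pr'.iN, e3, e3']
    · rw [Fm.hk0, Fm.hk0, PN.li_eq _ hkN, PN.li_eq _ hkN', e1, e1', Fm.hκ x x' hx hx' ω hω]
    · exact C2.li_ha H _
  · -- prefix letters
    intro x hx ω hω hu hu'
    obtain ⟨ht, hJ, e1, e2, e3, hp, pr⟩ := Fm.alive hu
    obtain ⟨ht', hJ', e1', e2', e3', hp', pr'⟩ := Fm.alive hu'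
    have hkN := pr.ki.trans pr.iN
    have hkN' := pr'.ki.trans pr'.iN
    have hRR := Fm.hR x (x + β) (Nat.le_add_right _ _) hx ω hω
    refine C2.fn_pf0 ((Fm.hC x _).trans (Fm.hC (x + β) _).symm) ?_ ?_ (fun a _ => hRR a) μ o o' _
    · rw [PN.li_eq _ hkN, PN.li_eq _ hkN', e1, e1']
    · rw [PN.lk_eq _ hkN, PN.lk_eq _ hkN', D_r0 (Fm.hC x _), D_r0 (Fm.hC (x + β) _), D_m (Fm.hC x _),
        D_m (Fm.hC (x + β) _)]
      refine Nat.add_le_add_left (Nat.mul_le_mul_left _ ?_) _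
      exact k_kx_mono ((D_F (Fm.hC x _)).trans (D_F (Fm.hC (x + β) _)).symm) hRR ht
  · intro x hx ω ω' hω hω' hu he
    obtain ⟨ht, hJ, e1, e2, e3, hp, pr⟩ := Fm.alive hu
    exact Fm.M_hy hn.h1 hn.hB hn.hr hn.hm1 hn.hμB hn.hIB hx hω hu.1 hω' he (pr.ki.trans pr.iN)
  · intro x hx ω hω hu
    obtain ⟨ht, hJ, e1, e2, e3, hp, pr⟩ := Fm.alive hu
    obtain ⟨n1, n2, n3, n4, n5, n6⟩ := Fm.nums (Bb := Bb) (o := o) (o' := o') hn pr
    exact ⟨n1, n2, n3, n4⟩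
  · intro x hx ω hω hu
    obtain ⟨ht, hJ, e1, e2, e3, hp, pr⟩ := Fm.alive hu
    obtain ⟨n1, n2, n3, n4, n5, n6⟩ := Fm.nums (Bb := Bb) (o := o) (o' := o') hn pr
    exact ⟨n5, n6⟩

/-! ### one place -/

include Fm in
/-- a pair of the sum (P1) -/
theorem pr_of {Vs Xs : Finset ℕ} (hx : x < T) (hω : 0 < c.Q1.w ω)
    (hk : k ∈ S3.IdP ((C x (w x ω)).erun (hm x (w x ω)))
      ((C x (w x ω)).pfd (hm x (w x ω)) (k0 x (w x ω)) (Fm.hk x (w x ω)) (Fm.hl x (w x ω)) Bb) B Vs Xs)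
    (h1 : k < (C x (w x ω)).D.L.J ((C x (w x ω)).D.L.lev k + d))
    (h2 : (C x (w x ω)).D.L.J ((C x (w x ω)).D.L.lev k + d) ≤ k + B)
    (h3 : (C x (w x ω)).D.L.J ((C x (w x ω)).D.L.lev k + d) < (C x (w x ω)).D.N) :
    Pr c (C x (w x ω)) (κ0 x (w x ω)) (b0 + x * s) B d k ((C x (w x ω)).D.L.J ((C x (w x ω)).D.L.lev k + d)) ∧
      1 ≤ k ∧ k ≤ (C x (w x ω)).D.n := by
  obtain ⟨g1, -, -, g4⟩ := Finset.mem_filter.1 hk
  have hkn := (Finset.mem_Icc.1 g1).2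
  have hC := Fm.hC x (w x ω)
  have hkN : k ≤ (C x (w x ω)).D.N := hkn.trans (C x (w x ω)).D.n_le
  have eI : (C x (w x ω)).I = c.I := by rw [← hC]
  have e1 : (C x (w x ω)).D.lf k + 2 * ((C x (w x ω)).I.m * B) ≤ (C x (w x ω)).I.m * (C x (w x ω)).b1 +
      ((C x (w x ω)).D.r0 + (C x (w x ω)).D.m * k0 x (w x ω) k) := g4
  rw [Fm.lf_eq' hkN, eI, Fm.hb x hx ω hω, Fm.hk0, PN.li_eq _ hkN, D_r0 hC, D_m hC] at e1
  refine ⟨⟨h1.le, h3.le, (C x (w x ω)).D.L.lev_J _, ?_, by omega⟩, (Finset.mem_Icc.1 g1).1, hkn⟩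
  have f1 := (C x (w x ω)).D.L.sum_eq k
  have f2 := (C x (w x ω)).D.L.k_le k
  have f3 := (C x (w x ω)).D.L.R_mono (Nat.le_add_right ((C x (w x ω)).D.L.lev k) d)
  rw [Lv.f_J]
  unfold Lv.J at h2
  omega

include Fm in
/-- a pair before the stop is an alive label -/
theorem ul_of {Vs Xs : Finset ℕ} (hx : x < T) (hω : 0 < c.Q1.w ω) (hG : G x ω)
    (hk : k ∈ S3.IdP ((C x (w x ω)).erun (hm x (w x ω)))
      ((C x (w x ω)).pfd (hm x (w x ω)) (k0 x (w x ω)) (Fm.hk x (w x ω)) (Fm.hl x (w x ω)) Bb) B Vs Xs)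
    (h1 : k < (C x (w x ω)).D.L.J ((C x (w x ω)).D.L.lev k + d))
    (h2 : (C x (w x ω)).D.L.J ((C x (w x ω)).D.L.lev k + d) ≤ k + B)
    (h3 : (C x (w x ω)).D.L.J ((C x (w x ω)).D.L.lev k + d) < (C x (w x ω)).D.n) :
    Ul c w C G κ0 b0 s B d (la3 (C x (w x ω)).D.L k) x ω := by
  obtain ⟨pr, k1, kn⟩ := Fm.pr_of hx hω hk h1 h2 (h3.trans_le (C x (w x ω)).D.n_le)
  have hC := Fm.hC x (w x ω)
  have eF := D_F hC
  have t1 := la3_t (C x (w x ω)).D.L k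
  have t2 := f_kx (L := (C x (w x ω)).D.L) (r := (la3 (C x (w x ω)).D.L k).2.2) t1
  have t3 : (C x (w x ω)).D.L.f k = (C x (w x ω)).D.L.F ((C x (w x ω)).D.L.lev k) -
      (la3 (C x (w x ω)).D.L k).2.1 := by
    rw [← t2]
    exact congrArg _ (kx_la3 (C x (w x ω)).D.L k).symm
  have t4 : (la3 (C x (w x ω)).D.L k).2.1 ≤ (C x (w x ω)).D.L.F ((C x (w x ω)).D.L.lev k) := t1.trans (Nat.sub_le _ _)
  have s1 := (C x (w x ω)).D.n_stop h3
  rw [Lv.lev_J, Lv.k_J, D_m hC, D_Ad hC, D_r0 hC, D_QK hC] at s1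
  have f1 := pr.fi
  have f2 := pr.dp
  have f3 := (C x (w x ω)).D.L.sum_eq k
  have f4 := (C x (w x ω)).D.L.k_le_f k
  rw [Lv.f_J] at f1
  rw [eF] at t3 t4 f1
  refine ⟨hG, ?_, ?_, ?_, s1.1, s1.2, ?_⟩
  · have := t1
    rw [eF, D_Fm hC] at this
    exact this
  · show Fo c ((C x (w x ω)).D.L.lev k + d) + (la3 (C x (w x ω)).D.L k).2.1 ≤ Fo c ((C x (w x ω)).D.L.lev k) + B
    omega
  · show 1 ≤ (C x (w x ω)).D.L.lev k ∨ (la3 (C x (w x ω)).D.L k).2.1 < Fo c ((C x (w x ω)).D.L.lev k)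
    omega
  · show c.I.m * (Fo c ((C x (w x ω)).D.L.lev k) - (la3 (C x (w x ω)).D.L k).2.1) + 2 * (c.I.m * B) ≤
      c.I.m * (b0 + x * s) + c.I.m * κ0 x (w x ω) ((C x (w x ω)).D.L.lev k)
    rw [← t3]
    exact f2

include Fm in
/-- an alive label is an index of the deep phi regime -/
theorem idp_of {y : ℕ × ℕ × ℕ} (hx : x < T) (hω : 0 < c.Q1.w ω) (h : Ul c w C G κ0 b0 s B d y x ω) :
    kx (C x (w x ω)).D.L y.1 y.2.1 y.2.2 ∈ S3.IdP ((C x (w x ω)).erun (hm x (w x ω)))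
      ((C x (w x ω)).pfd (hm x (w x ω)) (k0 x (w x ω)) (Fm.hk x (w x ω)) (Fm.hl x (w x ω)) Bb) B
      (H101.Off.allV ((C x (w x ω)).erun (hm x (w x ω)))) ∅ := by
  obtain ⟨ht, hJ, e1, e2, e3, hp, pr⟩ := Fm.alive h
  have hC := Fm.hC x (w x ω)
  have eI : (C x (w x ω)).I = c.I := by rw [← hC]
  have hkn : kx (C x (w x ω)).D.L y.1 y.2.1 y.2.2 ≤ (C x (w x ω)).D.n := pr.ki.trans hJ.le
  have hkN := hkn.trans (C x (w x ω)).D.n_le
  refine Finset.mem_filter.2 ⟨Finset.mem_Icc.2 ⟨hp, hkn⟩, H101.Off.lv_allV _ hkn, Finset.notMem_empty _, ?_⟩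
  show (C x (w x ω)).D.lf _ + 2 * ((C x (w x ω)).I.m * B) ≤ (C x (w x ω)).I.m * (C x (w x ω)).b1 +
      ((C x (w x ω)).D.r0 + (C x (w x ω)).D.m * k0 x (w x ω) _)
  rw [Fm.lf_eq' hkN, eI, Fm.hb x hx ω hω, Fm.hk0, PN.li_eq _ hkN, D_r0 hC, D_m hC]
  have := pr.dp
  omega

open Classical in
/-- **one place** -/
theorem at_place (hn : Nr c K b0 s β B μ) {Vs Xs : Finset ℕ} (hx : x < T) (hω : 0 < c.Q1.w ω) (hG : G x ω)
    (hV : ∀ k ∈ S3.IdP ((C x (w x ω)).erun (hm x (w x ω)))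
      ((C x (w x ω)).pfd (hm x (w x ω)) (k0 x (w x ω)) (Fm.hk x (w x ω)) (Fm.hl x (w x ω)) Bb) B Vs Xs,
      (C x (w x ω)).D.L.R ((C x (w x ω)).D.L.lev k) - (C x (w x ω)).D.L.Rm ((C x (w x ω)).D.L.lev k) ≤ 1) :
    H61.Ext2.sP1 ((C x (w x ω)).erun (hm x (w x ω))) (C x (w x ω)).num B (c.I.m * (b0 + (x + β) * s))
      ((C x (w x ω)).pfd (hm x (w x ω)) (k0 x (w x ω)) (Fm.hk x (w x ω)) (Fm.hl x (w x ω)) Bb) Vs Xs μ o o' d ≤
      ∑ y ∈ Lb2 (c.I.ha + 1) B, (if Ul c w C G κ0 b0 s B d y x ω then mi (c.Q1.cond (w x) (w x ω))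
        (LTh ((Fm.M Bb μ o o' x (w x ω)).fz (kx (C x (w x ω)).D.L y.1 y.2.1 y.2.2) (kx (C x (w x ω)).D.L y.1 y.2.1 y.2.2))
          (c.I.m * (b0 + x * s)) ((C x (w x ω)).D.L.J (y.1 + d)))
        (((Fm.M Bb μ o o' x (w x ω)).fz (kx (C x (w x ω)).D.L y.1 y.2.1 y.2.2)
          (kx (C x (w x ω)).D.L y.1 y.2.1 y.2.2)).cell (kx (C x (w x ω)).D.L y.1 y.2.1 y.2.2)
            (c.I.m * (b0 + (x + β) * s)))
        (LDk ((Fm.M Bb μ o o' x (w x ω)).fz (kx (C x (w x ω)).D.L y.1 y.2.1 y.2.2) (kx (C x (w x ω)).D.L y.1 y.2.1 y.2.2))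
          (c.I.m * (b0 + x * s)) (kx (C x (w x ω)).D.L y.1 y.2.1 y.2.2)) else 0) +
      (B + 1) * Hd (c.I.m * d) (c.I.m * d + c.I.m * B + 3 * μ) ⌈43 * (8 * (4 * K)) ^ 5⌉₊ := by
  obtain ⟨Rm, cc, Ac, rc, H⟩ := Fm.hyp x hx ω hω hG
  have hh := ehas (hm := hm x (w x ω)) H
  have hC := Fm.hC x (w x ω)
  have eI : (C x (w x ω)).I = c.I := by rw [← hC]
  set D := (C x (w x ω)).D with hD
  set Hh := Hd (c.I.m * d) (c.I.m * d + c.I.m * B + 3 * μ) ⌈43 * (8 * (4 * K)) ^ 5⌉₊ with hHh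
  set S := S3.IdP ((C x (w x ω)).erun (hm x (w x ω)))
      ((C x (w x ω)).pfd (hm x (w x ω)) (k0 x (w x ω)) (Fm.hk x (w x ω)) (Fm.hl x (w x ω)) Bb) B Vs Xs with hS
  set g : ℕ → ℕ → ℝ := fun k i => mi (c.Q1.cond (w x) (w x ω))
        (LTh ((Fm.M Bb μ o o' x (w x ω)).fz k k) (c.I.m * (b0 + x * s)) i)
        (((Fm.M Bb μ o o' x (w x ω)).fz k k).cell k (c.I.m * (b0 + (x + β) * s)))
        (LDk ((Fm.M Bb μ o o' x (w x ω)).fz k k) (c.I.m * (b0 + x * s)) k) with hg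
  have g0 : ∀ k i, 0 ≤ g k i := fun k i => mi_nonneg _ _ _ _
  have eQ : ((C x (w x ω)).erun (hm x (w x ω))).Q = c.Q1.cond (w x) (w x ω) := Fm.hQ x hx ω hω
  have em : ((C x (w x ω)).erun (hm x (w x ω))).m * ((C x (w x ω)).erun (hm x (w x ω))).b1 = c.I.m * (b0 + x * s) := by
    show (C x (w x ω)).I.m * (C x (w x ω)).b1 = _
    rw [eI, Fm.hb x hx ω hω]
  have e0 : H61.Ext2.sP1 ((C x (w x ω)).erun (hm x (w x ω))) (C x (w x ω)).num B (c.I.m * (b0 + (x + β) * s))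
      ((C x (w x ω)).pfd (hm x (w x ω)) (k0 x (w x ω)) (Fm.hk x (w x ω)) (Fm.hl x (w x ω)) Bb) Vs Xs μ o o' d =
      ∑ k ∈ S, ∑ i ∈ S3.At' ((C x (w x ω)).erun (hm x (w x ω))) (C x (w x ω)).num B d k, g k i := by
    unfold H61.Ext2.sP1
    rw [eQ, em]
    rfl
  have hSn : ∀ k ∈ S, k ≤ D.n := fun k hk => (Finset.mem_Icc.1 (Finset.mem_filter.1 hk).1).2
  have hSN : ∀ k ∈ S, k ≤ D.N := fun k hk => (hSn k hk).trans D.n_le
  have hHn : 0 ≤ Hh := by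
    rw [hHh]
    unfold Hd
    have l2 : 0 ≤ Real.log 2 := Real.log_nonneg (by norm_num)
    have l5 : 0 ≤ Real.log (5 * (⌈43 * (8 * (4 * K)) ^ 5⌉₊ : ℝ)) := by
      refine Real.log_nonneg ?_
      have h1 := hn.h1
      have a1 : (1 : ℝ) ≤ (8 * (4 * K)) ^ 5 := one_le_pow₀ (by linarith)
      have a2 := Nat.le_ceil (43 * (8 * (4 * K)) ^ 5)
      linarith
    positivity
  rw [e0, ← Finset.sum_filter_add_sum_filter_not S (fun k => D.L.J (D.L.lev k + d) < D.n)]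
  refine add_le_add ?_ ?_
  · -- before the stop
    refine pair_lab2 hh _ (fun k hk => hSN k (Finset.mem_filter.1 hk).1) (fun k hk => ?_) g
      (fun y => Ul c w C G κ0 b0 s B d y x ω) g0 (fun k hk => hV k (Finset.mem_filter.1 hk).1) (fun k hk h1 h2 _ => ?_)
    · have h1 := C2.li_ha H k
      have h2 := PN.li_eq D (hSN k (Finset.mem_filter.1 hk).1)
      have h3 : D.L.lev k ≤ (C x (w x ω)).I.ha := by rw [← h2]; exact h1
      rw [eI] at h3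
      omega
    · exact Fm.ul_of hx hω hG (Finset.mem_filter.1 hk).1 h1 h2 (Finset.mem_filter.1 hk).2
  · -- at the stop
    set S2 := S.filter fun k => ¬ D.L.J (D.L.lev k + d) < D.n with hS2
    have h1 : ∀ k ∈ S2, ∑ i ∈ S3.At' ((C x (w x ω)).erun (hm x (w x ω))) (C x (w x ω)).num B d k, g k i ≤
        if D.n ≤ k + B then Hh else 0 := by
      intro k hk
      have hk1 := (Finset.mem_filter.1 hk).1
      have hk2 := (Finset.mem_filter.1 hk).2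
      rw [H61.Reg.sum_at hh (hSN k hk1)]
      by_cases hc : k < D.L.J (D.L.lev k + d) ∧ D.L.J (D.L.lev k + d) ≤ k + B ∧ D.L.J (D.L.lev k + d) < D.N
      · rw [if_pos hc, if_pos (by omega)]
        exact Fm.term_le hn hx hω hG (Fm.pr_of hx hω hk1 hc.1 hc.2.1 hc.2.2).1 _
      · rw [if_neg hc]
        split_ifs
        · exact hHn
        · exact le_rfl
    refine (Finset.sum_le_sum h1).trans ?_
    rw [← Finset.sum_filter, Finset.sum_const, nsmul_eq_mul]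
    refine mul_le_mul_of_nonneg_right ?_ hHn
    have h2 : (S2.filter fun k => D.n ≤ k + B).card ≤ B + 1 := by
      have hsub : (S2.filter fun k => D.n ≤ k + B) ⊆ Icc (D.n - B) D.n := by
        intro k hk
        have a1 := Finset.mem_filter.1 hk
        have a2 := hSn k (Finset.mem_filter.1 a1.1).1
        have a3 := a1.2
        exact Finset.mem_Icc.2 ⟨by omega, a2⟩
      refine (Finset.card_le_card hsub).trans ?_
      rw [Nat.card_Icc]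
      omega
    exact_mod_cast h2

/-! ### the row -/

omit Fm in
/-- the exceptional event is in `exc` -/
theorem bad_exc {τ' : Type} (Q : Law Ω) (P : Pth Ω τ') {K1 K' : ℝ} (h : K1 ≤ K') (i b : ℕ) :
    prE Q (P.Bad K1 i b) ≤ S3.exc Q P K' i b := by
  have h1 : prE Q (P.Bad K1 i b) ≤ prE Q (P.Bad K' i b) := H122.prE_mono' Q fun _ _ e => Pth.Bad_mono h e
  have h2 : 0 ≤ prE Q (BadS P K' i b) := prE_nonneg _ _
  have h3 : 0 ≤ prE Q (H300.BadR P K' i b) := prE_nonneg _ _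
  unfold S3.exc
  linarith

open Classical in
/-- **the row [P1]** : sum over the caps of the sum (P1), in the mean over the words -/
theorem p1_row (hn : Nr c K b0 s β B μ) (G' : ℕ → Ω → Prop)
    (hG' : ∀ x < T, ∀ ω, 0 < c.Q1.w ω → G' x ω → G x ω) (Vs Xs : ℕ → W → Finset ℕ)
    (hV : ∀ x < T, ∀ ω, 0 < c.Q1.w ω → G' x ω → ∀ k ∈ S3.IdP ((C x (w x ω)).erun (hm x (w x ω)))
      ((C x (w x ω)).pfd (hm x (w x ω)) (k0 x (w x ω)) (Fm.hk x (w x ω)) (Fm.hl x (w x ω)) Bb) B (Vs x (w x ω))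
        (Xs x (w x ω)),
      (C x (w x ω)).D.L.R ((C x (w x ω)).D.L.lev k) - (C x (w x ω)).D.L.Rm ((C x (w x ω)).D.L.lev k) ≤ 1)
    {K' : ℝ} (hK' : 40 * (8 * (4 * K)) ^ 2 ≤ K') :
    ∑ x ∈ range T, c.Q1.ex (fun ω => if G' x ω then
      H61.Ext2.sP1 ((C x (w x ω)).erun (hm x (w x ω))) (C x (w x ω)).num B (c.I.m * (b0 + (x + β) * s))
      ((C x (w x ω)).pfd (hm x (w x ω)) (k0 x (w x ω)) (Fm.hk x (w x ω)) (Fm.hl x (w x ω)) Bb) (Vs x (w x ω))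
        (Xs x (w x ω)) μ o o' d else 0) ≤
      (4 * (c.I.ha + 1) * (B + 1) * β + T * (B + 1)) *
        Hd (c.I.m * d) (c.I.m * d + c.I.m * B + 3 * μ) ⌈43 * (8 * (4 * K)) ^ 5⌉₊ +
      2 * cDp (4 * K) * ∑ x ∈ range T, c.Q1.ex (fun ω => if G x ω then
        ∑ k ∈ S3.IdP ((C x (w x ω)).erun (hm x (w x ω)))
          ((C x (w x ω)).pfd (hm x (w x ω)) (k0 x (w x ω)) (Fm.hk x (w x ω)) (Fm.hl x (w x ω)) Bb) B
          (H101.Off.allV ((C x (w x ω)).erun (hm x (w x ω)))) ∅,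
          Real.sqrt (S3.exc ((C x (w x ω)).erun (hm x (w x ω))).Q ((Fm.M Bb μ o o' x (w x ω)).fz k k) K' k
            (((C x (w x ω)).erun (hm x (w x ω))).m * ((C x (w x ω)).erun (hm x (w x ω))).b1)) else 0) := by
  set Hh := Hd (c.I.m * d) (c.I.m * d + c.I.m * B + 3 * μ) ⌈43 * (8 * (4 * K)) ^ 5⌉₊ with hHh
  have hHn : 0 ≤ Hh := by
    rw [hHh]
    unfold Hd
    have l2 : 0 ≤ Real.log 2 := Real.log_nonneg (by norm_num)
    have l5 : 0 ≤ Real.log (5 * (⌈43 * (8 * (4 * K)) ^ 5⌉₊ : ℝ)) := by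
      refine Real.log_nonneg ?_
      have h1 := hn.h1
      have a1 : (1 : ℝ) ≤ (8 * (4 * K)) ^ 5 := one_le_pow₀ (by linarith)
      have a2 := Nat.le_ceil (43 * (8 * (4 * K)) ^ 5)
      linarith
    positivity
  set tY : ℕ → ℕ × ℕ × ℕ → Ω → ℝ := fun x y ω => if Ul c w C G κ0 b0 s B d y x ω then mi (c.Q1.cond (w x) (w x ω))
        (LTh ((Fm.M Bb μ o o' x (w x ω)).fz (kx (C x (w x ω)).D.L y.1 y.2.1 y.2.2) (kx (C x (w x ω)).D.L y.1 y.2.1 y.2.2))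
          (c.I.m * (b0 + x * s)) ((C x (w x ω)).D.L.J (y.1 + d)))
        (((Fm.M Bb μ o o' x (w x ω)).fz (kx (C x (w x ω)).D.L y.1 y.2.1 y.2.2)
          (kx (C x (w x ω)).D.L y.1 y.2.1 y.2.2)).cell (kx (C x (w x ω)).D.L y.1 y.2.1 y.2.2)
            (c.I.m * (b0 + (x + β) * s)))
        (LDk ((Fm.M Bb μ o o' x (w x ω)).fz (kx (C x (w x ω)).D.L y.1 y.2.1 y.2.2) (kx (C x (w x ω)).D.L y.1 y.2.1 y.2.2))
          (c.I.m * (b0 + x * s)) (kx (C x (w x ω)).D.L y.1 y.2.1 y.2.2)) else 0 with htY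
  set eY : ℕ → ℕ × ℕ × ℕ → Ω → ℝ := fun x y ω => if Ul c w C G κ0 b0 s B d y x ω then cDp (4 * K) * Real.sqrt (
          prE (c.Q1.cond (w x) (w x ω)) (((Fm.M Bb μ o o' x (w x ω)).fz (kx (C x (w x ω)).D.L y.1 y.2.1 y.2.2)
            (kx (C x (w x ω)).D.L y.1 y.2.1 y.2.2)).Bad (40 * (8 * (4 * K)) ^ 2)
            (kx (C x (w x ω)).D.L y.1 y.2.1 y.2.2) (c.I.m * (b0 + x * s)))) else 0 with heY
  have t0 : ∀ x y ω, 0 ≤ tY x y ω := by
    intro x y ω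
    simp only [htY]
    split_ifs
    · exact mi_nonneg _ _ _ _
    · exact le_rfl
  -- the places
  have p1 : ∀ x ∈ range T, c.Q1.ex (fun ω => if G' x ω then
      H61.Ext2.sP1 ((C x (w x ω)).erun (hm x (w x ω))) (C x (w x ω)).num B (c.I.m * (b0 + (x + β) * s))
      ((C x (w x ω)).pfd (hm x (w x ω)) (k0 x (w x ω)) (Fm.hk x (w x ω)) (Fm.hl x (w x ω)) Bb) (Vs x (w x ω))
        (Xs x (w x ω)) μ o o' d else 0) ≤ ∑ y ∈ Lb2 (c.I.ha + 1) B, c.Q1.ex (tY x y) + (B + 1) * Hh := by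
    intro x hx
    rw [Finset.mem_range] at hx
    have e : ∑ y ∈ Lb2 (c.I.ha + 1) B, c.Q1.ex (tY x y) + (B + 1) * Hh =
        c.Q1.ex (fun ω => ∑ y ∈ Lb2 (c.I.ha + 1) B, tY x y ω + (B + 1) * Hh) := by
      rw [c.Q1.ex_add, c.Q1.ex_const, ex_sumK]
    rw [e]
    refine c.Q1.ex_mono fun ω hω => ?_
    by_cases hg : G' x ω
    · rw [if_pos hg]
      exact Fm.at_place hn hx hω (hG' x hx ω hω hg) (hV x hx ω hω hg)
    · rw [if_neg hg]
      have := Finset.sum_nonneg (s := Lb2 (c.I.ha + 1) B) fun y _ => t0 x y ω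
      positivity
  -- the labels
  have p2 : ∀ y ∈ Lb2 (c.I.ha + 1) B, ∑ x ∈ range T, c.Q1.ex (tY x y) ≤
      2 * β * Hh + ∑ x ∈ range T, c.Q1.ex (eY x y) := fun y _ => Fm.lab_sum hn y
  -- the near terms
  have p3 : ∀ x ∈ range T, ∑ y ∈ Lb2 (c.I.ha + 1) B, c.Q1.ex (eY x y) ≤
      2 * cDp (4 * K) * c.Q1.ex (fun ω => if G x ω then
        ∑ k ∈ S3.IdP ((C x (w x ω)).erun (hm x (w x ω)))
          ((C x (w x ω)).pfd (hm x (w x ω)) (k0 x (w x ω)) (Fm.hk x (w x ω)) (Fm.hl x (w x ω)) Bb) B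
          (H101.Off.allV ((C x (w x ω)).erun (hm x (w x ω)))) ∅,
          Real.sqrt (S3.exc ((C x (w x ω)).erun (hm x (w x ω))).Q ((Fm.M Bb μ o o' x (w x ω)).fz k k) K' k
            (((C x (w x ω)).erun (hm x (w x ω))).m * ((C x (w x ω)).erun (hm x (w x ω))).b1)) else 0) := by
    intro x hx
    rw [Finset.mem_range] at hx
    rw [← ex_sumK, ← c.Q1.ex_const_mul]
    refine c.Q1.ex_mono fun ω hω => ?_
    by_cases hg : G x ω
    · rw [if_pos hg]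
      have hC := Fm.hC x (w x ω)
      have eI : (C x (w x ω)).I = c.I := by rw [← hC]
      have eQ : ((C x (w x ω)).erun (hm x (w x ω))).Q = c.Q1.cond (w x) (w x ω) := Fm.hQ x hx ω hω
      have em : ((C x (w x ω)).erun (hm x (w x ω))).m * ((C x (w x ω)).erun (hm x (w x ω))).b1 = c.I.m * (b0 + x * s) := by
        show (C x (w x ω)).I.m * (C x (w x ω)).b1 = _
        rw [eI, Fm.hb x hx ω hω]
      have hc := cnt_lab2 (C x (w x ω)).D.L (A := c.I.ha + 1) (B := B) (fun y => Ul c w C G κ0 b0 s B d y x ω)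
        (fun y hy => (Fm.alive hy).1) (S3.IdP ((C x (w x ω)).erun (hm x (w x ω)))
          ((C x (w x ω)).pfd (hm x (w x ω)) (k0 x (w x ω)) (Fm.hk x (w x ω)) (Fm.hl x (w x ω)) Bb) B
          (H101.Off.allV ((C x (w x ω)).erun (hm x (w x ω)))) ∅) (fun y hy => Fm.idp_of hx hω hy)
        (fun k => cDp (4 * K) * Real.sqrt (prE (c.Q1.cond (w x) (w x ω)) (((Fm.M Bb μ o o' x (w x ω)).fz k k).Bad
          (40 * (8 * (4 * K)) ^ 2) k (c.I.m * (b0 + x * s))))) (fun k => mul_nonneg (cDp_nonneg _) (Real.sqrt_nonneg _))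
      refine hc.trans ?_
      rw [← Finset.mul_sum, ← mul_assoc]
      refine mul_le_mul_of_nonneg_left (Finset.sum_le_sum fun k _ => Real.sqrt_le_sqrt ?_)
        (mul_nonneg (by norm_num) (cDp_nonneg _))
      rw [eQ, em]
      exact bad_exc _ _ hK' _ _
    · rw [if_neg hg, mul_zero]
      refine le_of_eq (Finset.sum_eq_zero fun y _ => ?_)
      simp only [heY]
      rw [if_neg fun h => hg h.1]
  have q1 := Finset.sum_le_sum p1
  have q2 : ∑ y ∈ Lb2 (c.I.ha + 1) B, ∑ x ∈ range T, c.Q1.ex (tY x y) ≤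
      ∑ y ∈ Lb2 (c.I.ha + 1) B, (2 * β * Hh + ∑ x ∈ range T, c.Q1.ex (eY x y)) := Finset.sum_le_sum p2
  have q3 := Finset.sum_le_sum p3
  rw [Finset.sum_add_distrib, Finset.sum_comm, Finset.sum_const, card_range, nsmul_eq_mul] at q1
  rw [Finset.sum_add_distrib, Finset.sum_const, card_Lb2, nsmul_eq_mul, Finset.sum_comm
    (s := Lb2 (c.I.ha + 1) B) (t := range T) (f := fun y x => c.Q1.ex (eY x y))] at q2
  rw [← Finset.mul_sum] at q3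
  push_cast at q2
  refine q1.trans ((add_le_add_left (q2.trans (add_le_add_right q3 _)) _).trans (le_of_eq ?_))
  ring

end Fam1

end

end Vale.Agent.P106.U.H420
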