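import Vale.Agent.P106.U.H420.MtrB
import Vale.Agent.P106.U.H420.F2S
import Vale.Agent.P106.U.H958.Mfz

/-!
# P106 / U / H420 : deep phi regime over `mtr`, numbers of the first cap, letter of the cap (helper420; 776's 20318 (3))

* `Eqv C C'` : two paths with the same levels, rays and functionals (the letters may differ): same digits, slopes, positions.
* `Sn X Y k` : two data (785) with the same numbers at the step `k`, `Y` has the finer letter.
* `mtr_fn` : `X.mtr k b` is an exact function of `Y.mtr k b` (and of the prefix letter); `ThM_eq` : the later letter `ThM` is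
  the same variable for all caps in the deep phi regime; **`hc_DpM`** : `DpM` is nearly nested in the cap.
* **`f2_phiM`** : `∑_b I(ThM ; mtr^(b) k (b+β) | DpM^(b) k b) ≤ β H + ∑ ν`, `H = (a i - a k) log 2 + log (5 N₀) + g log 2`.
-/

set_option autoImplicit false

namespace Vale.Agent.P106.U.H420

open Finset Vale.Agent.P127 Vale.Agent.P127.Stk
open Vale.Agent.P127.U.CellD (q2 rd Nb q2_pos q2_add q2_le q2_mul_pow fl1_fl1)
open Vale.Agent.P106.U.Cell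
open Vale.Agent.P106.U.H785.Mtr (Mtd Lt)
open Vale.Agent.P106.U.H958 (mfz HyM mfz_Ok DpM ThM tdM mfz_cell_iff mfz_rk mfz_rf mfz_a mfz_dg_p1 mfz_R)

/-! ### paths with the same functionals -/

/-- same levels, rays and functionals -/
structure Eqv {Ω τ τ' : Type} (C : Pth Ω τ) (C' : Pth Ω τ') : Prop where
  a : C.a = C'.a
  rf : C.rf = C'.rf
  rk : C.rk = C'.rk
  μ : C.μ = C'.μ
  o : C.o = C'.o
  l : C.l = C'.l
  t : C.t = C'.t
  p : C.p = C'.p
  F : C.F = C'.F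

namespace Eqv

variable {Ω τ τ' : Type} {C : Pth Ω τ} {C' : Pth Ω τ'}

lemma s (h : Eqv C C') : C.s = C'.s := by
  funext i ω
  unfold Pth.s
  rw [h.a, h.t]

lemma bs (h : Eqv C C') : C.bs = C'.bs := by
  funext i b
  unfold Pth.bs
  rw [h.rf, h.rk]

lemma R (h : Eqv C C') : C.R = C'.R := by
  funext i b
  unfold Pth.R
  rw [h.bs, h.rk]

lemma ro (h : Eqv C C') : C.ro = C'.ro := by
  funext k n y
  unfold Pth.ro
  rw [h.o]

lemma sl (h : Eqv C C') : C.sl = C'.sl := by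
  funext i b ω
  unfold Pth.sl
  rw [h.F, h.bs, h.l]

lemma Fr (h : Eqv C C') : C.Fr = C'.Fr := by
  funext i b m ω
  unfold Pth.Fr
  rw [h.F, h.bs, h.l, h.ro, h.sl]

lemma Zs (h : Eqv C C') : C.Zs = C'.Zs := by
  funext b s ω
  unfold Pth.Zs
  rw [h.l, h.ro, h.μ]

lemma lv (h : Eqv C C') : C.lv = C'.lv := by
  funext i b
  unfold Pth.lv
  rw [h.a, h.R, h.μ]

lemma va (h : Eqv C C') : C.va = C'.va := by
  funext i b ω
  unfold Pth.va
  rw [h.l, h.s, h.Zs, h.sl, h.Fr, h.R, h.μ]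

lemma dg (h : Eqv C C') : C.dg = C'.dg := by
  funext i b ω
  unfold Pth.dg
  rw [h.l, h.lv, h.va, h.o]

lemma slR (h : Eqv C C') : slR C = slR C' := by
  funext i b ω
  unfold H420.slR
  rw [h.p, h.F, h.l, h.s, h.bs]

lemma A (h : Eqv C C') : C.A = C'.A := by
  funext j b i' ω
  unfold Pth.A
  rw [h.l, h.s, h.Zs, h.sl, h.Fr, h.R, h.μ, h.a, h.o]

lemma VZ (h : Eqv C C') : C.VZ = C'.VZ := by
  funext i b ω
  unfold Pth.VZ
  rw [h.l, h.s, h.Zs, h.a]

lemma Bad (h : Eqv C C') : C.Bad = C'.Bad := by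
  funext K i b ω
  unfold Pth.Bad
  rw [h.lv, h.va, h.o, h.μ]

lemma Lev (h : Eqv C C') (i b : ℕ) : C.Lev i b ↔ C'.Lev i b := by
  unfold Pth.Lev
  rw [h.μ, h.R]

end Eqv

/-! ### the same numbers, finer letter -/

/-- two data with the same numbers at the step `k`, the second one with the finer letter -/
structure Sn {Ω π π' : Type} (X : Mtd Ω π) (Y : Mtd Ω π') (k : ℕ) : Prop where
  sm : Sm X Y k
  aa : X.a = Y.a
  ff : X.rf = Y.rf
  rk : X.rk k = Y.rk k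
  g : X.g k = Y.g k

section sn

variable {Ω π π' : Type} {X : Mtd Ω π} {Y : Mtd Ω π'} {k i b b2 : ℕ} {ω ω' : Ω} {K : ℝ}

lemma Sn.rr (h : Sn X Y k) : X.rr k = Y.rr k := by
  unfold Mtd.rr
  rw [h.rk, h.sm.ν]

lemma Sn.kaL (h : Sn X Y k) (ω : Ω) : X.kaL k (X.lt k ω) = Y.kaL k (Y.lt k ω) := by
  show (X.kN k ω : ℝ) / 2 ^ X.rr k - X.oκ = (Y.kN k ω : ℝ) / 2 ^ Y.rr k - Y.oκ
  unfold Mtd.kN
  rw [h.rr, h.sm.κ, h.sm.oκ]

lemma Sn.gaL (h : Sn X Y k) (ω : Ω) : X.gaL k (X.lt k ω) = Y.gaL k (Y.lt k ω) := by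
  have hg : X.gv k (X.pf k ω) = Y.gv k (Y.pf k ω) := congrFun h.g ω
  show (X.uN k ω : ℝ) / 2 ^ X.rr k - X.oγ + X.gv k (X.pf k ω) * ((X.nN k ω : ℝ) / 2 ^ X.a k - X.o 2) =
    (Y.uN k ω : ℝ) / 2 ^ Y.rr k - Y.oγ + Y.gv k (Y.pf k ω) * ((Y.nN k ω : ℝ) / 2 ^ Y.a k - Y.o 2)
  unfold Mtd.uN
  rw [h.rr, h.sm.u, h.sm.oγ, hg, h.sm.nN, h.aa, h.sm.o]

/-- the frozen paths have the same functionals -/
lemma Sn.eqv (h : Sn X Y k) : Eqv (mfz X k) (mfz Y k) := by
  have ea : (mfz X k).a = (mfz Y k).a := by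
    funext i
    show X.a (max i (k - 1)) = Y.a (max i (k - 1))
    rw [h.aa]
  have ef : (mfz X k).rf = (mfz Y k).rf := by
    funext i
    show X.rf (max i (k - 1)) = Y.rf (max i (k - 1))
    rw [h.ff]
  refine ⟨ea, ef, ?_, h.sm.μ, h.sm.o, h.sm.l, h.sm.t, h.sm.p, ?_⟩
  · funext i
    show min (X.rr k) (X.rf (max i (k - 1))) = min (Y.rr k) (Y.rf (max i (k - 1)))
    rw [h.rr, h.ff]
  · funext i ω
    have e1 : ((mfz X k).F i ω).ga = ((mfz Y k).F i ω).ga := h.gaL ω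
    have e4 : ((mfz X k).F i ω).al = ((mfz Y k).F i ω).al := congrFun h.g ω
    have es : (mfz X k).s i ω = (mfz Y k).s i ω := by
      unfold Pth.s
      rw [ea]
      show rd _ (X.t ω) = rd _ (Y.t ω)
      rw [h.sm.t]
    have ek : X.s k ω = Y.s k ω := by rw [h.sm.s]
    have e3 : ((mfz X k).F i ω).ka = ((mfz Y k).F i ω).ka := by
      rw [H958.mfz_ka, H958.mfz_ka, h.kaL, es, ek, h.g]
    have el : (mfz X k).l ω = (mfz Y k).l ω := by
      show X.l ω = Y.l ω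
      rw [h.sm.l]
    have ep : rd ((mfz X k).rf i) ((mfz X k).p ω) = rd ((mfz Y k).rf i) ((mfz Y k).p ω) := by
      rw [ef]
      show rd _ (X.p ω) = rd _ (Y.p ω)
      rw [h.sm.p]
    have c1 := Pth.F_cV (C := mfz X k) i ω
    have c2 := Pth.F_cV (C := mfz Y k) i ω
    rw [Pth.F_cN] at c1 c2
    unfold Fu.cV at c1 c2
    rw [e1, e3, e4, el, es, ep] at c1
    have e2 : ((mfz X k).F i ω).ph = ((mfz Y k).F i ω).ph := by linarith
    exact Fu.ext e1 e2 e3 e4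

/-- **`X.mtr k b` is an exact function of `Y.mtr k b` and of the prefix letter** -/
theorem mtr_fn (h : Sn X Y k) (hp : X.pf k ω = X.pf k ω') (e : Y.mtr k b ω = Y.mtr k b ω') :
    X.mtr k b ω = X.mtr k b ω' := by
  have e1 := lt_of h.sm hp (congrArg Prod.fst e)
  have e2 : (Y.p1 k).dg 0 b ω = (Y.p1 k).dg 0 b ω' := congrArg Prod.snd e
  refine Prod.ext e1 ?_
  show (X.p1 k).dg 0 b ω = (X.p1 k).dg 0 b ω'
  rw [← mfz_dg_p1, ← mfz_dg_p1, h.eqv.dg, mfz_dg_p1, mfz_dg_p1]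
  exact e2

/-- the slope in the frozen frame does not depend on the cap, deep phi regime -/
lemma slR_mfz (h : Sn X Y k) (hki : k ≤ i) (hd : Y.rf i ≤ Y.rr k + b) (hb : b ≤ b2) :
    slR (mfz X k) i b = slR (mfz Y k) i b2 := by
  rw [h.eqv.slR]
  refine slR_eq_of_le ?_ ?_
  · rw [mfz_rf (by omega), mfz_rk hki]; omega
  · rw [mfz_rf (by omega), mfz_rk hki]; omega

/-- **the later letter is the same variable for all caps** -/
theorem ThM_eq (h : Sn X Y k) (hki : k ≤ i) (hd : Y.rf i ≤ Y.rr k + b) (hb : b ≤ b2) :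
    ThM X k b i = ThM Y k b2 i := by
  funext ω
  have e : H683.slR (mfz X k) i b ω = H683.slR (mfz Y k) i b2 ω := congrFun (slR_mfz h hki hd hb) ω
  unfold ThM tdM
  rw [e, h.aa, h.sm.t, h.ff, h.sm.o]

end sn

section ent

variable {Ω π π' : Type} [Fintype Ω] {k i b b2 : ℕ} {K : ℝ}

/-- **`DpM` is nearly nested in the cap** -/
theorem hc_DpM (P : Law Ω) (X : Mtd Ω π) (Y : Mtd Ω π') (h : Sn X Y k) (h1 : 1 ≤ K)
    (hY : ∀ ω, 0 < P.w ω → HyM Y k K ω) (hb8 : 8 * Y.μ ≤ b) (hf8 : 8 * Y.μ ≤ Y.rf k)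
    (hd : Y.rf k ≤ Y.rr k + b) (hb : b + 8 * Y.μ ≤ b2) (hpf : Fn P (X.pf k) (Y.pf k)) :
    hc P (DpM X k b) (DpM Y k b2) ≤ (4 + 9 * Real.log (2 * ⌈30 * (3 * K) ^ 2⌉₊ + 3)) *
      Real.sqrt (prE P ((mfz Y k).Bad (40 * (3 * K) ^ 2) k b)) := by
  have hrf : (mfz Y k).rf k = Y.rf k := mfz_rf (by omega)
  have hrk : (mfz Y k).rk k = Y.rr k := mfz_rk le_rfl
  have hR : (mfz Y k).R k b = Y.rf k := by rw [Pth.R_eq, hrk, hrf]; omega
  have e := hc_deep P (mfz Y k) (i := k) (b := b) (b2 := b2) (K := 3 * K) (by linarith)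
    (fun ω p => mfz_Ok h1 (hY ω p)) ⟨hb8, by rw [hR]; exact hf8⟩ (by rw [hrf, hrk]; exact hd) hb
  refine le_trans ?_ e
  have e1 : hc P (DpM X k b) (DpM Y k b2) ≤ hc P (fun ω => ((mfz Y k).cell k b ω, DpM X k b ω)) (DpM Y k b2) :=
    hc_mono_left P fun ω ω' _ _ h => by
      simp only [Prod.mk.injEq] at h
      exact h.1.2
  have e2 := hc_pair P ((mfz Y k).cell k b) (DpM X k b) (DpM Y k b2)
  have e3 : hc P (DpM X k b) (fun ω => ((mfz Y k).cell k b ω, DpM Y k b2 ω)) = 0 := by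
    refine hc_zero P fun ω ω' p p' e => ?_
    simp only [Prod.mk.injEq] at e
    obtain ⟨c1, c2⟩ := e
    have m := (mfz_cell_iff b ω ω').1 c1
    have m' : X.pf k ω = X.pf k ω' := hpf ω ω' p p' (congrArg (fun x => x.1.1.2.1) c2)
    refine Prod.ext (mtr_fn h m' m) ?_
    have s : H683.slR (mfz X k) k b = H683.slR (mfz Y k) k b2 := slR_mfz h le_rfl hd (by omega)
    have c3 : fl1 (Y.rf k) (H683.slR (mfz Y k) k b2 ω + Y.o 4) = fl1 (Y.rf k) (H683.slR (mfz Y k) k b2 ω' + Y.o 4) :=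
      congrArg Prod.snd c2
    show fl1 (X.rf k) (H683.slR (mfz X k) k b ω + X.o 4) = fl1 (X.rf k) (H683.slR (mfz X k) k b ω' + X.o 4)
    rw [s, h.ff, h.sm.o]
    exact c3
  have e4 : hc P ((mfz Y k).cell k b) (DpM Y k b2) ≤ hc P ((mfz Y k).cell k b) ((mfz Y k).cell k b2) :=
    hc_mono_right P _ fun ω ω' _ _ e => (mfz_cell_iff b2 ω ω').2 (congrArg Prod.fst e)
  linarith

/-- entropy of the later letter, given `DpM` -/
theorem hc_ThM (P : Law Ω) (D : Mtd Ω π) (h1 : 1 ≤ K) (hD : ∀ ω, 0 < P.w ω → HyM D k K ω) (hki : k ≤ i)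
    (hb8 : 8 * D.μ ≤ b) (hf8 : 8 * D.μ ≤ D.rf k) (hd : D.rf k ≤ D.rr k + b) {N0 g : ℕ}
    (hN : 43 * (3 * K) ^ 5 ≤ N0) (hg : D.a i - D.a k + (D.rf i - D.rf k) + 3 * D.μ ≤ g) :
    hc P (ThM D k b i) (DpM D k b) ≤
      ((D.a i - D.a k : ℕ) : ℝ) * Real.log 2 + (Real.log (5 * N0) + g * Real.log 2) := by
  have hrf : (mfz D k).rf k = D.rf k := mfz_rf (by omega)
  have hrfi : (mfz D k).rf i = D.rf i := mfz_rf (by omega)
  have hrk : (mfz D k).rk k = D.rr k := mfz_rk le_rfl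
  have hR : (mfz D k).R k b = D.rf k := by rw [Pth.R_eq, hrk, hrf]; omega
  have hak : (mfz D k).a k = D.a k := mfz_a (by omega)
  have hai : (mfz D k).a i = D.a i := mfz_a (by omega)
  have hup := SR_up P (mfz D k) (K := 3 * K) (by linarith) (fun ω p => mfz_Ok h1 (hD ω p)) hki (b := b)
    ⟨hb8, by rw [hR]; exact hf8⟩ hN (g := g) (by
      rw [hak, hai, hrfi, hR]; exact hg)
  have e := hc_pair P (tdM D i) (fun ω => fl1 (D.rf i) (H683.slR (mfz D k) i b ω + D.o 4)) (DpM D k b)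
  have et : hc P (tdM D i) (DpM D k b) ≤ ((D.a i - D.a k : ℕ) : ℝ) * Real.log 2 := by
    have e1 := hc_fl_finer P (x := D.t) (Y := DpM D k b) (s := D.a k) (p := D.a i - D.a k)
      fun ω ω' _ _ e => congrArg (fun x => x.1.1.1) e
    have e2 : D.a k + (D.a i - D.a k) = D.a i := by
      have := D.ha hki
      omega
    rw [e2] at e1
    exact e1
  have es : hc P (fun ω => fl1 (D.rf i) (H683.slR (mfz D k) i b ω + D.o 4)) (fun ω => (tdM D i ω, DpM D k b ω)) ≤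
      hc P (SR (mfz D k) i b) (fun ω => ((mfz D k).T i ω, (mfz D k).cell k b ω)) := by
    refine (hc_mono_left P (X' := SR (mfz D k) i b) ?_).trans (hc_mono_right P _ ?_)
    · intro ω ω' _ _ e
      simp only [Prod.mk.injEq] at e
      have := e.1
      unfold SR at this
      rw [hrfi] at this
      exact this
    · intro ω ω' _ _ e
      simp only [Prod.mk.injEq] at e ⊢
      obtain ⟨c1, c2⟩ := e
      have m := congrArg Prod.fst c2
      refine ⟨(H958.mfz_T_iff (by omega)).2 ⟨congrArg Prod.fst m, c1⟩, (mfz_cell_iff b ω ω').2 m⟩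
  have e0 : hc P (ThM D k b i) (DpM D k b) =
      hc P (fun ω => (tdM D i ω, fl1 (D.rf i) (H683.slR (mfz D k) i b ω + D.o 4))) (DpM D k b) := rfl
  rw [e0]
  linarith

/-- **[F2], young steps, deep phi regime** : `X b` = the data of the cap `b` (letter of the cap, numbers of the first cap) -/
theorem f2_phiM (P : Law Ω) (X : ℕ → Mtd Ω π) (h1 : 1 ≤ K) {c0 n β : ℕ} (hki : k ≤ i)
    (hS : ∀ b b', c0 ≤ b → b ≤ b' → b' < c0 + n + β → Sn (X b) (X b') k)
    (hpf : ∀ b b', c0 ≤ b → b ≤ b' → b' < c0 + n + β → Fn P ((X b).pf k) ((X b').pf k))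
    (hM : ∀ b, c0 ≤ b → b < c0 + n + β → ∀ ω, 0 < P.w ω → HyM (X b) k K ω)
    (hβ : 8 * (X c0).μ ≤ β) (hb8 : 8 * (X c0).μ ≤ c0) (hf8 : 8 * (X c0).μ ≤ (X c0).rf k)
    (hdk : (X c0).rf k ≤ (X c0).rr k + c0) (hdi : (X c0).rf i ≤ (X c0).rr k + c0) {N0 g : ℕ}
    (hN : 43 * (3 * K) ^ 5 ≤ N0)
    (hg : (X c0).a i - (X c0).a k + ((X c0).rf i - (X c0).rf k) + 3 * (X c0).μ ≤ g) (hn : 0 < n) :
    ∑ b ∈ Ico c0 (c0 + n), mi P (ThM (X b) k b i) ((X b).mtr k (b + β)) (DpM (X b) k b) ≤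
      β * ((((X c0).a i - (X c0).a k : ℕ) : ℝ) * Real.log 2 + (Real.log (5 * N0) + g * Real.log 2)) +
        ∑ b ∈ Ico c0 (c0 + n), (4 + 9 * Real.log (2 * ⌈30 * (3 * K) ^ 2⌉₊ + 3)) *
          Real.sqrt (prE P ((mfz (X (b + β)) k).Bad (40 * (3 * K) ^ 2) k b)) := by
  have hμ : ∀ b, c0 ≤ b → b < c0 + n + β → (X b).μ = (X c0).μ := fun b h1 h2 =>
    (hS c0 b le_rfl h1 h2).sm.μ.symm
  have hrr : ∀ b, c0 ≤ b → b < c0 + n + β → (X b).rr k = (X c0).rr k := fun b h1 h2 =>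
    (hS c0 b le_rfl h1 h2).rr.symm
  have hrf : ∀ b, c0 ≤ b → b < c0 + n + β → (X b).rf = (X c0).rf := fun b h1 h2 =>
    (hS c0 b le_rfl h1 h2).ff.symm
  have ha : ∀ b, c0 ≤ b → b < c0 + n + β → (X b).a = (X c0).a := fun b h1 h2 =>
    (hS c0 b le_rfl h1 h2).aa.symm
  have hTh : ∀ b, c0 ≤ b → b < c0 + n + β → ThM (X b) k b i = ThM (X c0) k c0 i := fun b h1 h2 =>
    (ThM_eq (hS c0 b le_rfl h1 h2) hki (by rw [hrf b h1 h2, hrr b h1 h2]; exact hdi) h1).symm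
  have main := f2_gen P (ThM (X c0) k c0 i) (fun b => DpM (X b) k b) (fun b => (X b).mtr k (b + β))
    (fun b => (4 + 9 * Real.log (2 * ⌈30 * (3 * K) ^ 2⌉₊ + 3)) *
          Real.sqrt (prE P ((mfz (X (b + β)) k).Bad (40 * (3 * K) ^ 2) k b))) c0 n β
    (H := (((X c0).a i - (X c0).a k : ℕ) : ℝ) * Real.log 2 + (Real.log (5 * N0) + g * Real.log 2)) ?_ ?_ ?_
  · refine le_trans (le_of_eq ?_) main
    refine Finset.sum_congr rfl fun b hb => ?_
    rw [Finset.mem_Ico] at hb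
    rw [hTh b hb.1 (by omega)]
  · intro b hb1 hb2 ω ω' p p' e
    have h := hS b (b + β) hb1 (by omega) (by omega)
    have m : (X (b + β)).mtr k (b + β) ω = (X (b + β)).mtr k (b + β) ω' := congrArg Prod.fst e
    exact mtr_fn h (hpf b (b + β) hb1 (by omega) (by omega) ω ω' p p' (congrArg (fun x => x.1.2.1) m)) m
  · intro b hb1 hb2
    have h := hS b (b + β) hb1 (by omega) (by omega)
    refine hc_DpM P (X b) (X (b + β)) h h1 (hM (b + β) (by omega) (by omega)) ?_ ?_ ?_ ?_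
      (hpf b (b + β) hb1 (by omega) (by omega))
    · rw [hμ (b + β) (by omega) (by omega)]; omega
    · rw [hμ (b + β) (by omega) (by omega), hrf (b + β) (by omega) (by omega)]; exact hf8
    · rw [hrr (b + β) (by omega) (by omega), hrf (b + β) (by omega) (by omega)]; omega
    · rw [hμ (b + β) (by omega) (by omega)]; omega
  · intro b hb1 hb2
    have hb3 : b < c0 + n + β := by omega
    rw [← hTh b hb1 hb3]
    have := hc_ThM P (X b) h1 (hM b hb1 hb3) hki (b := b) (by rw [hμ b hb1 hb3]; omega)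
      (by rw [hμ b hb1 hb3, hrf b hb1 hb3]; exact hf8) (by rw [hrr b hb1 hb3, hrf b hb1 hb3]; omega) hN (g := g)
      (by rw [hμ b hb1 hb3, hrf b hb1 hb3, ha b hb1 hb3]; exact hg)
    rw [ha b hb1 hb3] at this
    exact this

end ent

end Vale.Agent.P106.U.H420
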