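import Vale.Agent.P106.U.H420.PhiM
import Vale.Agent.P106.U.H785.MtrFz
import Vale.Agent.P106.U.S3.F2

/-!
# P106 / U / H420 : [P1], young steps, deep phi regime, in the letters of `S3.F2` over 785's `fz k k` (helper420)

`Sn X Y k` : the same numbers at the step `k`, `Y` has the finer letter.

* `Sn.eqz` : `X.fz k k`, `Y.fz k k` have the same functionals.  `Sz X k b i` : (time digits, slope digits) of the step `i` in
  the frame of `k`; **`Sz_eq`** : the same variable for all caps.  `LTh_fn` : `LTh` is a function of `(Sz, LDk)`.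
* **`hc_LDk`** : `LDk (X.fz k k) b k` nearly nested.  `LDk_fn0` : exact function at the same cap.
* `hc_Sz` : `H(Sz | LDk) ≤ (a i - a k) log 2 + log (5 N₀) + g log 2`.
* **`f2_P1`** : the sum over an interval of caps.
-/

set_option autoImplicit false

namespace Vale.Agent.P106.U.H420

open Finset Vale.Agent.P127 Vale.Agent.P127.Stk
open Vale.Agent.P127.U.CellD (q2 rd Nb q2_pos q2_add q2_le q2_mul_pow fl1_fl1)
open Vale.Agent.P106.U.Cell
open Vale.Agent.P106.U.H785.Mtr (Mtd Lt)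
open Vale.Agent.P106.U.S3 (LTh LDk)

section sz

variable {Ω π π' : Type} {X : Mtd Ω π} {Y : Mtd Ω π'} {k i b b2 : ℕ} {ω ω' : Ω} {K : ℝ} {I : Set ℕ}

lemma fzk_rf (D : Mtd Ω π) (h : k ≤ i) : (D.fz k k).rf i = D.rf i := D.fz_rf h

lemma fzk_rk (D : Mtd Ω π) (h : k ≤ i) : (D.fz k k).rk i = D.rr k := D.fz_rk h h

lemma fzk_a (D : Mtd Ω π) (h : k ≤ i) : (D.fz k k).a i = D.a i := D.fz_a' h

lemma fzk_R (D : Mtd Ω π) (h : D.rf k ≤ D.rr k + b) : (D.fz k k).R k b = D.rf k := by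
  rw [D.fz_R le_rfl]
  unfold Mtd.R
  omega

/-- the frozen paths have the same functionals -/
lemma Sn.eqz (h : Sn X Y k) : Eqv (X.fz k k) (Y.fz k k) := by
  have ea : (X.fz k k).a = (Y.fz k k).a := by
    funext i
    show X.a (max i k) = Y.a (max i k)
    rw [h.aa]
  have ef : (X.fz k k).rf = (Y.fz k k).rf := by
    funext i
    show X.rf (max i k) = Y.rf (max i k)
    rw [h.ff]
  refine ⟨ea, ef, ?_, h.sm.μ, h.sm.o, h.sm.l, h.sm.t, h.sm.p, ?_⟩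
  · funext i
    show X.rr (min (max i k) k) = Y.rr (min (max i k) k)
    rw [min_eq_right (le_max_right i k), h.rr]
  · funext i ω
    have e1 : ((X.fz k k).F i ω).ga = ((Y.fz k k).F i ω).ga := h.gaL ω
    have e4 : ((X.fz k k).F i ω).al = ((Y.fz k k).F i ω).al := congrFun h.g ω
    have es : (X.fz k k).s i ω = (Y.fz k k).s i ω := by
      unfold Pth.s
      rw [ea]
      show rd _ (X.t ω) = rd _ (Y.t ω)
      rw [h.sm.t]
    have ek : X.s k ω = Y.s k ω := by rw [h.sm.s]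
    have e3 : ((X.fz k k).F i ω).ka = ((Y.fz k k).F i ω).ka := by
      rw [Mtd.fz_ka, Mtd.fz_ka, h.kaL, es, ek, h.g]
    have el : (X.fz k k).l ω = (Y.fz k k).l ω := by
      show X.l ω = Y.l ω
      rw [h.sm.l]
    have ep : rd ((X.fz k k).rf i) ((X.fz k k).p ω) = rd ((Y.fz k k).rf i) ((Y.fz k k).p ω) := by
      rw [ef]
      show rd _ (X.p ω) = rd _ (Y.p ω)
      rw [h.sm.p]
    have c1 := Pth.F_cV (C := X.fz k k) i ω
    have c2 := Pth.F_cV (C := Y.fz k k) i ω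
    rw [Pth.F_cN] at c1 c2
    unfold Fu.cV at c1 c2
    rw [e1, e3, e4, el, es, ep] at c1
    have e2 : ((X.fz k k).F i ω).ph = ((Y.fz k k).F i ω).ph := by linarith
    exact Fu.ext e1 e2 e3 e4

/-- the slope in the frozen frame does not depend on the cap, deep phi regime -/
lemma slR_fz (h : Sn X Y k) (hki : k ≤ i) (hd : Y.rf i ≤ Y.rr k + b) (hb : b ≤ b2) :
    slR (X.fz k k) i b = slR (Y.fz k k) i b2 := by
  rw [h.eqz.slR]
  refine slR_eq_of_le ?_ ?_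
  · rw [fzk_rf Y hki, fzk_rk Y hki]; omega
  · rw [fzk_rf Y hki, fzk_rk Y hki]; omega

/-- time digits and slope digits of the step `i`, in the frame of `k` -/
noncomputable def Sz (D : Mtd Ω π) (k b i : ℕ) (ω : Ω) : ℤ × ℤ :=
  (fl1 (D.a i) (D.t ω), fl1 (D.rf i) (slR (D.fz k k) i b ω + D.o 4))

/-- **the same variable for all caps** -/
theorem Sz_eq (h : Sn X Y k) (hki : k ≤ i) (hd : Y.rf i ≤ Y.rr k + b) (hb : b ≤ b2) :
    Sz X k b i = Sz Y k b2 i := by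
  funext ω
  unfold Sz
  rw [slR_fz h hki hd hb, h.aa, h.sm.t, h.ff, h.sm.o]

/-- `LTh` is a function of `Sz` and of the letter -/
lemma LTh_iff (D : Mtd Ω π) (hki : k ≤ i) (hd : D.rf i ≤ D.rr k + b) :
    LTh (D.fz k k) b i ω = LTh (D.fz k k) b i ω' ↔ D.lt k ω = D.lt k ω' ∧ Sz D k b i ω = Sz D k b i ω' := by
  have hc : (D.fz k k).rf i ≤ b + (D.fz k k).rk i := by rw [fzk_rf D hki, fzk_rk D hki]; omega
  have eT : ∀ ω, (D.fz k k).T i ω = (D.lt k ω, fl1 (D.a i) (D.t ω)) := by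
    intro ω
    show (D.lt k ω, fl1 (D.a (max i k)) (D.t ω)) = _
    rw [max_eq_left hki]
  have e : ∀ ω, LTh (D.fz k k) b i ω = ((D.lt k ω, fl1 (D.a i) (D.t ω)),
      fl1 (D.rf i) (slR (D.fz k k) i b ω + D.o 4)) := by
    intro ω
    unfold LTh
    rw [eT, if_pos hc, fzk_rf D hki]
    rfl
  rw [e, e]
  unfold Sz
  simp only [Prod.mk.injEq]
  exact ⟨fun h => ⟨h.1.1, h.1.2, h.2⟩, fun h => ⟨⟨h.1, h.2.1⟩, h.2.2⟩⟩

lemma LDk_iff (D : Mtd Ω π) (hd : D.rf k ≤ D.rr k + b) :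
    LDk (D.fz k k) b k ω = LDk (D.fz k k) b k ω' ↔ D.mtr k b ω = D.mtr k b ω' ∧
      fl1 (D.rf k) (slR (D.fz k k) k b ω + D.o 4) = fl1 (D.rf k) (slR (D.fz k k) k b ω' + D.o 4) := by
  have hc : (D.fz k k).rf k ≤ b + (D.fz k k).rk k := by
    rw [fzk_rf D le_rfl, fzk_rk D le_rfl]; omega
  have e : ∀ ω, LDk (D.fz k k) b k ω = ((D.fz k k).cell k b ω,
      fl1 (D.rf k) (slR (D.fz k k) k b ω + D.o 4)) := by
    intro ω
    unfold LDk
    rw [if_pos hc, fzk_rf D le_rfl]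
    rfl
  rw [e, e, Prod.mk.injEq, D.fz_cell_iff le_rfl]

/-- the letter in `LDk` -/
lemma LDk_lt (D : Mtd Ω π) (e : LDk (D.fz k k) b k ω = LDk (D.fz k k) b k ω') : D.lt k ω = D.lt k ω' := by
  have e1 : (D.fz k k).cell k b ω = (D.fz k k).cell k b ω' := congrArg Prod.fst e
  exact congrArg Prod.fst ((D.fz_cell_iff le_rfl b ω ω').1 e1)

lemma LDk_mtr (D : Mtd Ω π) (e : LDk (D.fz k k) b k ω = LDk (D.fz k k) b k ω') :
    D.mtr k b ω = D.mtr k b ω' :=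
  (D.fz_cell_iff le_rfl b ω ω').1 (congrArg Prod.fst e)

/-- **`X.mtr k b` is an exact function of `Y.mtr k b` and of the prefix letter** -/
theorem mtr_fnz (h : Sn X Y k) (hp : X.pf k ω = X.pf k ω') (e : Y.mtr k b ω = Y.mtr k b ω') :
    X.mtr k b ω = X.mtr k b ω' := mtr_fn h hp e

end sz

section ent

variable {Ω π π' : Type} [Fintype Ω] {k i b b2 : ℕ} {K : ℝ} {I : Set ℕ}

lemma LTh_fn (P : Law Ω) (D : Mtd Ω π) (hki : k ≤ i) (hd : D.rf i ≤ D.rr k + b) :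
    Fn P (LTh (D.fz k k) b i) (fun ω => (Sz D k b i ω, LDk (D.fz k k) b k ω)) := fun ω ω' _ _ e => by
  simp only [Prod.mk.injEq] at e
  exact (LTh_iff D hki hd).2 ⟨LDk_lt D e.2, e.1⟩

/-- the information of `LTh` is the information of `Sz` -/
lemma mi_LTh (P : Law Ω) (D : Mtd Ω π) {V : Type*} (W : Ω → V) (hki : k ≤ i) (hd : D.rf i ≤ D.rr k + b) :
    mi P (LTh (D.fz k k) b i) W (LDk (D.fz k k) b k) ≤ mi P (Sz D k b i) W (LDk (D.fz k k) b k) := by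
  have h := mi_fix P (Sz D k b i) (LTh (D.fz k k) b i) W (LDk (D.fz k k) b k)
  rw [hc_zero P (LTh_fn P D hki hd)] at h
  linarith

/-- **`LDk` is nearly nested in the cap** -/
theorem hc_LDk (P : Law Ω) (X : Mtd Ω π) (Y : Mtd Ω π') (h : Sn X Y k) (h1 : 1 ≤ K)
    (hY : ∀ ω, 0 < P.w ω → Y.Hy K I ω) (hk : k ∈ I) (hb8 : 8 * Y.μ ≤ b) (hf8 : 8 * Y.μ ≤ Y.rf k)
    (hd : Y.rf k ≤ Y.rr k + b) (hb : b + 8 * Y.μ ≤ b2) (hpf : Fn P (X.pf k) (Y.pf k)) :
    hc P (LDk (X.fz k k) b k) (LDk (Y.fz k k) b2 k) ≤ (4 + 9 * Real.log (2 * ⌈30 * (8 * K) ^ 2⌉₊ + 3)) *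
      Real.sqrt (prE P ((Y.fz k k).Bad (40 * (8 * K) ^ 2) k b)) := by
  have hrf : (Y.fz k k).rf k = Y.rf k := fzk_rf Y le_rfl
  have hrk : (Y.fz k k).rk k = Y.rr k := fzk_rk Y le_rfl
  have hdX : X.rf k ≤ X.rr k + b := by rw [h.ff, h.rr]; exact hd
  have e := hc_deep P (Y.fz k k) (i := k) (b := b) (b2 := b2) (K := 8 * K) (by linarith)
    (fun ω p => Mtd.fzk_ok h1 (hY ω p) hk) ⟨hb8, by rw [fzk_R Y hd]; exact hf8⟩
    (by rw [hrf, hrk]; exact hd) hb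
  refine le_trans ?_ e
  have e1 : hc P (LDk (X.fz k k) b k) (LDk (Y.fz k k) b2 k) ≤
      hc P (fun ω => ((Y.fz k k).cell k b ω, LDk (X.fz k k) b k ω)) (LDk (Y.fz k k) b2 k) :=
    hc_mono_left P fun ω ω' _ _ h => by
      simp only [Prod.mk.injEq] at h
      exact h.1.2
  have e2 := hc_pair P ((Y.fz k k).cell k b) (LDk (X.fz k k) b k) (LDk (Y.fz k k) b2 k)
  have e3 : hc P (LDk (X.fz k k) b k) (fun ω => ((Y.fz k k).cell k b ω, LDk (Y.fz k k) b2 k ω)) = 0 := by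
    refine hc_zero P fun ω ω' p p' e => ?_
    simp only [Prod.mk.injEq] at e
    obtain ⟨c1, c2⟩ := e
    have m := (Y.fz_cell_iff le_rfl b ω ω').1 c1
    have ml := LDk_lt Y c2
    have m' : X.pf k ω = X.pf k ω' := hpf ω ω' p p' (congrArg (fun x => x.2.1) ml)
    have s := slR_fz h (i := k) le_rfl hd (b2 := b2) (by omega)
    refine (LDk_iff X hdX).2 ⟨mtr_fn h m' m, ?_⟩
    have c3 := ((LDk_iff Y (b := b2) (by omega)).1 c2).2
    rw [s, h.ff, h.sm.o]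
    exact c3
  have e4 : hc P ((Y.fz k k).cell k b) (LDk (Y.fz k k) b2 k) ≤ hc P ((Y.fz k k).cell k b) ((Y.fz k k).cell k b2) :=
    hc_mono_right P _ fun ω ω' _ _ e => congrArg Prod.fst e
  linarith

/-- number of values of `Sz`, given `LDk` -/
theorem few_Sz (P : Law Ω) (D : Mtd Ω π) (h1 : 1 ≤ K) (hD : ∀ ω, 0 < P.w ω → D.Hy K I ω) (hk : k ∈ I)
    (hki : k ≤ i) (hb8 : 8 * D.μ ≤ b) (hf8 : 8 * D.μ ≤ D.rf k) (hd : D.rf k ≤ D.rr k + b) {N0 g : ℕ}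
    (hN : 43 * (8 * K) ^ 5 ≤ N0) (hg : D.a i - D.a k + (D.rf i - D.rf k) + 3 * D.μ ≤ g) :
    ∀ ω, 0 < P.w ω → ∃ F : Finset (ℤ × ℤ), F.card ≤ 2 ^ (D.a i - D.a k) * (2 * (N0 * 2 ^ g) + 3) ∧
      ∀ ω', 0 < P.w ω' → LDk (D.fz k k) b k ω' = LDk (D.fz k k) b k ω → Sz D k b i ω' ∈ F := by
  classical
  intro ω hω
  have haki := D.ha hki
  have hok : ∀ ω, 0 < P.w ω → (D.fz k k).Ok (8 * K) ω := fun ω p => Mtd.fzk_ok h1 (hD ω p) hk
  have hl : (D.fz k k).Lev k b := ⟨hb8, by rw [fzk_R D hd]; exact hf8⟩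
  set d := D.a i - D.a k with hdd
  set n : ℤ := fl1 (D.a k) (D.t ω) with hn
  -- the time digits
  have ht : ∀ ω', fl1 (D.a k) (D.t ω') = n → fl1 (D.a i) (D.t ω') ∈ Finset.Ico (2 ^ d * n) (2 ^ d * n + 2 ^ d) := by
    intro ω' e
    rw [Finset.mem_Ico]
    have h2 : (0 : ℝ) < 2 ^ d := by positivity
    have a1 := Int.floor_le ((2 : ℝ) ^ D.a k * D.t ω')
    have a2 := Int.lt_floor_add_one ((2 : ℝ) ^ D.a k * D.t ω')
    have e3 : n = ⌊(2 : ℝ) ^ D.a k * D.t ω'⌋ := e.symm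
    have e4 : fl1 (D.a i) (D.t ω') = ⌊(2 : ℝ) ^ d * ((2 : ℝ) ^ D.a k * D.t ω')⌋ := by
      unfold fl1
      rw [← mul_assoc, ← pow_add, show d + D.a k = D.a i by omega]
    rw [e3, e4]
    constructor
    · rw [Int.le_floor]
      push_cast
      exact mul_le_mul_of_nonneg_left a1 h2.le
    · rw [Int.floor_lt]
      push_cast
      nlinarith
  -- for each time, the slope digits
  have key : ∀ τ : ℤ, ∃ G : Finset ℤ, G.card ≤ 2 * (N0 * 2 ^ g) + 3 ∧ ∀ ω', 0 < P.w ω' →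
      LDk (D.fz k k) b k ω' = LDk (D.fz k k) b k ω → fl1 (D.a i) (D.t ω') = τ →
      fl1 (D.rf i) (slR (D.fz k k) i b ω' + D.o 4) ∈ G := by
    intro τ
    by_cases hex : ∃ ω1, 0 < P.w ω1 ∧ LDk (D.fz k k) b k ω1 = LDk (D.fz k k) b k ω ∧ fl1 (D.a i) (D.t ω1) = τ
    · obtain ⟨ω1, p1, c1, t1⟩ := hex
      set z := fl1 (D.rf i) (slR (D.fz k k) i b ω1 + D.o 4) with hz
      refine ⟨Finset.Icc (z - (N0 * 2 ^ g + 1)) (z + (N0 * 2 ^ g + 1)), ?_, fun ω' p' c' t' => ?_⟩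
      · rw [Int.card_Icc]
        have : z + (N0 * 2 ^ g + 1) + 1 - (z - (N0 * 2 ^ g + 1)) = ((2 * (N0 * 2 ^ g) + 3 : ℕ) : ℤ) := by
          push_cast; ring
        rw [this, Int.toNat_natCast]
      · have cc : LDk (D.fz k k) b k ω1 = LDk (D.fz k k) b k ω' := c1.trans c'.symm
        have hT : (D.fz k k).T i ω1 = (D.fz k k).T i ω' := by
          show (D.lt k ω1, fl1 (D.a (max i k)) (D.t ω1)) = (D.lt k ω', fl1 (D.a (max i k)) (D.t ω'))
          rw [max_eq_left hki, LDk_lt D cc, t1, t']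
        have h := slR_up (K := 8 * K) (by linarith) (hok ω1 p1) (hok ω' p') hki hl (congrArg Prod.fst cc) hT
        have hR := fzk_R D hd
        have hff := D.hf hki
        have hcl : |(slR (D.fz k k) i b ω' + D.o 4) - (slR (D.fz k k) i b ω1 + D.o 4)| ≤
            ((N0 * 2 ^ g : ℕ) : ℝ) * q2 (D.rf i) := by
          rw [add_sub_add_right_eq_sub]
          refine h.trans ?_
          rw [fzk_a D hki, fzk_a D le_rfl, hR]
          have e2 : q2 (D.rf k - 3 * D.μ) = 2 ^ (D.rf i - D.rf k + 3 * D.μ) * q2 (D.rf i) := by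
            have := q2_sub (m := D.rf i - D.rf k + 3 * D.μ) (n := D.rf i) (by omega)
            rwa [show D.rf i - (D.rf i - D.rf k + 3 * D.μ) = D.rf k - 3 * D.μ by omega] at this
          show 43 * (8 * K) ^ 5 * 2 ^ (D.a i - D.a k) * q2 (D.rf k - 3 * D.μ) ≤ _
          rw [e2]
          have q := q2_pos (D.rf i)
          have w : (2 : ℝ) ^ (D.a i - D.a k) * 2 ^ (D.rf i - D.rf k + 3 * D.μ) ≤ 2 ^ g := by
            rw [← pow_add]
            exact pow_le_pow_right₀ (by norm_num) (by omega)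
          push_cast
          calc 43 * (8 * K) ^ 5 * 2 ^ (D.a i - D.a k) * (2 ^ (D.rf i - D.rf k + 3 * D.μ) * q2 (D.rf i)) =
              43 * (8 * K) ^ 5 * (2 ^ (D.a i - D.a k) * 2 ^ (D.rf i - D.rf k + 3 * D.μ)) * q2 (D.rf i) := by ring
            _ ≤ N0 * 2 ^ g * q2 (D.rf i) := by gcongr
        have h5 := H364.fl1_le_of_near hcl
        rw [Finset.mem_Icc]
        have h6 := abs_le.1 h5
        push_cast at h6
        constructor <;> linarith [h6.1, h6.2]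
    · exact ⟨∅, by simp, fun ω' p' c' t' => absurd ⟨ω', p', c', t'⟩ hex⟩
  choose G hG1 hG2 using key
  refine ⟨(Finset.Ico (2 ^ d * n) (2 ^ d * n + 2 ^ d)).biUnion fun τ => (G τ).image fun x => (τ, x), ?_,
    fun ω' p' e => ?_⟩
  · refine Finset.card_biUnion_le.trans ?_
    have hcard : (Finset.Ico ((2 : ℤ) ^ d * n) (2 ^ d * n + 2 ^ d)).card = 2 ^ d := by
      rw [Int.card_Ico]
      have : (2 : ℤ) ^ d * n + 2 ^ d - 2 ^ d * n = ((2 ^ d : ℕ) : ℤ) := by push_cast; ring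
      rw [this, Int.toNat_natCast]
    calc _ ≤ ∑ _τ ∈ Finset.Ico ((2 : ℤ) ^ d * n) (2 ^ d * n + 2 ^ d), (2 * (N0 * 2 ^ g) + 3) :=
          Finset.sum_le_sum fun τ _ => Finset.card_image_le.trans (hG1 τ)
      _ = _ := by rw [Finset.sum_const, hcard, smul_eq_mul]
  · have hlt := LDk_lt D e
    have hm := ht ω' (congrArg Prod.fst hlt)
    rw [Finset.mem_biUnion]
    exact ⟨fl1 (D.a i) (D.t ω'), hm, Finset.mem_image.2
      ⟨fl1 (D.rf i) (slR (D.fz k k) i b ω' + D.o 4), hG2 _ ω' p' e rfl, rfl⟩⟩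

/-- entropy of `Sz`, given `LDk` -/
theorem hc_Sz (P : Law Ω) (D : Mtd Ω π) (h1 : 1 ≤ K) (hD : ∀ ω, 0 < P.w ω → D.Hy K I ω) (hk : k ∈ I)
    (hki : k ≤ i) (hb8 : 8 * D.μ ≤ b) (hf8 : 8 * D.μ ≤ D.rf k) (hd : D.rf k ≤ D.rr k + b) {N0 g : ℕ}
    (hN : 43 * (8 * K) ^ 5 ≤ N0) (hg : D.a i - D.a k + (D.rf i - D.rf k) + 3 * D.μ ≤ g) :
    hc P (Sz D k b i) (LDk (D.fz k k) b k) ≤
      ((D.a i - D.a k : ℕ) : ℝ) * Real.log 2 + (Real.log (5 * N0) + g * Real.log 2) := by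
  have e := hc_le_log P (Sz D k b i) (LDk (D.fz k k) b k) _ (few_Sz P D h1 hD hk hki hb8 hf8 hd hN hg)
  refine e.trans ?_
  have hN2 : (1 : ℝ) ≤ N0 := le_trans (by
    have : (1 : ℝ) ≤ (8 * K) ^ 5 := one_le_pow₀ (by linarith)
    linarith) hN
  have hM : (1 : ℝ) ≤ N0 * 2 ^ g := by
    have : (1 : ℝ) ≤ 2 ^ g := one_le_pow₀ (by norm_num)
    nlinarith
  push_cast
  rw [Real.log_mul (by positivity) (by positivity), Real.log_pow]
  have e1 : Real.log (5 * N0) + g * Real.log 2 = Real.log (5 * N0 * 2 ^ g) := by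
    rw [Real.log_mul (x := 5 * (N0 : ℝ)) (by positivity) (by positivity), Real.log_pow]
  rw [e1]
  have e2 : Real.log (2 * (N0 * 2 ^ g) + 3) ≤ Real.log (5 * N0 * 2 ^ g) :=
    Real.log_le_log (by positivity) (by linarith)
  linarith

/-- **[P1]**, one window of caps: `X b` = the data of the cap `b` (letter of the cap, numbers of the first cap) -/
theorem f2_P1 (P : Law Ω) (X : ℕ → Mtd Ω π) (h1 : 1 ≤ K) {c0 n β : ℕ} (hki : k ≤ i)
    (hS : ∀ b b', c0 ≤ b → b ≤ b' → b' < c0 + n + β → Sn (X b) (X b') k)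
    (hpf : ∀ b b', c0 ≤ b → b ≤ b' → b' < c0 + n + β → Fn P ((X b).pf k) ((X b').pf k))
    (hM : ∀ b, c0 ≤ b → b < c0 + n + β → ∀ ω, 0 < P.w ω → (X b).Hy K I ω) (hk : k ∈ I)
    (hβ : 8 * (X c0).μ ≤ β) (hb8 : 8 * (X c0).μ ≤ c0) (hf8 : 8 * (X c0).μ ≤ (X c0).rf k)
    (hdk : (X c0).rf k ≤ (X c0).rr k + c0) (hdi : (X c0).rf i ≤ (X c0).rr k + c0) {N0 g : ℕ}
    (hN : 43 * (8 * K) ^ 5 ≤ N0)
    (hg : (X c0).a i - (X c0).a k + ((X c0).rf i - (X c0).rf k) + 3 * (X c0).μ ≤ g) (hn : 0 < n) :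
    ∑ b ∈ Ico c0 (c0 + n), mi P (LTh ((X b).fz k k) b i) (((X b).fz k k).cell k (b + β))
        (LDk ((X b).fz k k) b k) ≤
      β * ((((X c0).a i - (X c0).a k : ℕ) : ℝ) * Real.log 2 + (Real.log (5 * N0) + g * Real.log 2)) +
        ∑ b ∈ Ico c0 (c0 + n), (4 + 9 * Real.log (2 * ⌈30 * (8 * K) ^ 2⌉₊ + 3)) *
          Real.sqrt (prE P (((X (b + β)).fz k k).Bad (40 * (8 * K) ^ 2) k b)) := by
  have hμ : ∀ b, c0 ≤ b → b < c0 + n + β → (X b).μ = (X c0).μ := fun b h1 h2 =>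
    (hS c0 b le_rfl h1 h2).sm.μ.symm
  have hrr : ∀ b, c0 ≤ b → b < c0 + n + β → (X b).rr k = (X c0).rr k := fun b h1 h2 =>
    (hS c0 b le_rfl h1 h2).rr.symm
  have hrf : ∀ b, c0 ≤ b → b < c0 + n + β → (X b).rf = (X c0).rf := fun b h1 h2 =>
    (hS c0 b le_rfl h1 h2).ff.symm
  have ha : ∀ b, c0 ≤ b → b < c0 + n + β → (X b).a = (X c0).a := fun b h1 h2 =>
    (hS c0 b le_rfl h1 h2).aa.symm
  have hTh : ∀ b, c0 ≤ b → b < c0 + n + β → Sz (X b) k b i = Sz (X c0) k c0 i := fun b h1 h2 =>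
    (Sz_eq (hS c0 b le_rfl h1 h2) hki (by rw [hrf b h1 h2, hrr b h1 h2]; exact hdi) h1).symm
  have main := f2_gen P (Sz (X c0) k c0 i) (fun b => LDk ((X b).fz k k) b k)
    (fun b => ((X b).fz k k).cell k (b + β))
    (fun b => (4 + 9 * Real.log (2 * ⌈30 * (8 * K) ^ 2⌉₊ + 3)) *
          Real.sqrt (prE P (((X (b + β)).fz k k).Bad (40 * (8 * K) ^ 2) k b))) c0 n β
    (H := (((X c0).a i - (X c0).a k : ℕ) : ℝ) * Real.log 2 + (Real.log (5 * N0) + g * Real.log 2)) ?_ ?_ ?_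
  · refine le_trans (Finset.sum_le_sum fun b hb => ?_) main
    rw [Finset.mem_Ico] at hb
    have hb3 : b < c0 + n + β := by omega
    refine (mi_LTh P (X b) _ hki (by rw [hrf b hb.1 hb3, hrr b hb.1 hb3]; omega)).trans (le_of_eq ?_)
    rw [hTh b hb.1 hb3]
  · intro b hb1 hb2 ω ω' p p' e
    have h := hS b (b + β) hb1 (by omega) (by omega)
    have m := LDk_mtr (X (b + β)) e
    exact ((X b).fz_cell_iff le_rfl (b + β) ω ω').2
      (mtr_fn h (hpf b (b + β) hb1 (by omega) (by omega) ω ω' p p' (congrArg (fun x => x.1.2.1) m)) m)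
  · intro b hb1 hb2
    have h := hS b (b + β) hb1 (by omega) (by omega)
    refine hc_LDk P (X b) (X (b + β)) h h1 (hM (b + β) (by omega) (by omega)) hk ?_ ?_ ?_ ?_
      (hpf b (b + β) hb1 (by omega) (by omega))
    · rw [hμ (b + β) (by omega) (by omega)]; omega
    · rw [hμ (b + β) (by omega) (by omega), hrf (b + β) (by omega) (by omega)]; exact hf8
    · rw [hrr (b + β) (by omega) (by omega), hrf (b + β) (by omega) (by omega)]; omega
    · rw [hμ (b + β) (by omega) (by omega)]; omega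
  · intro b hb1 hb2
    have hb3 : b < c0 + n + β := by omega
    rw [← hTh b hb1 hb3]
    have := hc_Sz P (X b) h1 (hM b hb1 hb3) hk hki (b := b) (by rw [hμ b hb1 hb3]; omega)
      (by rw [hμ b hb1 hb3, hrf b hb1 hb3]; exact hf8) (by rw [hrr b hb1 hb3, hrf b hb1 hb3]; omega) hN (g := g)
      (by rw [hμ b hb1 hb3, hrf b hb1 hb3, ha b hb1 hb3]; exact hg)
    rw [ha b hb1 hb3] at this
    exact this

end ent

end Vale.Agent.P106.U.H420
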