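import Vale.Agent.P106.U.CellN
import Vale.Agent.P106.U.H364.Nhc

/-!
# P106 / U / H420 : the slope of the slab with the true own slope (helper420)

* `phR i ω` : slope coefficient of the slab of step `i` through the ray, with the TRUE own slope `p` (and not its
  `rf i` digits); `slR i b` : the same at the base velocity (helper683's `slR`); `SR i b` : its `rf i` digits.
* `slR_eq_of_le`, `SR_eq_of_le` : `slR i b` does not depend on `b ≥ rf i - rk i`.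
* `slR_up` : rays in one cell `(i, b)` with the same letter `T j`, `i ≤ j`: `slR j b` is known up to
  `43 K^5 2^(a j - a i) 2^-(R i b - 3 μ)`.
* `slR_down` : rays in one cell `(j, b)`, `i ≤ j`: `slR i b` is known up to
  `6 K^3 2^-(R j b - 3 μ) + 26 K^5 2^-(rk i + b - μ)`.
-/

set_option autoImplicit false

namespace Vale.Agent.P106.U.H420

open Finset Vale.Agent.P127 Vale.Agent.P127.Stk Vale.Agent.P106.U.Cell
open Vale.Agent.P127.U.CellD

variable {Ω τ : Type} {C : Pth Ω τ} {i j b : ℕ} {ω ω' : Ω} {K : ℝ}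

/-- slope coefficient of the slab of step `i` with the true own slope -/
noncomputable def phR (C : Pth Ω τ) (i : ℕ) (ω : Ω) : ℝ :=
  C.p ω * (C.F i ω).cN (C.l ω) (C.s i ω) - (C.F i ω).ka * (C.l ω).v -
    (C.F i ω).al * (C.l ω).X (C.s i ω)

/-- slope at the base velocity with the true own slope -/
noncomputable def slR (C : Pth Ω τ) (i b : ℕ) (ω : Ω) : ℝ :=
  C.p ω * (C.F i ω).cN (C.l ω) (C.s i ω) -
    (C.F i ω).ka * ((C.l ω).v - rd (C.bs i b) (C.l ω).v) - (C.F i ω).al * (C.l ω).X (C.s i ω)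

/-- nominal digits of the true slope -/
noncomputable def SR (C : Pth Ω τ) (i b : ℕ) (ω : Ω) : ℤ := fl1 (C.rf i) (slR C i b ω + C.o 4)

lemma slR_eq (i b : ℕ) (ω : Ω) :
    slR C i b ω = phR C i ω + (C.F i ω).ka * rd (C.bs i b) (C.l ω).v := by
  unfold slR phR; ring

lemma sl_slR (i b : ℕ) (ω : Ω) :
    C.sl i b ω = slR C i b ω -
      (C.p ω - rd (C.rf i) (C.p ω)) * (C.F i ω).cN (C.l ω) (C.s i ω) := by
  have h := Pth.F_cV (C := C) i ω
  unfold Fu.cV at h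
  rw [slR_eq]
  unfold Pth.sl phR
  linear_combination h

lemma ph_phR (i : ℕ) (ω : Ω) :
    (C.F i ω).ph = phR C i ω -
      (C.p ω - rd (C.rf i) (C.p ω)) * (C.F i ω).cN (C.l ω) (C.s i ω) := by
  have h := Pth.F_cV (C := C) i ω
  unfold Fu.cV at h
  unfold phR
  linear_combination h

lemma bs_eq_of_le (h : C.rf i - C.rk i ≤ b) : C.bs i b = C.rf i - C.rk i := by
  unfold Pth.bs; omega

lemma R_eq_of_le (h : C.rf i - C.rk i ≤ b) : C.R i b = C.rf i := by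
  have := C.hkf i
  rw [Pth.R_eq]; omega

/-- the slope at the base velocity does not depend on the cap -/
lemma slR_eq_of_le {b' : ℕ} (h : C.rf i - C.rk i ≤ b) (h' : C.rf i - C.rk i ≤ b') :
    slR C i b = slR C i b' := by
  funext ω
  unfold slR
  rw [bs_eq_of_le h, bs_eq_of_le h']

lemma SR_eq_of_le {b' : ℕ} (h : C.rf i - C.rk i ≤ b) (h' : C.rf i - C.rk i ≤ b') :
    SR C i b = SR C i b' := by
  funext ω
  unfold SR
  rw [slR_eq_of_le h h']

/-- the differences of `slR` and of `phR` are the same -/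
lemma slR_sub (hT : C.T i ω = C.T i ω') (hv : fl1 b (C.l ω).v = fl1 b (C.l ω').v) :
    slR C i b ω' - slR C i b ω = phR C i ω' - phR C i ω := by
  have e2 : rd (C.bs i b) (C.l ω').v = rd (C.bs i b) (C.l ω).v := by
    unfold rd; rw [fl1_fl1 (C.bs_le i b) hv]
  rw [slR_eq, slR_eq, e2, Pth.F_ka hT]
  ring

/-- true and rounded slope -/
lemma ph_near (h1 : 1 ≤ K) (hK : C.Ok K ω) (i : ℕ) : |phR C i ω - (C.F i ω).ph| ≤ K * q2 (C.rf i) := by
  rw [ph_phR, sub_sub_cancel]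
  rw [abs_mul, mul_comm K]
  refine mul_le_mul ?_ (Pth.cN_abs hK h1 i) (abs_nonneg _) (q2_pos _).le
  have := rd_err (C.rf i) (C.p ω)
  rwa [abs_sub_comm] at this

/-- difference of the true slopes in one cell -/
lemma phR_cell (h1 : 1 ≤ K) (hK : C.Ok K ω) (hK' : C.Ok K ω') (hl : C.Lev i b)
    (h : C.cell i b ω = C.cell i b ω') :
    |phR C i ω' - phR C i ω| ≤ 3 * K * q2 (C.R i b - 3 * C.μ) := by
  have a1 := (Pth.Nr_of_cell hl h).2
  have a2 := ph_near h1 hK i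
  have a3 := ph_near h1 hK' i
  have a4 : q2 (C.rf i) ≤ q2 (C.R i b - 3 * C.μ) := q2_le (by have := C.R_le_rf i b; omega)
  have q0 := q2_pos (C.R i b - 3 * C.μ)
  have q1 := q2_pos (C.rf i)
  have a5 : K * q2 (C.rf i) ≤ K * q2 (C.R i b - 3 * C.μ) :=
    mul_le_mul_of_nonneg_left a4 (by linarith)
  have a6 : 1 * q2 (C.R i b - 3 * C.μ) ≤ K * q2 (C.R i b - 3 * C.μ) :=
    mul_le_mul_of_nonneg_right h1 q0.le
  rw [abs_le] at *
  constructor <;> linarith [a1.1, a1.2, a2.1, a2.2, a3.1, a3.2]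

/-- difference of the own slopes in one cell -/
lemma p_cell (h1 : 1 ≤ K) (hK : C.Ok K ω) (hK' : C.Ok K ω') (hl : C.Lev i b)
    (h : C.cell i b ω = C.cell i b ω') :
    |C.p ω' - C.p ω| ≤ K * (|phR C i ω' - phR C i ω| + 13 * K ^ 3 * q2 (b - C.μ)) := by
  have hN := Pth.Nr_of_cell' h1 hK hl h
  have hT := (Pth.cell_iff.1 h).1
  have K0 : 0 < K := by linarith
  obtain ⟨hb, hR⟩ := hl
  have si : C.s i ω' = C.s i ω := Pth.s_eq hT
  set c := (C.F i ω).cN (C.l ω) (C.s i ω) with hc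
  set c' := (C.F i ω').cN (C.l ω') (C.s i ω') with hc'
  have ec : c' - c = -((C.F i ω).ka * ((C.l ω').w - (C.l ω).w)) -
      (C.F i ω).al * ((C.l ω').N (C.s i ω) - (C.l ω).N (C.s i ω)) := by
    rw [hc, hc']
    unfold Fu.cN
    rw [Pth.F_ga hT, Pth.F_ka hT, Pth.F_al hT, si]
    ring
  have e : (C.p ω' - C.p ω) * c = (phR C i ω' - phR C i ω) +
      (C.F i ω).ka * ((C.l ω').v - (C.l ω).v) +
      (C.F i ω).al * ((C.l ω').X (C.s i ω) - (C.l ω).X (C.s i ω)) - C.p ω' * (c' - c) := by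
    unfold phR
    rw [← hc, ← hc', Pth.F_ka hT, Pth.F_al hT, si]
    ring
  have q := q2_pos (b - C.μ)
  have qa := q2_pos (C.a i)
  have al := Pth.al_le hK i
  have b1 : q2 b ≤ q2 (b - C.μ) := q2_le (by omega)
  have b2 : q2 (b + 2 * C.μ) ≤ q2 (b - C.μ) := q2_le (by omega)
  have eX : q2 (C.a i + b - C.μ) = q2 (C.a i) * q2 (b - C.μ) := by
    rw [← q2_add]; congr 1; omega
  have K2 : 1 ≤ K ^ 2 := one_le_pow₀ h1
  have k3 : K ≤ K ^ 3 := by
    calc K = K ^ 1 := (pow_one K).symm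
      _ ≤ K ^ 3 := pow_le_pow_right₀ h1 (by norm_num)
  have m1 : |(C.F i ω).ka * ((C.l ω').v - (C.l ω).v)| ≤ K ^ 3 * q2 (b - C.μ) :=
    (Pth.abs_mul_le (hK.k1 i) hN.v).trans (mul_le_mul k3 b1 (q2_pos _).le (by positivity))
  have m2 : |(C.F i ω).al * ((C.l ω').X (C.s i ω) - (C.l ω).X (C.s i ω))| ≤ K ^ 3 * q2 (b - C.μ) := by
    refine (Pth.abs_mul_le al hN.X).trans (le_of_eq_of_le ?_ (mul_le_mul_of_nonneg_right k3 q.le))
    rw [eX]; field_simp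
  have m3 : |(C.F i ω).ka * ((C.l ω').w - (C.l ω).w)| ≤ 10 * K ^ 3 * q2 (b - C.μ) := by
    refine (Pth.abs_mul_le (hK.k1 i) hN.w).trans ?_
    calc K * (10 * K ^ 2 * q2 (b + 2 * C.μ)) = 10 * K ^ 3 * q2 (b + 2 * C.μ) := by ring
      _ ≤ _ := mul_le_mul_of_nonneg_left b2 (by positivity)
  have m4 : |(C.F i ω).al * ((C.l ω').N (C.s i ω) - (C.l ω).N (C.s i ω))| ≤ K ^ 3 * q2 (b - C.μ) := by
    refine (Pth.abs_mul_le al hN.N).trans (le_of_eq_of_le ?_ (mul_le_mul_of_nonneg_right k3 q.le))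
    rw [eX]; field_simp
  have hc1 : |c' - c| ≤ 11 * K ^ 3 * q2 (b - C.μ) := by
    rw [ec, abs_le]
    have n3 := abs_le.1 m3
    have n4 := abs_le.1 m4
    constructor <;> linarith [n3.1, n3.2, n4.1, n4.2]
  have hp1 : |C.p ω'| ≤ 1 := hK'.p1.trans (Pth.q2_le_one _)
  have m5 : |C.p ω' * (c' - c)| ≤ 1 * (11 * K ^ 3 * q2 (b - C.μ)) := Pth.abs_mul_le hp1 hc1
  have hB : |(C.p ω' - C.p ω) * c| ≤ |phR C i ω' - phR C i ω| + 13 * K ^ 3 * q2 (b - C.μ) := by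
    rw [e]
    have n0 := abs_le.1 (le_refl |phR C i ω' - phR C i ω|)
    have n1 := abs_le.1 m1
    have n2 := abs_le.1 m2
    have n5 := abs_le.1 m5
    rw [abs_le]
    constructor <;> linarith [n0.1, n0.2, n1.1, n1.2, n2.1, n2.2, n5.1, n5.2]
  have hc0 : 1 ≤ K * c := hK.n1 i
  have hcp : 0 < c := by
    by_contra hn
    push Not at hn
    have := mul_nonpos_of_nonneg_of_nonpos K0.le hn
    linarith
  rw [abs_mul, abs_of_pos hcp] at hB
  calc |C.p ω' - C.p ω| = 1 * |C.p ω' - C.p ω| := (one_mul _).symm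
    _ ≤ (K * c) * |C.p ω' - C.p ω| := mul_le_mul_of_nonneg_right hc0 (abs_nonneg _)
    _ = K * (|C.p ω' - C.p ω| * c) := by ring
    _ ≤ _ := mul_le_mul_of_nonneg_left hB K0.le

/-- **the difference of the slabs of two steps varies little** -/
lemma dph (h1 : 1 ≤ K) (hK : C.Ok K ω) (hK' : C.Ok K ω') (hij : i ≤ j) (hT : C.T j ω = C.T j ω')
    {dv dw dX dN dp : ℝ} (hv : |(C.l ω').v - (C.l ω).v| ≤ dv) (hw : |(C.l ω').w - (C.l ω).w| ≤ dw)
    (hX : |(C.l ω').X (C.s j ω) - (C.l ω).X (C.s j ω)| ≤ dX)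
    (hN : |(C.l ω').N (C.s j ω) - (C.l ω).N (C.s j ω)| ≤ dN) (hp : |C.p ω' - C.p ω| ≤ dp) :
    |(phR C j ω' - phR C j ω) - (phR C i ω' - phR C i ω)| ≤
      K * q2 (C.rk i) * (dw + dv + dp) + K * q2 (C.rk i) / q2 (C.a j) * (dX + dN) := by
  have hTi : C.T i ω = C.T i ω' := Pth.T_mono hij hT
  have K0 : 0 < K := by linarith
  have sj : C.s j ω' = C.s j ω := Pth.s_eq hT
  have si : C.s i ω' = C.s i ω := Pth.s_eq hTi
  have ag := hK.ag i j hij
  have g1 := ag.cN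
  have g2 := ag.ka
  have g3 := ag.al
  have sh1 := Fu.cN_sh (C.F i ω) (C.l ω) (C.s i ω) (C.s j ω - C.s i ω)
  rw [add_sub_cancel] at sh1
  rw [sh1] at g1
  have Xi : (C.l ω).X (C.s i ω) = (C.l ω).X (C.s j ω) + (C.s i ω - C.s j ω) * (C.l ω).v := by
    rw [← Ray.X_add]; congr 1; ring
  have Xi' : (C.l ω').X (C.s i ω) = (C.l ω').X (C.s j ω) + (C.s i ω - C.s j ω) * (C.l ω').v := by
    rw [← Ray.X_add]; congr 1; ring
  have Ni : (C.l ω).N (C.s i ω) = (C.l ω).N (C.s j ω) + (C.s i ω - C.s j ω) * (C.l ω).w := by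
    rw [← Ray.N_add]; congr 1; ring
  have Ni' : (C.l ω').N (C.s i ω) = (C.l ω').N (C.s j ω) + (C.s i ω - C.s j ω) * (C.l ω').w := by
    rw [← Ray.N_add]; congr 1; ring
  have qa := q2_pos (C.a j)
  have rk0 := q2_pos (C.rk i)
  set Dk := (C.F j ω).ka - ((C.F i ω).ka - (C.s j ω - C.s i ω) * (C.F i ω).al) with hDk
  set Da := (C.F j ω).al - (C.F i ω).al with hDa
  have hda : |Da| ≤ K * q2 (C.rk i) / q2 (C.a j) := by
    rw [le_div_iff₀ qa]; exact g3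
  have hdk : |Dk| ≤ K * q2 (C.rk i) := g2
  set cj := (C.F j ω).cN (C.l ω) (C.s j ω) with hcj
  set ci := (C.F i ω).cN (C.l ω) (C.s i ω) with hci
  set cj' := (C.F j ω').cN (C.l ω') (C.s j ω') with hcj'
  set ci' := (C.F i ω').cN (C.l ω') (C.s i ω') with hci'
  have ec : (cj' - ci') - (cj - ci) = -(Dk * ((C.l ω').w - (C.l ω).w)) -
      Da * ((C.l ω').N (C.s j ω) - (C.l ω).N (C.s j ω)) := by
    rw [hcj, hci, hcj', hci', hDk, hDa]
    unfold Fu.cN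
    rw [Pth.F_ga hT, Pth.F_ka hT, Pth.F_al hT, Pth.F_ga hTi, Pth.F_ka hTi, Pth.F_al hTi, si, sj, Ni, Ni']
    ring
  have e : (phR C j ω' - phR C j ω) - (phR C i ω' - phR C i ω) =
      C.p ω' * ((cj' - ci') - (cj - ci)) + (C.p ω' - C.p ω) * (cj - ci) -
      Dk * ((C.l ω').v - (C.l ω).v) - Da * ((C.l ω').X (C.s j ω) - (C.l ω).X (C.s j ω)) := by
    unfold phR
    rw [← hcj, ← hci, ← hcj', ← hci', hDk, hDa, Pth.F_ka hT, Pth.F_al hT, Pth.F_ka hTi, Pth.F_al hTi,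
      si, sj, Xi, Xi']
    ring
  have hp1 : |C.p ω'| ≤ 1 := hK'.p1.trans (Pth.q2_le_one _)
  have m1 : |Dk * ((C.l ω').w - (C.l ω).w)| ≤ K * q2 (C.rk i) * dw := Pth.abs_mul_le hdk hw
  have m2 : |Da * ((C.l ω').N (C.s j ω) - (C.l ω).N (C.s j ω))| ≤
      K * q2 (C.rk i) / q2 (C.a j) * dN := Pth.abs_mul_le hda hN
  have m3 : |Dk * ((C.l ω').v - (C.l ω).v)| ≤ K * q2 (C.rk i) * dv := Pth.abs_mul_le hdk hv
  have m4 : |Da * ((C.l ω').X (C.s j ω) - (C.l ω).X (C.s j ω))| ≤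
      K * q2 (C.rk i) / q2 (C.a j) * dX := Pth.abs_mul_le hda hX
  have m5 : |(cj' - ci') - (cj - ci)| ≤ K * q2 (C.rk i) * dw + K * q2 (C.rk i) / q2 (C.a j) * dN := by
    rw [ec]
    have n1 := abs_le.1 m1
    have n2 := abs_le.1 m2
    rw [abs_le]
    constructor <;> linarith [n1.1, n1.2, n2.1, n2.2]
  have m6 := Pth.abs_mul_le hp1 m5
  have g1' : |cj - ci| ≤ K * q2 (C.rk i) := g1
  have m7 := Pth.abs_mul_le hp g1'
  rw [e]
  have n3 := abs_le.1 m3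
  have n4 := abs_le.1 m4
  have n6 := abs_le.1 m6
  have n7 := abs_le.1 m7
  rw [abs_le]
  constructor <;> linarith [n3.1, n3.2, n4.1, n4.2, n6.1, n6.2, n7.1, n7.2]

/-- **up** : the slope of a later step, given the cell and the later letter -/
theorem slR_up (h1 : 1 ≤ K) (hK : C.Ok K ω) (hK' : C.Ok K ω') (hij : i ≤ j) (hl : C.Lev i b)
    (h : C.cell i b ω = C.cell i b ω') (hT : C.T j ω = C.T j ω') :
    |slR C j b ω' - slR C j b ω| ≤ 43 * K ^ 5 * 2 ^ (C.a j - C.a i) * q2 (C.R i b - 3 * C.μ) := by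
  rw [slR_sub hT (Pth.cell_iff.1 h).2.1]
  have hN := Pth.Nr_of_cell' h1 hK hl h
  have hP := phR_cell h1 hK hK' hl h
  have hp := p_cell h1 hK hK' hl h
  have hb : 8 * C.μ ≤ b := hl.1
  have hR : 8 * C.μ ≤ C.R i b := hl.2
  have haij := C.ha hij
  have K0 : 0 < K := by linarith
  have hs := C.s_near hij ω
  rw [abs_sub_comm] at hs
  have hX : |(C.l ω').X (C.s j ω) - (C.l ω).X (C.s j ω)| ≤
      q2 (C.a i + b - C.μ) + q2 (C.a i) * q2 b := by
    have e : (C.l ω').X (C.s j ω) - (C.l ω).X (C.s j ω) =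
        ((C.l ω').X (C.s i ω) - (C.l ω).X (C.s i ω)) +
        (C.s j ω - C.s i ω) * ((C.l ω').v - (C.l ω).v) := by
      unfold Ray.X; ring
    rw [e]
    exact (abs_add_le _ _).trans (add_le_add hN.X (Pth.abs_mul_le hs hN.v))
  have hNN : |(C.l ω').N (C.s j ω) - (C.l ω).N (C.s j ω)| ≤
      q2 (C.a i + b - C.μ) + q2 (C.a i) * (10 * K ^ 2 * q2 (b + 2 * C.μ)) := by
    have e : (C.l ω').N (C.s j ω) - (C.l ω).N (C.s j ω) =
        ((C.l ω').N (C.s i ω) - (C.l ω).N (C.s i ω)) +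
        (C.s j ω - C.s i ω) * ((C.l ω').w - (C.l ω).w) := by
      unfold Ray.N; ring
    rw [e]
    exact (abs_add_le _ _).trans (add_le_add hN.N (Pth.abs_mul_le hs hN.w))
  have hd := dph h1 hK hK' hij hT hN.v hN.w hX hNN hp
  set P := |phR C i ω' - phR C i ω| with hPdef
  set Q := q2 (C.R i b - 3 * C.μ) with hQ
  have Q0 : 0 < Q := q2_pos _
  have P0 : 0 ≤ P := abs_nonneg _
  have hRk := C.R_le_rk i b
  have rk0 := q2_pos (C.rk i)
  have rk1 := Pth.q2_le_one (C.rk i)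
  have b1 : q2 b ≤ q2 (b - C.μ) := q2_le (by omega)
  have b2 : q2 (b + 2 * C.μ) ≤ q2 (b - C.μ) := q2_le (by omega)
  have hQ2 : q2 (C.rk i) * q2 (b - C.μ) ≤ Q := by
    rw [← q2_add]; exact q2_le (by omega)
  set D : ℝ := 2 ^ (C.a j - C.a i) with hD
  have D1 : 1 ≤ D := one_le_pow₀ (by norm_num)
  have hDa : q2 (C.a i) = D * q2 (C.a j) := by
    have := q2_sub haij
    have e : C.a j - (C.a j - C.a i) = C.a i := by omega
    have e2 : q2 (C.a j - (C.a j - C.a i)) = 2 ^ (C.a j - C.a i) * q2 (C.a j) :=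
      q2_sub (by omega)
    rw [e] at e2
    exact e2
  have qaj := q2_pos (C.a j)
  have eX : q2 (C.a i + b - C.μ) = q2 (C.a i) * q2 (b - C.μ) := by
    rw [← q2_add]; congr 1; omega
  -- the second part
  have t2 : K * q2 (C.rk i) / q2 (C.a j) *
      ((q2 (C.a i + b - C.μ) + q2 (C.a i) * q2 b) +
        (q2 (C.a i + b - C.μ) + q2 (C.a i) * (10 * K ^ 2 * q2 (b + 2 * C.μ)))) ≤
      13 * K ^ 3 * D * Q := by
    have u1 : (q2 (C.a i + b - C.μ) + q2 (C.a i) * q2 b) +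
        (q2 (C.a i + b - C.μ) + q2 (C.a i) * (10 * K ^ 2 * q2 (b + 2 * C.μ))) ≤
        13 * K ^ 2 * (q2 (C.a i) * q2 (b - C.μ)) := by
      rw [eX]
      have qa := q2_pos (C.a i)
      have v1 : q2 (C.a i) * q2 b ≤ q2 (C.a i) * q2 (b - C.μ) := mul_le_mul_of_nonneg_left b1 qa.le
      have v2 : q2 (C.a i) * (10 * K ^ 2 * q2 (b + 2 * C.μ)) ≤
          10 * K ^ 2 * (q2 (C.a i) * q2 (b - C.μ)) := by
        calc _ = 10 * K ^ 2 * (q2 (C.a i) * q2 (b + 2 * C.μ)) := by ring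
          _ ≤ _ := mul_le_mul_of_nonneg_left (mul_le_mul_of_nonneg_left b2 qa.le) (by positivity)
      have K2 : 1 ≤ K ^ 2 := one_le_pow₀ h1
      have v3 : 0 < q2 (C.a i) * q2 (b - C.μ) := mul_pos qa (q2_pos _)
      nlinarith
    calc _ ≤ K * q2 (C.rk i) / q2 (C.a j) * (13 * K ^ 2 * (q2 (C.a i) * q2 (b - C.μ))) :=
          mul_le_mul_of_nonneg_left u1 (by positivity)
      _ = 13 * K ^ 3 * D * (q2 (C.rk i) * q2 (b - C.μ)) := by
          rw [hDa]; field_simp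
      _ ≤ _ := mul_le_mul_of_nonneg_left hQ2 (by positivity)
  -- the first part
  have t1 : K * q2 (C.rk i) * (10 * K ^ 2 * q2 (b + 2 * C.μ) + q2 b +
      K * (P + 13 * K ^ 3 * q2 (b - C.μ))) ≤ K ^ 2 * P + 24 * K ^ 5 * Q := by
    have k3 : K ^ 3 ≤ K ^ 5 := pow_le_pow_right₀ h1 (by norm_num)
    have k1 : K ≤ K ^ 5 := by
      calc K = K ^ 1 := (pow_one K).symm
        _ ≤ K ^ 5 := pow_le_pow_right₀ h1 (by norm_num)
    have v1 : q2 (C.rk i) * q2 (b + 2 * C.μ) ≤ Q :=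
      (mul_le_mul_of_nonneg_left b2 rk0.le).trans hQ2
    have v2 : q2 (C.rk i) * q2 b ≤ Q := (mul_le_mul_of_nonneg_left b1 rk0.le).trans hQ2
    have v3 : q2 (C.rk i) * P ≤ P := by
      calc _ ≤ 1 * P := mul_le_mul_of_nonneg_right rk1 P0
        _ = P := one_mul P
    calc _ = 10 * K ^ 3 * (q2 (C.rk i) * q2 (b + 2 * C.μ)) + K * (q2 (C.rk i) * q2 b) +
          K ^ 2 * (q2 (C.rk i) * P) + 13 * K ^ 5 * (q2 (C.rk i) * q2 (b - C.μ)) := by ring
      _ ≤ 10 * K ^ 3 * Q + K * Q + K ^ 2 * P + 13 * K ^ 5 * Q := by gcongr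
      _ ≤ 10 * K ^ 5 * Q + K ^ 5 * Q + K ^ 2 * P + 13 * K ^ 5 * Q := by gcongr
      _ = _ := by ring
  have hPQ : P ≤ 3 * K * Q := hP
  have k5 : K ^ 3 ≤ K ^ 5 := pow_le_pow_right₀ h1 (by norm_num)
  have k15 : K ≤ K ^ 5 := by
    calc K = K ^ 1 := (pow_one K).symm
      _ ≤ K ^ 5 := pow_le_pow_right₀ h1 (by norm_num)
  have K5 : 0 < K ^ 5 := by positivity
  have f1 : |phR C j ω' - phR C j ω| ≤ P + (K ^ 2 * P + 24 * K ^ 5 * Q) + 13 * K ^ 3 * D * Q := by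
    have n1 := abs_le.1 hd
    have n2 := abs_le.1 (le_refl P)
    have n3 : |phR C i ω' - phR C i ω| ≤ P := le_rfl
    have n4 := abs_le.1 n3
    rw [abs_le]
    constructor <;> linarith [n1.1, n1.2, n4.1, n4.2]
  refine f1.trans ?_
  have w1 : P ≤ 3 * K ^ 5 * Q := hPQ.trans (by
    have := mul_le_mul_of_nonneg_right k15 Q0.le
    nlinarith)
  have w2 : K ^ 2 * P ≤ 3 * K ^ 5 * Q := by
    calc K ^ 2 * P ≤ K ^ 2 * (3 * K * Q) := mul_le_mul_of_nonneg_left hPQ (by positivity)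
      _ = 3 * K ^ 3 * Q := by ring
      _ ≤ _ := by
        have := mul_le_mul_of_nonneg_right k5 Q0.le
        nlinarith
  have w3 : 13 * K ^ 3 * D * Q ≤ 13 * K ^ 5 * D * Q := by gcongr
  have w4 : K ^ 5 * Q ≤ K ^ 5 * D * Q := by
    calc K ^ 5 * Q = K ^ 5 * 1 * Q := by ring
      _ ≤ _ := by gcongr
  calc _ ≤ 3 * K ^ 5 * Q + (3 * K ^ 5 * Q + 24 * K ^ 5 * Q) + 13 * K ^ 5 * D * Q := by linarith
    _ = 30 * (K ^ 5 * Q) + 13 * K ^ 5 * D * Q := by ring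
    _ ≤ 30 * (K ^ 5 * D * Q) + 13 * K ^ 5 * D * Q := by linarith
    _ = _ := by ring

/-- **down** : the slope of an earlier step, given the later cell -/
theorem slR_down (h1 : 1 ≤ K) (hK : C.Ok K ω) (hK' : C.Ok K ω') (hij : i ≤ j) (hl : C.Lev j b)
    (h : C.cell j b ω = C.cell j b ω') :
    |slR C i b ω' - slR C i b ω| ≤
      6 * K ^ 3 * q2 (C.R j b - 3 * C.μ) + 26 * K ^ 5 * q2 (C.rk i + b - C.μ) := by
  have hT := (Pth.cell_iff.1 h).1
  rw [slR_sub (Pth.T_mono hij hT) (Pth.cell_iff.1 h).2.1]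
  have hN := Pth.Nr_of_cell' h1 hK hl h
  have hP := phR_cell h1 hK hK' hl h
  have hp := p_cell h1 hK hK' hl h
  have hb : 8 * C.μ ≤ b := hl.1
  have K0 : 0 < K := by linarith
  have hd := dph h1 hK hK' hij hT hN.v hN.w hN.X hN.N hp
  set P := |phR C j ω' - phR C j ω| with hPdef
  set Q := q2 (C.R j b - 3 * C.μ) with hQ
  set Q2 := q2 (C.rk i + b - C.μ) with hQ2
  have Q0 : 0 < Q := q2_pos _
  have Q20 : 0 < Q2 := q2_pos _
  have P0 : 0 ≤ P := abs_nonneg _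
  have rk0 := q2_pos (C.rk i)
  have rk1 := Pth.q2_le_one (C.rk i)
  have b1 : q2 b ≤ q2 (b - C.μ) := q2_le (by omega)
  have b2 : q2 (b + 2 * C.μ) ≤ q2 (b - C.μ) := q2_le (by omega)
  have hQ2' : q2 (C.rk i) * q2 (b - C.μ) = Q2 := by
    rw [hQ2, ← q2_add]; congr 1; omega
  have qaj := q2_pos (C.a j)
  have eX : q2 (C.a j + b - C.μ) = q2 (C.a j) * q2 (b - C.μ) := by
    rw [← q2_add]; congr 1; omega
  have t2 : K * q2 (C.rk i) / q2 (C.a j) * (q2 (C.a j + b - C.μ) + q2 (C.a j + b - C.μ)) =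
      2 * K * Q2 := by
    rw [eX, ← hQ2']; field_simp; ring
  have t1 : K * q2 (C.rk i) * (10 * K ^ 2 * q2 (b + 2 * C.μ) + q2 b +
      K * (P + 13 * K ^ 3 * q2 (b - C.μ))) ≤ K ^ 2 * P + 24 * K ^ 5 * Q2 := by
    have k3 : K ^ 3 ≤ K ^ 5 := pow_le_pow_right₀ h1 (by norm_num)
    have k1 : K ≤ K ^ 5 := by
      calc K = K ^ 1 := (pow_one K).symm
        _ ≤ K ^ 5 := pow_le_pow_right₀ h1 (by norm_num)
    have v1 : q2 (C.rk i) * q2 (b + 2 * C.μ) ≤ Q2 :=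
      (mul_le_mul_of_nonneg_left b2 rk0.le).trans hQ2'.le
    have v2 : q2 (C.rk i) * q2 b ≤ Q2 := (mul_le_mul_of_nonneg_left b1 rk0.le).trans hQ2'.le
    have v3 : q2 (C.rk i) * P ≤ P := by
      calc _ ≤ 1 * P := mul_le_mul_of_nonneg_right rk1 P0
        _ = P := one_mul P
    have v4 := hQ2'.le
    calc _ = 10 * K ^ 3 * (q2 (C.rk i) * q2 (b + 2 * C.μ)) + K * (q2 (C.rk i) * q2 b) +
          K ^ 2 * (q2 (C.rk i) * P) + 13 * K ^ 5 * (q2 (C.rk i) * q2 (b - C.μ)) := by ring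
      _ ≤ 10 * K ^ 3 * Q2 + K * Q2 + K ^ 2 * P + 13 * K ^ 5 * Q2 := by gcongr
      _ ≤ 10 * K ^ 5 * Q2 + K ^ 5 * Q2 + K ^ 2 * P + 13 * K ^ 5 * Q2 := by gcongr
      _ = _ := by ring
  have hPQ : P ≤ 3 * K * Q := hP
  rw [t2] at hd
  have f1 : |phR C i ω' - phR C i ω| ≤ P + (K ^ 2 * P + 24 * K ^ 5 * Q2) + 2 * K * Q2 := by
    have n1 := abs_le.1 hd
    have n3 : |phR C j ω' - phR C j ω| ≤ P := le_rfl
    have n4 := abs_le.1 n3
    rw [abs_le]
    constructor <;> linarith [n1.1, n1.2, n4.1, n4.2]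
  refine f1.trans ?_
  have k13 : K ≤ K ^ 3 := by
    calc K = K ^ 1 := (pow_one K).symm
      _ ≤ K ^ 3 := pow_le_pow_right₀ h1 (by norm_num)
  have k15 : K ≤ K ^ 5 := by
    calc K = K ^ 1 := (pow_one K).symm
      _ ≤ K ^ 5 := pow_le_pow_right₀ h1 (by norm_num)
  have w1 : P ≤ 3 * K ^ 3 * Q := hPQ.trans (by
    have := mul_le_mul_of_nonneg_right k13 Q0.le
    nlinarith)
  have w2 : K ^ 2 * P ≤ 3 * K ^ 3 * Q := by
    calc K ^ 2 * P ≤ K ^ 2 * (3 * K * Q) := mul_le_mul_of_nonneg_left hPQ (by positivity)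
      _ = 3 * K ^ 3 * Q := by ring
  have w3 : 2 * K * Q2 ≤ 2 * K ^ 5 * Q2 := by gcongr
  linarith

end Vale.Agent.P106.U.H420
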