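import Vale.Agent.P106.U.H420.F2S

/-!
# P106 / U / H420 : the slope of a later step in the frames of two paths (helper420)

`C₁`, `C₂` : two paths over the SAME rays, times and own slopes (two frozen paths of two caps, 958 / 785), whose
slabs at the step `i` agree up to `r` digits; `M = C₂.cell k b`, `k ≤ i`, the `alpha` of both at the level `a k`.

* `two_slope` : `|d slR₂| ≤ (1 + K² 2^-r) |d slR₁| + 200 K^7 2^-r 2^-(b - μ)`.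
* **`SR_two`** : `H(SR C₂ i b | (T₁ i, digits of slR₁), T₂ i, cell₂ k b) ≤ small`, outside the generic event `BadS`, as soon
  as `rf i + 2 μ ≤ r + b`.
* **`Th_two`** : the same for the letter `Θ = (T₂ i, SR₂ i b)` when `T₂ i` is a function of (time digits, cell).
* `s_first` : entropy of the fixed variable given the first cell.
-/

set_option autoImplicit false

namespace Vale.Agent.P106.U.H420

open Finset Vale.Agent.P127 Vale.Agent.P127.Stk Vale.Agent.P106.U.Cell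
open Vale.Agent.P127.U.CellD (q2 rd Nb q2_pos q2_add q2_le q2_mul_pow fl1_fl1)
open Vale.Agent.P106.U.H364 (nhc fl1_le_of_near)

/-- two paths over the same data -/
structure Two {Ω τ₁ τ₂ : Type} (C₁ : Pth Ω τ₁) (C₂ : Pth Ω τ₂) : Prop where
  l : C₁.l = C₂.l
  t : C₁.t = C₂.t
  p : C₁.p = C₂.p
  a : C₁.a = C₂.a

section geo

variable {Ω τ₁ τ₂ : Type} {C₁ : Pth Ω τ₁} {C₂ : Pth Ω τ₂} {i k b b₁ : ℕ} {ω ω' : Ω} {K : ℝ}

lemma Two.s (h : Two C₁ C₂) : C₁.s = C₂.s := by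
  funext i ω
  unfold Pth.s
  rw [h.a, h.t]

/-- own slope from the slope of the slab -/
lemma p_of_slR (h1 : 1 ≤ K) (hp' : |C₁.p ω'| ≤ 1)
    (hn : 1 ≤ K * (C₁.F i ω).cN (C₁.l ω) (C₁.s i ω)) (hk : |(C₁.F i ω).ka| ≤ K) {A : ℝ} (hA : 0 < A)
    (ha : |(C₁.F i ω).al| * A ≤ K) (hT : C₁.T i ω = C₁.T i ω')
    (hv : fl1 b (C₁.l ω).v = fl1 b (C₁.l ω').v) {e : ℝ}
    (ev : |(C₁.l ω').v - (C₁.l ω).v| ≤ e) (ew : |(C₁.l ω').w - (C₁.l ω).w| ≤ e)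
    (eX : |(C₁.l ω').X (C₁.s i ω) - (C₁.l ω).X (C₁.s i ω)| ≤ e * A)
    (eN : |(C₁.l ω').N (C₁.s i ω) - (C₁.l ω).N (C₁.s i ω)| ≤ e * A) :
    |C₁.p ω' - C₁.p ω| ≤ K * (|slR C₁ i b ω' - slR C₁ i b ω| + 4 * K * e) := by
  rw [slR_sub hT hv]
  have K0 : 0 < K := by linarith
  have si : C₁.s i ω' = C₁.s i ω := Pth.s_eq hT
  have e0 : 0 ≤ e := (abs_nonneg _).trans ev
  set c := (C₁.F i ω).cN (C₁.l ω) (C₁.s i ω) with hc
  set c' := (C₁.F i ω').cN (C₁.l ω') (C₁.s i ω') with hc'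
  have hal : |(C₁.F i ω).al| ≤ K / A := by rwa [le_div_iff₀ hA]
  have ec : c' - c = -((C₁.F i ω).ka * ((C₁.l ω').w - (C₁.l ω).w)) -
      (C₁.F i ω).al * ((C₁.l ω').N (C₁.s i ω) - (C₁.l ω).N (C₁.s i ω)) := by
    rw [hc, hc']
    unfold Fu.cN
    rw [Pth.F_ga hT, Pth.F_ka hT, Pth.F_al hT, si]
    ring
  have ee : (C₁.p ω' - C₁.p ω) * c = (phR C₁ i ω' - phR C₁ i ω) +
      (C₁.F i ω).ka * ((C₁.l ω').v - (C₁.l ω).v) +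
      (C₁.F i ω).al * ((C₁.l ω').X (C₁.s i ω) - (C₁.l ω).X (C₁.s i ω)) - C₁.p ω' * (c' - c) := by
    unfold phR
    rw [← hc, ← hc', Pth.F_ka hT, Pth.F_al hT, si]
    ring
  have m1 : |(C₁.F i ω).ka * ((C₁.l ω').v - (C₁.l ω).v)| ≤ K * e := Pth.abs_mul_le hk ev
  have m2 : |(C₁.F i ω).al * ((C₁.l ω').X (C₁.s i ω) - (C₁.l ω).X (C₁.s i ω))| ≤ K * e := by
    refine (Pth.abs_mul_le hal eX).trans (le_of_eq ?_)
    field_simp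
  have m3 : |(C₁.F i ω).ka * ((C₁.l ω').w - (C₁.l ω).w)| ≤ K * e := Pth.abs_mul_le hk ew
  have m4 : |(C₁.F i ω).al * ((C₁.l ω').N (C₁.s i ω) - (C₁.l ω).N (C₁.s i ω))| ≤ K * e := by
    refine (Pth.abs_mul_le hal eN).trans (le_of_eq ?_)
    field_simp
  have hc1 : |c' - c| ≤ 2 * K * e := by
    rw [ec, abs_le]
    have n3 := abs_le.1 m3
    have n4 := abs_le.1 m4
    constructor <;> linarith [n3.1, n3.2, n4.1, n4.2]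
  have m5 : |C₁.p ω' * (c' - c)| ≤ 1 * (2 * K * e) := Pth.abs_mul_le hp' hc1
  have hB : |(C₁.p ω' - C₁.p ω) * c| ≤ |phR C₁ i ω' - phR C₁ i ω| + 4 * K * e := by
    rw [ee]
    have n0 := abs_le.1 (le_refl |phR C₁ i ω' - phR C₁ i ω|)
    have n1 := abs_le.1 m1
    have n2 := abs_le.1 m2
    have n5 := abs_le.1 m5
    rw [abs_le]
    constructor <;> linarith [n0.1, n0.2, n1.1, n1.2, n2.1, n2.2, n5.1, n5.2]
  have hcp : 0 < c := by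
    by_contra hn'
    push Not at hn'
    have := mul_nonpos_of_nonneg_of_nonpos K0.le hn'
    linarith
  rw [abs_mul, abs_of_pos hcp] at hB
  calc |C₁.p ω' - C₁.p ω| = 1 * |C₁.p ω' - C₁.p ω| := (one_mul _).symm
    _ ≤ (K * c) * |C₁.p ω' - C₁.p ω| := mul_le_mul_of_nonneg_right hn (abs_nonneg _)
    _ = K * (|C₁.p ω' - C₁.p ω| * c) := by ring
    _ ≤ _ := mul_le_mul_of_nonneg_left hB K0.le

/-- the difference of the slabs of two paths varies little -/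
lemma dph_two (h2 : Two C₁ C₂) (h1 : 1 ≤ K) (hp' : |C₂.p ω'| ≤ 1) {r Al : ℕ}
    (ag : Pth.Agr K r Al (C₁.F i ω) (C₂.F i ω) (C₂.l ω) (C₂.s i ω))
    (hT1 : C₁.T i ω = C₁.T i ω') (hT2 : C₂.T i ω = C₂.T i ω') {e dp : ℝ}
    (ev : |(C₂.l ω').v - (C₂.l ω).v| ≤ e) (ew : |(C₂.l ω').w - (C₂.l ω).w| ≤ e)
    (eX : |(C₂.l ω').X (C₂.s i ω) - (C₂.l ω).X (C₂.s i ω)| ≤ e * q2 Al)
    (eN : |(C₂.l ω').N (C₂.s i ω) - (C₂.l ω).N (C₂.s i ω)| ≤ e * q2 Al)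
    (hp : |C₂.p ω' - C₂.p ω| ≤ dp) :
    |(phR C₂ i ω' - phR C₂ i ω) - (phR C₁ i ω' - phR C₁ i ω)| ≤ K * q2 r * (dp + 4 * e) := by
  have K0 : 0 < K := by linarith
  have s2 : C₂.s i ω' = C₂.s i ω := Pth.s_eq hT2
  have es : C₁.s i = C₂.s i := by rw [h2.s]
  have e0 : 0 ≤ e := (abs_nonneg _).trans ev
  have qa := q2_pos Al
  have qr := q2_pos r
  set Dk := (C₂.F i ω).ka - (C₁.F i ω).ka with hDk
  set Da := (C₂.F i ω).al - (C₁.F i ω).al with hDa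
  have hda : |Da| ≤ K * q2 r / q2 Al := by
    rw [le_div_iff₀ qa]; exact ag.al
  have hdk : |Dk| ≤ K * q2 r := ag.ka
  have g1 := ag.cN
  set cj := (C₂.F i ω).cN (C₂.l ω) (C₂.s i ω) with hcj
  set ci := (C₁.F i ω).cN (C₂.l ω) (C₂.s i ω) with hci
  set cj' := (C₂.F i ω').cN (C₂.l ω') (C₂.s i ω') with hcj'
  set ci' := (C₁.F i ω').cN (C₂.l ω') (C₂.s i ω') with hci'
  have ec : (cj' - ci') - (cj - ci) = -(Dk * ((C₂.l ω').w - (C₂.l ω).w)) -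
      Da * ((C₂.l ω').N (C₂.s i ω) - (C₂.l ω).N (C₂.s i ω)) := by
    rw [hcj, hci, hcj', hci', hDk, hDa]
    unfold Fu.cN
    rw [Pth.F_ga hT1, Pth.F_ka hT1, Pth.F_al hT1, Pth.F_ga hT2, Pth.F_ka hT2, Pth.F_al hT2, s2]
    ring
  have ee : (phR C₂ i ω' - phR C₂ i ω) - (phR C₁ i ω' - phR C₁ i ω) =
      C₂.p ω' * ((cj' - ci') - (cj - ci)) + (C₂.p ω' - C₂.p ω) * (cj - ci) -
      Dk * ((C₂.l ω').v - (C₂.l ω).v) - Da * ((C₂.l ω').X (C₂.s i ω) - (C₂.l ω).X (C₂.s i ω)) := by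
    have u1 : phR C₁ i ω' = C₂.p ω' * ci' - (C₁.F i ω').ka * (C₂.l ω').v -
        (C₁.F i ω').al * (C₂.l ω').X (C₂.s i ω') := by
      unfold phR; rw [h2.p, h2.l, es]
    have u2 : phR C₁ i ω = C₂.p ω * ci - (C₁.F i ω).ka * (C₂.l ω).v -
        (C₁.F i ω).al * (C₂.l ω).X (C₂.s i ω) := by
      unfold phR; rw [h2.p, h2.l, es]
    have u3 : phR C₂ i ω' = C₂.p ω' * cj' - (C₂.F i ω').ka * (C₂.l ω').v -
        (C₂.F i ω').al * (C₂.l ω').X (C₂.s i ω') := rfl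
    have u4 : phR C₂ i ω = C₂.p ω * cj - (C₂.F i ω).ka * (C₂.l ω).v -
        (C₂.F i ω).al * (C₂.l ω).X (C₂.s i ω) := rfl
    rw [u1, u2, u3, u4, hDk, hDa, Pth.F_ka hT1, Pth.F_al hT1, Pth.F_ka hT2, Pth.F_al hT2, s2]
    ring
  have m1 : |Dk * ((C₂.l ω').w - (C₂.l ω).w)| ≤ K * q2 r * e := Pth.abs_mul_le hdk ew
  have m2 : |Da * ((C₂.l ω').N (C₂.s i ω) - (C₂.l ω).N (C₂.s i ω))| ≤ K * q2 r * e := by
    refine (Pth.abs_mul_le hda eN).trans (le_of_eq ?_)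
    field_simp
  have m3 : |Dk * ((C₂.l ω').v - (C₂.l ω).v)| ≤ K * q2 r * e := Pth.abs_mul_le hdk ev
  have m4 : |Da * ((C₂.l ω').X (C₂.s i ω) - (C₂.l ω).X (C₂.s i ω))| ≤ K * q2 r * e := by
    refine (Pth.abs_mul_le hda eX).trans (le_of_eq ?_)
    field_simp
  have m5 : |(cj' - ci') - (cj - ci)| ≤ 2 * (K * q2 r * e) := by
    rw [ec]
    have n1 := abs_le.1 m1
    have n2 := abs_le.1 m2
    rw [abs_le]
    constructor <;> linarith [n1.1, n1.2, n2.1, n2.2]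
  have m6 := Pth.abs_mul_le hp' m5
  have g1' : |cj - ci| ≤ K * q2 r := g1
  have m7 := Pth.abs_mul_le hp g1'
  rw [ee]
  have n3 := abs_le.1 m3
  have n4 := abs_le.1 m4
  have n6 := abs_le.1 m6
  have n7 := abs_le.1 m7
  rw [abs_le]
  constructor <;> linarith [n3.1, n3.2, n4.1, n4.2, n6.1, n6.2, n7.1, n7.2]

/-- **the slopes in two frames**, real numbers -/
lemma slope_two (h2 : Two C₁ C₂) (h1 : 1 ≤ K) (hp' : |C₂.p ω'| ≤ 1)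
    (hn : 1 ≤ K * (C₁.F i ω).cN (C₁.l ω) (C₁.s i ω)) (hk : |(C₁.F i ω).ka| ≤ K) {r Al : ℕ}
    (ha : |(C₁.F i ω).al| * q2 Al ≤ K)
    (ag : Pth.Agr K r Al (C₁.F i ω) (C₂.F i ω) (C₂.l ω) (C₂.s i ω))
    (hT1 : C₁.T i ω = C₁.T i ω') (hT2 : C₂.T i ω = C₂.T i ω')
    (hv : fl1 b (C₂.l ω).v = fl1 b (C₂.l ω').v) (hb : b₁ ≤ b) {e : ℝ}
    (ev : |(C₂.l ω').v - (C₂.l ω).v| ≤ e) (ew : |(C₂.l ω').w - (C₂.l ω).w| ≤ e)
    (eX : |(C₂.l ω').X (C₂.s i ω) - (C₂.l ω).X (C₂.s i ω)| ≤ e * q2 Al)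
    (eN : |(C₂.l ω').N (C₂.s i ω) - (C₂.l ω).N (C₂.s i ω)| ≤ e * q2 Al) :
    |slR C₂ i b ω' - slR C₂ i b ω| ≤
      (1 + K ^ 2 * q2 r) * |slR C₁ i b₁ ω' - slR C₁ i b₁ ω| + 8 * K ^ 3 * q2 r * e := by
  have K0 : 0 < K := by linarith
  have qr := q2_pos r
  have e0 : 0 ≤ e := (abs_nonneg _).trans ev
  have hv1 : fl1 b₁ (C₁.l ω).v = fl1 b₁ (C₁.l ω').v := by rw [h2.l]; exact fl1_fl1 hb hv
  have hp := p_of_slR (C₁ := C₁) (b := b₁) h1 (by rw [h2.p]; exact hp') hn hk (q2_pos Al) ha hT1 hv1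
    (e := e) (by rw [h2.l]; exact ev) (by rw [h2.l]; exact ew)
    (by rw [h2.l, show C₁.s i = C₂.s i by rw [h2.s]]; exact eX)
    (by rw [h2.l, show C₁.s i = C₂.s i by rw [h2.s]]; exact eN)
  rw [h2.p] at hp
  have hd := dph_two h2 h1 hp' ag hT1 hT2 ev ew eX eN hp
  rw [slR_sub hT2 hv]
  have es := slR_sub (C := C₁) (i := i) hT1 hv1
  rw [es] at hp hd ⊢
  set P := |phR C₁ i ω' - phR C₁ i ω| with hP
  have P0 : 0 ≤ P := abs_nonneg _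
  have n1 := abs_le.1 hd
  have n3 : |phR C₁ i ω' - phR C₁ i ω| ≤ P := le_rfl
  have n4 := abs_le.1 n3
  have f1 : |phR C₂ i ω' - phR C₂ i ω| ≤ P + K * q2 r * (K * (P + 4 * K * e) + 4 * e) := by
    rw [abs_le]
    constructor <;> linarith [n1.1, n1.2, n4.1, n4.2]
  refine f1.trans ?_
  have k1 : K ≤ K ^ 3 := by
    calc K = K ^ 1 := (pow_one K).symm
      _ ≤ K ^ 3 := pow_le_pow_right₀ h1 (by norm_num)
  have f2 : 4 * K * q2 r * e ≤ 4 * K ^ 3 * q2 r * e := by gcongr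
  calc P + K * q2 r * (K * (P + 4 * K * e) + 4 * e) =
      (1 + K ^ 2 * q2 r) * P + 4 * K ^ 3 * q2 r * e + 4 * K * q2 r * e := by ring
    _ ≤ _ := by linarith

/-- closeness of the rays of one cell at a later time -/
lemma late_near (h1 : 1 ≤ K) (hK : C₂.Ok K ω) (hki : k ≤ i) (hl : C₂.Lev k b)
    (h : C₂.cell k b ω = C₂.cell k b ω') :
    |(C₂.l ω').v - (C₂.l ω).v| ≤ 11 * K ^ 2 * q2 (b - C₂.μ) ∧
    |(C₂.l ω').w - (C₂.l ω).w| ≤ 11 * K ^ 2 * q2 (b - C₂.μ) ∧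
    |(C₂.l ω').X (C₂.s i ω) - (C₂.l ω).X (C₂.s i ω)| ≤ 11 * K ^ 2 * q2 (b - C₂.μ) * q2 (C₂.a k) ∧
    |(C₂.l ω').N (C₂.s i ω) - (C₂.l ω).N (C₂.s i ω)| ≤ 11 * K ^ 2 * q2 (b - C₂.μ) * q2 (C₂.a k) := by
  have hN := Pth.Nr_of_cell' h1 hK hl h
  have hs := C₂.s_near hki ω
  rw [abs_sub_comm] at hs
  have K2 : 1 ≤ K ^ 2 := one_le_pow₀ h1
  have b1 : q2 b ≤ q2 (b - C₂.μ) := q2_le (by omega)
  have b2 : q2 (b + 2 * C₂.μ) ≤ q2 (b - C₂.μ) := q2_le (by omega)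
  have qb := q2_pos (b - C₂.μ)
  have qa := q2_pos (C₂.a k)
  have hb := hl.1
  have eX : q2 (C₂.a k + b - C₂.μ) = q2 (b - C₂.μ) * q2 (C₂.a k) := by
    rw [← q2_add]; congr 1; omega
  have w1 : 10 * K ^ 2 * q2 (b + 2 * C₂.μ) ≤ 10 * K ^ 2 * q2 (b - C₂.μ) :=
    mul_le_mul_of_nonneg_left b2 (by positivity)
  have w2 : q2 (b - C₂.μ) ≤ K ^ 2 * q2 (b - C₂.μ) := by
    calc q2 (b - C₂.μ) = 1 * q2 (b - C₂.μ) := (one_mul _).symm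
      _ ≤ _ := mul_le_mul_of_nonneg_right K2 qb.le
  have w3 : 0 ≤ K ^ 2 * q2 (b - C₂.μ) := by positivity
  refine ⟨hN.v.trans (by linarith), hN.w.trans (by linarith), ?_, ?_⟩
  · have e : (C₂.l ω').X (C₂.s i ω) - (C₂.l ω).X (C₂.s i ω) =
        ((C₂.l ω').X (C₂.s k ω) - (C₂.l ω).X (C₂.s k ω)) +
        (C₂.s i ω - C₂.s k ω) * ((C₂.l ω').v - (C₂.l ω).v) := by
      unfold Ray.X; ring
    rw [e]
    refine (abs_add_le _ _).trans ((add_le_add hN.X (Pth.abs_mul_le hs hN.v)).trans ?_)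
    rw [eX]
    have v1 : q2 (C₂.a k) * q2 b ≤ q2 (C₂.a k) * (K ^ 2 * q2 (b - C₂.μ)) :=
      mul_le_mul_of_nonneg_left (b1.trans w2) qa.le
    have v2 : q2 (b - C₂.μ) * q2 (C₂.a k) ≤ K ^ 2 * q2 (b - C₂.μ) * q2 (C₂.a k) :=
      mul_le_mul_of_nonneg_right w2 qa.le
    have v3 : 0 ≤ K ^ 2 * q2 (b - C₂.μ) * q2 (C₂.a k) := by positivity
    linarith
  · have e : (C₂.l ω').N (C₂.s i ω) - (C₂.l ω).N (C₂.s i ω) =
        ((C₂.l ω').N (C₂.s k ω) - (C₂.l ω).N (C₂.s k ω)) +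
        (C₂.s i ω - C₂.s k ω) * ((C₂.l ω').w - (C₂.l ω).w) := by
      unfold Ray.N; ring
    rw [e]
    refine (abs_add_le _ _).trans ((add_le_add hN.N (Pth.abs_mul_le hs hN.w)).trans ?_)
    rw [eX]
    have v1 : q2 (C₂.a k) * (10 * K ^ 2 * q2 (b + 2 * C₂.μ)) ≤
        q2 (C₂.a k) * (10 * K ^ 2 * q2 (b - C₂.μ)) :=
      mul_le_mul_of_nonneg_left w1 qa.le
    have v2 : q2 (b - C₂.μ) * q2 (C₂.a k) ≤ K ^ 2 * q2 (b - C₂.μ) * q2 (C₂.a k) :=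
      mul_le_mul_of_nonneg_right w2 qa.le
    linarith

/-- the hypotheses on the first frame, at one ray -/
structure Fst (K : ℝ) (C₁ : Pth Ω τ₁) (C₂ : Pth Ω τ₂) (r k i : ℕ) (ω : Ω) : Prop where
  n : 1 ≤ K * (C₁.F i ω).cN (C₁.l ω) (C₁.s i ω)
  ka : |(C₁.F i ω).ka| ≤ K
  al : |(C₁.F i ω).al| * q2 (C₂.a k) ≤ K
  ag : Pth.Agr K r (C₂.a k) (C₁.F i ω) (C₂.F i ω) (C₂.l ω) (C₂.s i ω)

/-- **the slopes in two frames**, for the rays of one cell of the second path -/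
theorem slR_two (h2 : Two C₁ C₂) (h1 : 1 ≤ K) (hK : C₂.Ok K ω) (hK' : C₂.Ok K ω') {r : ℕ}
    (hf : Fst K C₁ C₂ r k i ω) (hki : k ≤ i) (hl : C₂.Lev k b)
    (h : C₂.cell k b ω = C₂.cell k b ω') (hT1 : C₁.T i ω = C₁.T i ω') (hT2 : C₂.T i ω = C₂.T i ω')
    (hb : b₁ ≤ b) :
    |slR C₂ i b ω' - slR C₂ i b ω| ≤
      2 * K ^ 2 * |slR C₁ i b₁ ω' - slR C₁ i b₁ ω| + 88 * K ^ 5 * q2 (r + (b - C₂.μ)) := by
  obtain ⟨ev, ew, eX, eN⟩ := late_near h1 hK hki hl h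
  have hp' : |C₂.p ω'| ≤ 1 := hK'.p1.trans (Pth.q2_le_one _)
  have h := slope_two h2 h1 hp' hf.n hf.ka hf.al hf.ag hT1 hT2 (Pth.cell_iff.1 h).2.1 hb ev ew eX eN
  refine h.trans ?_
  have K2 : 1 ≤ K ^ 2 := one_le_pow₀ h1
  have q1 := Pth.q2_le_one r
  have qr := q2_pos r
  have P0 := abs_nonneg (slR C₁ i b₁ ω' - slR C₁ i b₁ ω)
  have w1 : (1 + K ^ 2 * q2 r) ≤ 2 * K ^ 2 := by nlinarith
  have w2 := mul_le_mul_of_nonneg_right w1 P0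
  refine add_le_add w2 (le_of_eq ?_)
  rw [q2_add]
  ring

end geo

/-! ### digits -/

section dig

variable {Ω τ₁ τ₂ : Type} [Fintype Ω] {K : ℝ}

/-- closeness in units of the last digit -/
lemma SR_two_close {C₁ : Pth Ω τ₁} {C₂ : Pth Ω τ₂} {i k b b₁ n₁ r : ℕ} {ω ω' : Ω} (h2 : Two C₁ C₂)
    (h1 : 1 ≤ K) (hK : C₂.Ok K ω) (hK' : C₂.Ok K ω') (hf : Fst K C₁ C₂ r k i ω) (hki : k ≤ i)
    (hl : C₂.Lev k b) (h : C₂.cell k b ω = C₂.cell k b ω') (hT1 : C₁.T i ω = C₁.T i ω')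
    (hT2 : C₂.T i ω = C₂.T i ω') (hb : b₁ ≤ b) {o₁ : ℝ}
    (hs : fl1 n₁ (slR C₁ i b₁ ω + o₁) = fl1 n₁ (slR C₁ i b₁ ω' + o₁))
    (hn : C₂.rf i + C₂.μ ≤ n₁) (hr : C₂.rf i + 2 * C₂.μ ≤ r + b) :
    |slR C₂ i b ω' - slR C₂ i b ω| ≤ 90 * K ^ 5 * q2 (C₂.rf i + C₂.μ) := by
  refine (slR_two h2 h1 hK hK' hf hki hl h hT1 hT2 hb).trans ?_
  have a1 : |slR C₁ i b₁ ω' - slR C₁ i b₁ ω| ≤ q2 n₁ := by
    have := near_of_fl hs
    rwa [add_sub_add_right_eq_sub] at this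
  have a2 : q2 n₁ ≤ q2 (C₂.rf i + C₂.μ) := q2_le hn
  have hb8 := hl.1
  have a3 : q2 (r + (b - C₂.μ)) ≤ q2 (C₂.rf i + C₂.μ) := q2_le (by omega)
  have k25 : K ^ 2 ≤ K ^ 5 := pow_le_pow_right₀ h1 (by norm_num)
  have q := q2_pos (C₂.rf i + C₂.μ)
  have K0 : 0 ≤ K := by linarith
  calc _ ≤ 2 * K ^ 5 * q2 (C₂.rf i + C₂.μ) + 88 * K ^ 5 * q2 (C₂.rf i + C₂.μ) := by
        have := a1.trans a2
        gcongr
    _ = _ := by ring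

/-- **the digits of the slope of the second frame are nearly a function of the cell and of the slope in the first
frame** -/
theorem SR_two (P : Law Ω) (C₁ : Pth Ω τ₁) (C₂ : Pth Ω τ₂) (h2 : Two C₁ C₂) (h1 : 1 ≤ K)
    (hok : ∀ ω, 0 < P.w ω → C₂.Ok K ω) {i k b b₁ n₁ r : ℕ}
    (hf : ∀ ω, 0 < P.w ω → Fst K C₁ C₂ r k i ω) (hki : k ≤ i) (hl : C₂.Lev k b) (hb : b₁ ≤ b) (o₁ : ℝ)
    (hn : C₂.rf i + C₂.μ ≤ n₁) (hr : C₂.rf i + 2 * C₂.μ ≤ r + b) {K' : ℝ} (hK' : 90 * K ^ 5 ≤ K') {M : ℕ}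
    (hM : 90 * K ^ 5 ≤ M) :
    hc P (SR C₂ i b)
        (fun ω => ((C₁.T i ω, fl1 n₁ (slR C₁ i b₁ ω + o₁)), (C₂.T i ω, C₂.cell k b ω))) ≤
      (2 + Real.log (2 * M + 3)) * Real.sqrt (prE P (BadS C₂ K' i b)) := by
  have key : ∀ ω ω', 0 < P.w ω → 0 < P.w ω' →
      ((C₁.T i ω, fl1 n₁ (slR C₁ i b₁ ω + o₁)), (C₂.T i ω, C₂.cell k b ω)) =
        ((C₁.T i ω', fl1 n₁ (slR C₁ i b₁ ω' + o₁)), (C₂.T i ω', C₂.cell k b ω')) →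
      |slR C₂ i b ω' - slR C₂ i b ω| ≤ 90 * K ^ 5 * q2 (C₂.rf i + C₂.μ) := by
    intro ω ω' hω hω' e
    simp only [Prod.mk.injEq] at e
    exact SR_two_close h2 h1 (hok ω hω) (hok ω' hω') (hf ω hω) hki hl
      e.2.2 e.1.1 e.2.1 hb e.1.2 hn hr
  have e := nhc P (SR C₂ i b)
    (fun ω => ((C₁.T i ω, fl1 n₁ (slR C₁ i b₁ ω + o₁)), (C₂.T i ω, C₂.cell k b ω)))
    (BadS C₂ K' i b) (2 * M + 3) (by omega)
    (fun ω ω' hω hω' n _ e => ?_) (few_fl P fun ω ω' hω hω' e => ?_)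
  · push_cast at e
    exact e
  · have h := key ω ω' hω hω' e
    have q := q2_pos (C₂.rf i + C₂.μ)
    have h' : |slR C₂ i b ω' - slR C₂ i b ω| ≤ K' * q2 (C₂.rf i + C₂.μ) :=
      h.trans (mul_le_mul_of_nonneg_right hK' q.le)
    unfold BadS at n
    unfold SR
    refine Vale.Agent.P127.U.CellD.Nb.eq n ?_ ?_
    · rw [sub_self, abs_zero]
      exact (abs_nonneg _).trans h'
    · rwa [add_sub_add_right_eq_sub]
  · have h := key ω ω' hω hω' e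
    unfold SR
    refine fl1_le_of_near (M := M) ?_
    rw [add_sub_add_right_eq_sub]
    have q := q2_pos (C₂.rf i + C₂.μ)
    have q' : q2 (C₂.rf i + C₂.μ) ≤ q2 (C₂.rf i) := q2_le (by omega)
    have K5 : 0 ≤ 90 * K ^ 5 := by positivity
    calc _ ≤ 90 * K ^ 5 * q2 (C₂.rf i + C₂.μ) := h
      _ ≤ 90 * K ^ 5 * q2 (C₂.rf i) := mul_le_mul_of_nonneg_left q' K5
      _ ≤ _ := mul_le_mul_of_nonneg_right hM (q2_pos _).le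

/-- the letter `Θ = (T₂ i, slope digits)` : `T₂ i` is a function of the first letter and of the cell (frozen paths) -/
theorem Th_two (P : Law Ω) (C₁ : Pth Ω τ₁) (C₂ : Pth Ω τ₂) (h2 : Two C₁ C₂) (h1 : 1 ≤ K)
    (hok : ∀ ω, 0 < P.w ω → C₂.Ok K ω) {i k b b₁ n₁ r : ℕ}
    (hf : ∀ ω, 0 < P.w ω → Fst K C₁ C₂ r k i ω) (hki : k ≤ i) (hl : C₂.Lev k b) (hb : b₁ ≤ b) (o₁ : ℝ)
    (hT : Fn P (C₂.T i) (fun ω => (C₁.T i ω, C₂.cell k b ω)))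
    (hn : C₂.rf i + C₂.μ ≤ n₁) (hr : C₂.rf i + 2 * C₂.μ ≤ r + b) {K' : ℝ} (hK' : 90 * K ^ 5 ≤ K') {M : ℕ}
    (hM : 90 * K ^ 5 ≤ M) :
    hc P (fun ω => (C₂.T i ω, SR C₂ i b ω))
        (fun ω => ((C₁.T i ω, fl1 n₁ (slR C₁ i b₁ ω + o₁)), C₂.cell k b ω)) ≤
      (2 + Real.log (2 * M + 3)) * Real.sqrt (prE P (BadS C₂ K' i b)) := by
  have h := SR_two P C₁ C₂ h2 h1 hok hf hki hl hb o₁ hn hr hK' hM
  have e := hc_pair P (C₂.T i) (SR C₂ i b)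
    (fun ω => ((C₁.T i ω, fl1 n₁ (slR C₁ i b₁ ω + o₁)), C₂.cell k b ω))
  have e1 : hc P (C₂.T i) (fun ω => ((C₁.T i ω, fl1 n₁ (slR C₁ i b₁ ω + o₁)), C₂.cell k b ω)) = 0 := by
    refine hc_zero P fun ω ω' p p' e => ?_
    simp only [Prod.mk.injEq] at e
    exact hT ω ω' p p' (by simp only [Prod.mk.injEq]; exact ⟨e.1.1, e.2⟩)
  have e2 : hc P (SR C₂ i b) (fun ω => (C₂.T i ω,
      ((C₁.T i ω, fl1 n₁ (slR C₁ i b₁ ω + o₁)), C₂.cell k b ω))) ≤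
      hc P (SR C₂ i b)
        (fun ω => ((C₁.T i ω, fl1 n₁ (slR C₁ i b₁ ω + o₁)), (C₂.T i ω, C₂.cell k b ω))) := by
    refine hc_mono_right P _ fun ω ω' _ _ e => ?_
    simp only [Prod.mk.injEq] at e ⊢
    exact ⟨e.2.1, e.1, e.2.2⟩
  linarith

/-- entropy of the fixed variable given the first cell -/
theorem s_first (P : Law Ω) (C₁ : Pth Ω τ₁) (h1 : 1 ≤ K) (hok : ∀ ω, 0 < P.w ω → C₁.Ok K ω)
    {i k b p : ℕ} (hki : k ≤ i) (hl : C₁.Lev k b) {N0 g : ℕ} (hN : 43 * K ^ 5 ≤ N0)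
    (hg : C₁.a i - C₁.a k + (C₁.rf i - C₁.R k b) + 3 * C₁.μ ≤ g) {HT : ℝ}
    (hT : hc P (C₁.T i) (C₁.cell k b) ≤ HT) :
    hc P (fun ω => (C₁.T i ω, fl1 (C₁.rf i + p) (slR C₁ i b ω + C₁.o 4))) (C₁.cell k b) ≤
      HT + (Real.log (5 * N0) + g * Real.log 2 + p * Real.log 2) := by
  have h := SR_up P C₁ h1 hok hki hl hN hg
  have e := hc_pair P (C₁.T i) (fun ω => fl1 (C₁.rf i + p) (slR C₁ i b ω + C₁.o 4)) (C₁.cell k b)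
  have e1 := hc_le_add P (fun ω => fl1 (C₁.rf i + p) (slR C₁ i b ω + C₁.o 4)) (SR C₁ i b)
    (fun ω => (C₁.T i ω, C₁.cell k b ω))
  have e2 : hc P (fun ω => fl1 (C₁.rf i + p) (slR C₁ i b ω + C₁.o 4))
      (fun ω => (SR C₁ i b ω, (C₁.T i ω, C₁.cell k b ω))) ≤ p * Real.log 2 := by
    refine hc_fl_finer P (x := fun ω => slR C₁ i b ω + C₁.o 4) fun ω ω' _ _ e => ?_
    simp only [Prod.mk.injEq] at e
    exact e.1
  linarith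

/-- **[F2], deep phi regime, sliding family of paths**: `x` numbers the caps `bc x`, `C x` is the path of the cap, `kc x`
the index of its cell; the letter is `(T i, SR i)` in the frame of `C x`. -/
theorem f2_slide {τ V : Type} (P : Law Ω) (C : ℕ → Pth Ω τ) (kc bc : ℕ → ℕ) (h1 : 1 ≤ K) {i x0 n β p r : ℕ}
    (h2 : ∀ x, x0 ≤ x → x < x0 + n → Two (C x0) (C x))
    (hok : ∀ x, x0 ≤ x → x < x0 + n → ∀ ω, 0 < P.w ω → (C x).Ok K ω)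
    (hok0 : ∀ ω, 0 < P.w ω → (C x0).Ok K ω)
    (hf : ∀ x, x0 ≤ x → x < x0 + n → ∀ ω, 0 < P.w ω → Fst K (C x0) (C x) r (kc x) i ω)
    (hki : ∀ x, x0 ≤ x → x < x0 + n → kc x ≤ i) (hki0 : kc x0 ≤ i)
    (hl : ∀ x, x0 ≤ x → x < x0 + n → (C x).Lev (kc x) (bc x)) (hl0 : (C x0).Lev (kc x0) (bc x0))
    (hbc : ∀ x, x0 ≤ x → x < x0 + n → bc x0 ≤ bc x)
    (hT : ∀ x, x0 ≤ x → x < x0 + n →
      Fn P ((C x).T i) (fun ω => ((C x0).T i ω, (C x).cell (kc x) (bc x) ω)))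
    (hn : ∀ x, x0 ≤ x → x < x0 + n → (C x).rf i + (C x).μ ≤ (C x0).rf i + p)
    (hr : ∀ x, x0 ≤ x → x < x0 + n → (C x).rf i + 2 * (C x).μ ≤ r + bc x)
    {K' : ℝ} (hK' : 90 * K ^ 5 ≤ K') {M : ℕ} (hM : 90 * K ^ 5 ≤ M)
    {N0 g : ℕ} (hN : 43 * K ^ 5 ≤ N0)
    (hg : (C x0).a i - (C x0).a (kc x0) + ((C x0).rf i - (C x0).R (kc x0) (bc x0)) + 3 * (C x0).μ ≤ g)
    {HT ε : ℝ} (hHT : hc P ((C x0).T i) ((C x0).cell (kc x0) (bc x0)) ≤ HT)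
    (W : ℕ → Ω → V) (ν ν' : ℕ → ℝ)
    (hW : ∀ x, x0 ≤ x → x < x0 + n → hc P (W x) ((C (x + β)).cell (kc (x + β)) (bc (x + β))) ≤ ν' x)
    (hν : ∀ x, x0 ≤ x → x < x0 + n → hc P ((C x).cell (kc x) (bc x))
      ((C (x + β)).cell (kc (x + β)) (bc (x + β))) ≤ ν x)
    (hε : ∀ x, x0 ≤ x → x < x0 + β → hc P ((C x0).cell (kc x0) (bc x0)) ((C x).cell (kc x) (bc x)) ≤ ε) :
    ∑ x ∈ Ico x0 (x0 + n), mi P (fun ω => ((C x).T i ω, SR (C x) i (bc x) ω)) (W x)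
        ((C x).cell (kc x) (bc x)) ≤
      β * (HT + (Real.log (5 * N0) + g * Real.log 2 + p * Real.log 2) + ε) +
        ∑ x ∈ Ico x0 (x0 + n), (ν x + ν' x +
          (2 + Real.log (2 * M + 3)) * Real.sqrt (prE P (BadS (C x) K' i (bc x)))) := by
  refine f2_fix0 P (fun ω => ((C x0).T i ω, fl1 ((C x0).rf i + p) (slR (C x0) i (bc x0) ω + (C x0).o 4)))
    (fun x ω => ((C x).T i ω, SR (C x) i (bc x) ω)) (fun x => (C x).cell (kc x) (bc x)) W ν ν' _ x0 n β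
    ?_ hW hν (s_first P (C x0) h1 hok0 hki0 hl0 hN hg hHT) hε
  intro x hx1 hx2
  exact Th_two P (C x0) (C x) (h2 x hx1 hx2) h1 (hok x hx1 hx2) (hf x hx1 hx2) (hki x hx1 hx2) (hl x hx1 hx2)
    (hbc x hx1 hx2) _ (hT x hx1 hx2) (hn x hx1 hx2) (hr x hx1 hx2) hK' hM

end dig

end Vale.Agent.P106.U.H420
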