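import Vale.Agent.P106.U.H377.LabE

/-!
# P106 / U / H420 : block [PTY] of END7 : given the cell, the slope is an affine function of `(Q 0, Q 1, 2^-q Q 2)`
-/

set_option autoImplicit false

namespace Vale.Agent.P106.U.End7.H420

open Finset Vale.Agent.P127 Vale.Agent.P127.Stk Vale.Agent.P127.U.CellD Vale.Agent.P106.W
open Vale.Agent.P106.U Vale.Agent.P106.U.End7
open Vale.Agent.P106.K (Ry RyOk bl Bin)
open Vale.Agent.P122.C2 (fw fn)

/-- the tilt of the slab at the position `Pb` -/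
noncomputable def wv (B : Cbx) (Pb : Fin 2 → ℝ) : Fin 2 → ℝ := fun k =>
  B.κ * B.v k + B.α * (2 * Pb k - 2 * B.p k)

/-- constant term -/
noncomputable def cb (B : Cbx) (Hb : ℝ) : ℝ :=
  -fn B.θ B.v + B.κ * (∑ k, B.v k ^ 2) / 2 + 2 * B.α * (Hb - ∑ k, B.p k * B.v k - B.ω)

theorem fn_sub (θ : ℝ) (x y : Fin 2 → ℝ) : fn θ (x - y) = fn θ x - fn θ y := by
  unfold fn
  simp only [Pi.sub_apply]
  ring

/-- the increment of the functional of the slab as a function of the slope, position known -/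
theorem slope_id (B : Cbx) (τ Hb : ℝ) (Pb : Fin 2 → ℝ) (l : Ry) :
    B.g1 l.y l.s l.z = fn B.θ l.s * (1 - fn B.θ (wv B Pb)) - fw B.θ l.s * fw B.θ (wv B Pb) +
      (B.κ + 2 * B.α * τ) * ((∑ k, l.s k ^ 2) / 2) + cb B Hb +
      2 * B.α * ((l.hgt τ - Hb) - ∑ k, ((l.y k + τ * l.s k) - Pb k) * l.s k) := by
  have h := dot_eq B.θ l.s (wv B Pb)
  have h1 := fn_sub B.θ l.s B.v
  unfold Cbx.g1 cb K.Ry.hgt
  rw [h1]
  simp only [Fin.sum_univ_two] at h ⊢
  have e0 : wv B Pb 0 = B.κ * B.v 0 + B.α * (2 * Pb 0 - 2 * B.p 0) := rfl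
  have e1 : wv B Pb 1 = B.κ * B.v 1 + B.α * (2 * Pb 1 - 2 * B.p 1) := rfl
  rw [e0, e1] at h
  linear_combination (-1 : ℝ) * h

/-- the components from the coordinates along the frame -/
theorem comp0 (θ : ℝ) (s : Fin 2 → ℝ) : s 0 = Real.cos θ * fw θ s - Real.sin θ * fn θ s := by
  unfold fw fn
  linear_combination (-(s 0)) * Real.sin_sq_add_cos_sq θ

theorem comp1 (θ : ℝ) (s : Fin 2 → ℝ) : s 1 = Real.sin θ * fw θ s + Real.cos θ * fn θ s := by
  unfold fw fn
  linear_combination (-(s 1)) * Real.sin_sq_add_cos_sq θ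

theorem div_le' {x D a b : ℝ} (hD : 115 / 1000 ≤ D) (hx : |x| ≤ a) (hab : a ≤ 115 / 1000 * b) :
    |x / D| ≤ b := by
  have hD0 : 0 < D := by linarith
  rw [abs_div, abs_of_pos hD0, div_le_iff₀ hD0]
  have hb : 0 ≤ b := by
    have := abs_nonneg x
    linarith
  calc |x| ≤ 115 / 1000 * b := hx.trans hab
    _ ≤ D * b := mul_le_mul_of_nonneg_right hD hb
    _ = b * D := mul_comm _ _

/-- **[PTY]** -/
theorem pTY : PTY := by
  refine ⟨200, by norm_num, ?_⟩
  intro Ω _ E P hS z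
  by_cases hz : ∃ ω, 0 < P.w ω ∧ E.Zh E.h ω = z
  swap
  · refine ⟨fun _ _ => 0, fun _ => 0, fun _ _ => by simp, fun _ => by simp, ?_⟩
    intro ω hω e
    exact absurd ⟨ω, hω, e⟩ hz
  obtain ⟨o, ho, rfl⟩ := hz
  set B := E.B0 with hB
  set τ := rd E.h (E.t o) with hτ
  set Pb : Fin 2 → ℝ := fun k => (E.l o).y k + τ * (E.l o).s k with hPb
  set Hb := (E.l o).hgt τ with hHb
  have i1 := hS.inn o ho
  rw [Cbx.in_iff] at i1
  rw [hS.u2] at i1
  obtain ⟨j1, j2, j3, -, -⟩ := i1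
  obtain ⟨hok, ht0, ht1⟩ := hS.ok o ho
  have hτ0 : 0 ≤ τ := by
    rw [hτ]
    unfold rd fl1
    refine div_nonneg ?_ (by positivity)
    exact_mod_cast Int.floor_nonneg.2 (mul_nonneg (by positivity) ht0)
  have hτ1 : τ ≤ 1 := by
    have := rd_le E.h (E.t o)
    linarith
  have hα := hS.α8
  have hκ := hS.κ8
  rw [← hB] at hα hκ
  -- the tilt
  have hw : ∀ k, |wv B Pb k| ≤ 5 / 8 := by
    intro k
    have h1 := w_le hτ0 hτ1 hα hκ (hS.v1 k) (j1 k) (j1 k) (hok.2.1 k) (hok.2.1 k)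
    have h2 : wv B Pb k = B.κ * B.v k + B.α * (((E.l o).y k + τ * (E.l o).s k) +
      ((E.l o).y k + τ * (E.l o).s k) - 2 * B.p k) := by
      unfold wv
      simp only [hPb]
      ring
    rw [h2]
    exact h1
  obtain ⟨hfn, hfw⟩ := dir_le (θ := B.θ) hw
  set D := 1 - fn B.θ (wv B Pb) with hD
  have hD1 : 115 / 1000 ≤ D := by
    have := (abs_le.1 hfn).2
    linarith
  have hD0 : 0 < D := by linarith
  -- the constant
  have hv := hS.v1
  rw [← hB] at hv j1 j2 j3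
  have hc0 := Real.abs_cos_le_one B.θ
  have hs0 := Real.abs_sin_le_one B.θ
  have hcb : |cb B Hb| ≤ 3125 / 1000 := by
    have a1 : |fn B.θ B.v| ≤ 2 := by
      unfold fn
      have e1 : |-Real.sin B.θ * B.v 0| ≤ 1 := by
        rw [abs_mul, abs_neg]
        calc |Real.sin B.θ| * |B.v 0| ≤ 1 * 1 := mul_le_mul hs0 (hv 0) (abs_nonneg _) (by norm_num)
          _ = 1 := by norm_num
      have e2 : |Real.cos B.θ * B.v 1| ≤ 1 := by
        rw [abs_mul]
        calc |Real.cos B.θ| * |B.v 1| ≤ 1 * 1 := mul_le_mul hc0 (hv 1) (abs_nonneg _) (by norm_num)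
          _ = 1 := by norm_num
      calc _ ≤ |-Real.sin B.θ * B.v 0| + |Real.cos B.θ * B.v 1| := abs_add_le _ _
        _ ≤ 2 := by linarith
    have a2 : |B.κ * (∑ k, B.v k ^ 2) / 2| ≤ 1 / 8 := by
      have e1 : |∑ k, B.v k ^ 2| ≤ 2 := by
        rw [Fin.sum_univ_two, abs_of_nonneg (by positivity)]
        have := (sq_le_one_iff_abs_le_one _).2 (hv 0)
        have := (sq_le_one_iff_abs_le_one _).2 (hv 1)
        linarith
      rw [abs_div, abs_mul, abs_of_pos (by norm_num : (0 : ℝ) < 2)]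
      have : |B.κ| * |∑ k, B.v k ^ 2| ≤ 1 / 8 * 2 :=
        mul_le_mul hκ e1 (abs_nonneg _) (by norm_num)
      linarith
    have a3 : |Hb - ∑ k, B.p k * B.v k - B.ω| ≤ 4 := by
      have e1 : Hb - ∑ k, B.p k * B.v k - B.ω = B.zz (E.l o).y (E.l o).s (E.l o).z +
          ((E.l o).y 0 - B.p 0) * B.v 0 + ((E.l o).y 1 - B.p 1) * B.v 1 +
          τ * (((E.l o).s 0 ^ 2 + (E.l o).s 1 ^ 2) / 2) := by
        rw [hHb]
        unfold K.Ry.hgt Cbx.zz
        simp only [Fin.sum_univ_two]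
        ring
      have e2 : |B.zz (E.l o).y (E.l o).s (E.l o).z| ≤ 1 := by
        refine j3.trans ?_
        norm_num
      have e3 : |((E.l o).y 0 - B.p 0) * B.v 0| ≤ 1 := by
        rw [abs_mul]
        calc _ ≤ 1 * 1 := mul_le_mul (j1 0) (hv 0) (abs_nonneg _) (by norm_num)
          _ = 1 := by norm_num
      have e4 : |((E.l o).y 1 - B.p 1) * B.v 1| ≤ 1 := by
        rw [abs_mul]
        calc _ ≤ 1 * 1 := mul_le_mul (j1 1) (hv 1) (abs_nonneg _) (by norm_num)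
          _ = 1 := by norm_num
      have e5 : |τ * (((E.l o).s 0 ^ 2 + (E.l o).s 1 ^ 2) / 2)| ≤ 1 := by
        have g1 := (sq_le_one_iff_abs_le_one _).2 (hok.2.1 0)
        have g2 := (sq_le_one_iff_abs_le_one _).2 (hok.2.1 1)
        rw [abs_of_nonneg (by positivity)]
        calc τ * (((E.l o).s 0 ^ 2 + (E.l o).s 1 ^ 2) / 2) ≤ 1 * 1 :=
              mul_le_mul hτ1 (by linarith) (by positivity) (by norm_num)
          _ = 1 := by norm_num
      rw [e1]
      rw [abs_le] at e2 e3 e4 e5 ⊢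
      constructor <;> linarith [e2.1, e2.2, e3.1, e3.2, e4.1, e4.2, e5.1, e5.2]
    have a4 : |2 * B.α * (Hb - ∑ k, B.p k * B.v k - B.ω)| ≤ 1 := by
      rw [abs_mul, abs_mul, abs_of_pos (by norm_num : (0 : ℝ) < 2)]
      have : 2 * |B.α| ≤ 1 / 4 := by linarith
      calc 2 * |B.α| * |Hb - ∑ k, B.p k * B.v k - B.ω| ≤ 1 / 4 * 4 :=
            mul_le_mul this a3 (abs_nonneg _) (by norm_num)
        _ = 1 := by norm_num
    unfold cb
    rw [abs_le] at a1 a2 a4 ⊢
    constructor <;> linarith [a1.1, a1.2, a2.1, a2.2, a4.1, a4.2]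
  have hkt := kt_le hτ0 hτ1 hα hκ
  set nv : Fin 2 → ℝ := ![-Real.sin B.θ, Real.cos B.θ] with hnv
  set ww : Fin 2 → ℝ := ![Real.cos B.θ, Real.sin B.θ] with hww
  have hn1 : ∀ i, |nv i| ≤ 1 := by
    intro i
    fin_cases i
    · show |-Real.sin B.θ| ≤ 1
      rw [abs_neg]
      exact hs0
    · exact hc0
  have hw1 : ∀ i, |ww i| ≤ 1 := by
    intro i
    fin_cases i
    · exact hc0
    · exact hs0
  refine ⟨fun i => ![2 * ww i + nv i * (2 * fw B.θ (wv B Pb)) / D,
    -(nv i * (B.κ + 2 * B.α * τ)) / D, nv i / D], fun i => -(nv i * cb B Hb) / D, ?_, ?_, ?_⟩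
  · intro i j
    have hn := hn1 i
    have hwi := hw1 i
    fin_cases j
    · show |2 * ww i + nv i * (2 * fw B.θ (wv B Pb)) / D| ≤ 200
      have e1 : |nv i * (2 * fw B.θ (wv B Pb)) / D| ≤ 20 := by
        refine div_le' hD1 (a := 2) ?_ (by norm_num)
        rw [abs_mul, abs_mul, abs_of_pos (by norm_num : (0 : ℝ) < 2)]
        calc |nv i| * (2 * |fw B.θ (wv B Pb)|) ≤ 1 * 2 :=
              mul_le_mul hn (by linarith) (by positivity) (by norm_num)
          _ = 2 := by norm_num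
      have e2 : |2 * ww i| ≤ 2 := by
        rw [abs_mul, abs_of_pos (by norm_num : (0 : ℝ) < 2)]
        linarith
      calc _ ≤ |2 * ww i| + |nv i * (2 * fw B.θ (wv B Pb)) / D| := abs_add_le _ _
        _ ≤ 200 := by linarith
    · show |-(nv i * (B.κ + 2 * B.α * τ)) / D| ≤ 200
      refine div_le' hD1 (a := 1) ?_ (by norm_num)
      rw [abs_neg, abs_mul]
      calc |nv i| * |B.κ + 2 * B.α * τ| ≤ 1 * 1 :=
            mul_le_mul hn (by linarith) (abs_nonneg _) (by norm_num)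
        _ = 1 := by norm_num
    · show |nv i / D| ≤ 200
      exact div_le' hD1 (a := 1) hn (by norm_num)
  · intro i
    refine div_le' hD1 (a := 4) ?_ (by norm_num)
    rw [abs_neg, abs_mul]
    calc |nv i| * |cb B Hb| ≤ 1 * 4 :=
          mul_le_mul (hn1 i) (by linarith) (abs_nonneg _) (by norm_num)
      _ = 4 := by norm_num
  · intro ω hω he i
    obtain ⟨ht, hP, hH, -⟩ := pos_close hS ho hω he.symm
    rw [← hτ] at hP hH
    obtain ⟨hok', -, -⟩ := hS.ok ω hω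
    set l := E.l ω with hl
    set err := 2 * B.α * ((l.hgt τ - Hb) - ∑ k, ((l.y k + τ * l.s k) - Pb k) * l.s k) with herr
    have hid := slope_id B τ Hb Pb l
    rw [← herr, ← hD] at hid
    set u : ℝ := (1 / 2) ^ E.h with hu
    have hu0 : 0 < u := by
      rw [hu]
      positivity
    have herr1 : |err| ≤ 16 * u := by
      have e1 : |l.hgt τ - Hb| ≤ u := by
        rw [abs_sub_comm]
        exact hH
      have e2 : ∀ k, |((l.y k + τ * l.s k) - Pb k) * l.s k| ≤ 30 * u := by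
        intro k
        rw [abs_mul]
        have g1 : |(l.y k + τ * l.s k) - Pb k| ≤ 30 * u := by
          rw [abs_sub_comm]
          exact hP k
        calc _ ≤ 30 * u * 1 := mul_le_mul g1 (hok'.2.1 k) (abs_nonneg _) (by linarith)
          _ = 30 * u := by ring
      have e3 : |(l.hgt τ - Hb) - ∑ k, ((l.y k + τ * l.s k) - Pb k) * l.s k| ≤ 61 * u := by
        rw [Fin.sum_univ_two]
        have g0 := e2 0
        have g1 := e2 1
        rw [abs_le] at e1 g0 g1 ⊢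
        constructor <;> linarith [e1.1, e1.2, g0.1, g0.2, g1.1, g1.2]
      rw [herr, abs_mul, abs_mul, abs_of_pos (by norm_num : (0 : ℝ) < 2)]
      have g2 : 2 * |B.α| ≤ 1 / 4 := by linarith
      calc 2 * |B.α| * |(l.hgt τ - Hb) - ∑ k, ((l.y k + τ * l.s k) - Pb k) * l.s k|
          ≤ 1 / 4 * (61 * u) := mul_le_mul g2 e3 (abs_nonneg _) (by norm_num)
        _ ≤ 16 * u := by linarith
    have hfn' : fn B.θ l.s = (B.g1 l.y l.s l.z + fw B.θ l.s * fw B.θ (wv B Pb) -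
        (B.κ + 2 * B.α * τ) * ((∑ k, l.s k ^ 2) / 2) - cb B Hb - err) / D := by
      rw [eq_div_iff hD0.ne']
      linarith
    have hq : (1 / 2 : ℝ) ^ E.q * (2 ^ E.q * B.g1 l.y l.s l.z) = B.g1 l.y l.s l.z := by
      rw [← mul_assoc, ← mul_pow]
      norm_num
    have hcomp : l.s i = ww i * fw B.θ l.s + nv i * fn B.θ l.s := by
      fin_cases i
      · show l.s 0 = Real.cos B.θ * fw B.θ l.s + -Real.sin B.θ * fn B.θ l.s
        have := comp0 B.θ l.s
        linarith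
      · show l.s 1 = Real.sin B.θ * fw B.θ l.s + Real.cos B.θ * fn B.θ l.s
        exact comp1 B.θ l.s
    show |l.s i - ((2 * ww i + nv i * (2 * fw B.θ (wv B Pb)) / D) * (fw B.θ l.s / 2) +
      -(nv i * (B.κ + 2 * B.α * τ)) / D * ((∑ k, l.s k ^ 2) / 2) +
      nv i / D * ((1 / 2 : ℝ) ^ E.q * (2 ^ E.q * B.g1 l.y l.s l.z)) +
      -(nv i * cb B Hb) / D)| ≤ 200 * u
    have hfin : l.s i - ((2 * ww i + nv i * (2 * fw B.θ (wv B Pb)) / D) * (fw B.θ l.s / 2) +
      -(nv i * (B.κ + 2 * B.α * τ)) / D * ((∑ k, l.s k ^ 2) / 2) +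
      nv i / D * ((1 / 2 : ℝ) ^ E.q * (2 ^ E.q * B.g1 l.y l.s l.z)) +
      -(nv i * cb B Hb) / D) = -(nv i * err) / D := by
      rw [hq]
      rw [hcomp, hfn']
      field_simp
      ring
    rw [hfin]
    refine div_le' hD1 (a := 16 * u) ?_ (by linarith)
    rw [abs_neg, abs_mul]
    calc |nv i| * |err| ≤ 1 * (16 * u) :=
          mul_le_mul (hn1 i) herr1 (abs_nonneg _) (by norm_num)
      _ = 16 * u := by ring

end Vale.Agent.P106.U.End7.H420
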